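/-
Row 195 (Saxl conjecture S0297, tensor square conjecture S0298): definitions.
Owner: helper58.  See Crest/Agent/R195/Plan.lean for the overview of the proof.
-/
import Mathlib
import Crest.Prelude.Def_SpechtModule

set_option autoImplicit false

namespace Crest.Agent.R195

open Equiv Finset

/-- group algebra of the symmetric group on `ι` -/
abbrev GA (ι : Type) := MonoidAlgebra ℂ (Equiv.Perm ι)
/-- word module: free vector space on words `ι → ℕ` -/
abbrev WM (ι : Type) := (ι → ℕ) →₀ ℂ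

/-- renaming of positions -/
def wact {ι : Type} (σ : Perm ι) (x : ι → ℕ) : ι → ℕ := fun i => x (σ.symm i)

/-- the permutation representation on words -/
noncomputable def wrep (ι : Type) : Representation ℂ (Perm ι) (WM ι) where
  toFun g := Finsupp.lmapDomain ℂ ℂ (wact g)
  map_one' := by
    ext x : 1
    ext : 1
    simp only [LinearMap.comp_apply, Finsupp.lsingle_apply, Finsupp.lmapDomain_apply,
      Finsupp.mapDomain_single, Module.End.one_apply]
    rfl
  map_mul' g h := by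
    ext x : 1
    ext : 1
    simp only [LinearMap.comp_apply, Finsupp.lsingle_apply, Finsupp.lmapDomain_apply,
      Finsupp.mapDomain_single, Module.End.mul_apply]
    rfl

/-- action of the group algebra on the word module -/
noncomputable def act {ι : Type} : GA ι →ₐ[ℂ] Module.End ℂ (WM ι) := (wrep ι).asAlgebraHom

/-- the group element `g` inside the group algebra -/
noncomputable def el {ι : Type} (g : Perm ι) : GA ι := MonoidAlgebra.single g 1

/-- row index of a filling -/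
def rowf {ι : Type} (T : ι → ℕ × ℕ) : ι → ℕ := fun i => (T i).1
/-- column index of a filling -/
def colf {ι : Type} (T : ι → ℕ × ℕ) : ι → ℕ := fun i => (T i).2

/-- `T` restricted to `P` is a tableau of shape `μ` (values outside `P` are arbitrary) -/
def IsTab {ι : Type} (P : Finset ι) (T : ι → ℕ × ℕ) (μ : YoungDiagram) : Prop :=
  Set.BijOn T (P : Set ι) (μ.cells : Set (ℕ × ℕ))

/-- permutations supported in `P` -/
def SP {ι : Type} (P : Finset ι) : Subgroup (Perm ι) where
  carrier := {σ | ∀ i, i ∉ P → σ i = i}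
  one_mem' := fun _ _ => rfl
  mul_mem' := fun {a b} ha hb i hi => by
    rw [Perm.mul_apply, hb i hi, ha i hi]
  inv_mem' := fun {a} ha i hi => by
    rw [Perm.inv_eq_iff_eq]; exact (ha i hi).symm

/-- the subalgebra `ℂ[S_P]` -/
noncomputable def GP {ι : Type} (P : Finset ι) : Subalgebra ℂ (GA ι) :=
  Algebra.adjoin ℂ {a | ∃ g ∈ SP P, a = el g}

/-- Hermitian inner product on the word module (conjugate linear in the first slot) -/
noncomputable def ip {ι : Type} (v w : WM ι) : ℂ := v.sum fun x a => (starRingEnd ℂ) a * w x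

open Classical in
/-- projection onto the words satisfying `q` -/
noncomputable def flt {ι : Type} (q : (ι → ℕ) → Prop) : WM ι →ₗ[ℂ] WM ι where
  toFun v := v.filter q
  map_add' _ _ := Finsupp.filter_add
  map_smul' _ _ := Finsupp.filter_smul

/-- `P` is an initial segment ("prefix") for the time function `τ` -/
def IsPre {ι : Type} (τ : ι → ℤ) (P : Finset ι) : Prop := ∀ i ∈ P, ∀ j, τ j ≤ τ i → j ∈ P

variable {ι : Type} [Fintype ι] [DecidableEq ι]

/-- permutations supported in `P` that preserve `f` -/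
def stab (P : Finset ι) (f : ι → ℕ) : Finset (Perm ι) :=
  univ.filter fun σ => (∀ i, i ∉ P → σ i = i) ∧ ∀ i, f (σ i) = f i

/-- the sign as a complex number -/
noncomputable def sg (σ : Perm ι) : ℂ := (((Perm.sign σ : ℤˣ) : ℤ) : ℂ)

/-- symmetriser over the level sets of `f` inside `P` -/
noncomputable def psym (P : Finset ι) (f : ι → ℕ) : GA ι := ∑ σ ∈ stab P f, el σ
/-- antisymmetriser over the level sets of `f` inside `P` -/
noncomputable def palt (P : Finset ι) (f : ι → ℕ) : GA ι := ∑ σ ∈ stab P f, sg σ • el σ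
/-- symmetriser of the set `S` -/
noncomputable def sym (S : Finset ι) : GA ι := psym S (fun _ => 0)
/-- antisymmetriser of the set `S` -/
noncomputable def alt (S : Finset ι) : GA ι := palt S (fun _ => 0)

/-- Young symmetriser (rows symmetrised on the left) -/
noncomputable def yc (P : Finset ι) (T : ι → ℕ × ℕ) : GA ι := psym P (rowf T) * palt P (colf T)
/-- Young symmetriser in the other order -/
noncomputable def yc' (P : Finset ι) (T : ι → ℕ × ℕ) : GA ι := palt P (colf T) * psym P (rowf T)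

/-- the two-sided ideal of `ℂ[S_P]` belonging to the shape `μ` -/
noncomputable def Idl (P : Finset ι) (μ : YoungDiagram) : Submodule ℂ (GA ι) :=
  Submodule.span ℂ {a | ∃ g ∈ SP P, ∃ T, IsTab P T μ ∧ a = el g * yc P T}

/-- the sign twist automorphism of the group algebra -/
noncomputable def omega : GA ι →ₐ[ℂ] GA ι :=
  MonoidAlgebra.lift ℂ (GA ι) (Perm ι)
    { toFun := fun g => sg g • el g
      map_one' := by simp [sg, el, MonoidAlgebra.one_def]
      map_mul' := fun g h => by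
        simp [sg, el, MonoidAlgebra.single_mul_single, mul_comm] }

/-- `Eop P i j` replaces one letter `j` (at a position in `P`) by the letter `i` -/
noncomputable def Eop (P : Finset ι) (i j : ℕ) : WM ι →ₗ[ℂ] WM ι :=
  Finsupp.linearCombination ℂ fun x : ι → ℕ =>
    ∑ p ∈ P.filter (fun p => x p = j), Finsupp.single (Function.update x p i) (1 : ℂ)

/-- number of letters `r` at positions in `P` -/
def wt (P : Finset ι) (x : ι → ℕ) (r : ℕ) : ℕ := (P.filter fun p => x p = r).card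

/-- highest weight vectors of weight `μ` (relative to the positions in `P`) -/
def HW (P : Finset ι) (μ : YoungDiagram) : Submodule ℂ (WM ι) where
  carrier := {v | (∀ x, v x ≠ 0 → ∀ r, wt P x r = μ.rowLen r) ∧ ∀ i j, i < j → Eop P i j v = 0}
  zero_mem' := ⟨fun x hx => absurd rfl hx, fun _ _ _ => map_zero _⟩
  add_mem' := fun {a b} ha hb => ⟨fun x hx => by
      by_cases h : a x = 0
      · exact hb.1 x (fun h' => hx (by simp [h, h']))
      · exact ha.1 x h, fun i j hij => by rw [map_add, ha.2 i j hij, hb.2 i j hij, add_zero]⟩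
  smul_mem' := fun c {a} ha => ⟨fun x hx => ha.1 x (fun h' => hx (by simp [h'])),
      fun i j hij => by rw [map_smul, ha.2 i j hij, smul_zero]⟩

/-- polytabloid (relative to the positions in `P`) -/
noncomputable def ptab (P : Finset ι) (T : ι → ℕ × ℕ) : WM ι :=
  act (palt P (colf T)) (Finsupp.single (rowf T) 1)

/-- Specht module (relative to `P`; letters outside `P` are arbitrary) -/
noncomputable def Spec (P : Finset ι) (μ : YoungDiagram) : Submodule ℂ (WM ι) :=
  Submodule.span ℂ {v | ∃ T, IsTab P T μ ∧ v = ptab P T}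

/-- the `μ`-isotypic part of the word module for the group `S_P` -/
def Iso (P : Finset ι) (μ : YoungDiagram) : Submodule ℂ (WM ι) where
  carrier := {v | ∀ T ν, IsTab P T ν → ν ≠ μ → act (yc P T) v = 0}
  zero_mem' := fun _ _ _ _ => map_zero _
  add_mem' := fun {a b} ha hb T ν h h' => by rw [map_add, ha T ν h h', hb T ν h h', add_zero]
  smul_mem' := fun c {a} ha T ν h h' => by rw [map_smul, ha T ν h h', smul_zero]

/-- the span of lowering operators applied to highest weight vectors -/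
noncomputable def Low (P : Finset ι) (μ : YoungDiagram) : Submodule ℂ (WM ι) :=
  sInf {N | HW P μ ≤ N ∧ ∀ i j, i < j → ∀ v ∈ N, Eop P j i v ∈ N}

/-- `T` is a standard tableau of shape `κ` for the (injective) time function `τ` -/
def Std (τ : ι → ℤ) (T : ι → ℕ × ℕ) (κ : YoungDiagram) : Prop :=
  Function.Injective τ ∧ IsTab univ T κ ∧ ∀ i j, T i ≤ T j → τ i ≤ τ j

/-- Gelfand-Tsetlin vectors of the standard tableau `T` -/
def IsGT (τ : ι → ℤ) (T : ι → ℕ × ℕ) (κ : YoungDiagram) (v : WM ι) : Prop :=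
  v ∈ Spec univ κ ∧ ∀ P μ, IsPre τ P → IsTab P T μ → v ∈ Iso P μ

/-- matrix coefficients of the Gelfand-Tsetlin vector of `T` -/
def mcs (τ : ι → ℤ) (T : ι → ℕ × ℕ) (κ : YoungDiagram) : Set (Perm ι → ℂ) :=
  {α | ∃ (v : WM ι) (φ : Module.Dual ℂ (WM ι)), IsGT τ T κ v ∧ ∀ g, α g = φ (wrep ι g v)}

/-- group algebra element attached to a product of two matrix coefficients -/
noncomputable def Aelt (α β : Perm ι → ℂ) : GA ι := ∑ g : Perm ι, (α g * β g) • el g⁻¹

/-- the cyclic module generated by (GT vector of the backward standard tableau `T1`) ⊗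
(GT vector of the forward standard tableau `T2`) contains the irreducible of shape `l` -/
def Good (τ : ι → ℤ) (T1 T2 : ι → ℕ × ℕ) (κ1 κ2 l : YoungDiagram) : Prop :=
  ∃ α ∈ mcs (-τ) T1 κ1, ∃ β ∈ mcs τ T2 κ2, ∃ T, IsTab univ T l ∧ Aelt α β * yc univ T ≠ 0

/-- the cyclic module generated by `u ⊗ w` contains the irreducible of shape `l` -/
def GoodVec (u w : WM ι) (l : YoungDiagram) : Prop :=
  ∃ (φ ψ : Module.Dual ℂ (WM ι)) (T : ι → ℕ × ℕ), IsTab univ T l ∧
    Aelt (fun g => φ (wrep ι g u)) (fun g => ψ (wrep ι g w)) * yc univ T ≠ 0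

section Sum
variable {Y Z : Type} [Fintype Y] [DecidableEq Y] [Fintype Z] [DecidableEq Z]

/-- the Young subgroup `S_Y × S_Z → S_ι` -/
def jj {ι Y Z : Type} (e : Y ⊕ Z ≃ ι) (gY : Perm Y) (gZ : Perm Z) : Perm ι :=
  e.permCongr (Perm.sumCongr gY gZ)

/-- `S_Y → S_ι` -/
def jL {ι Y Z : Type} (e : Y ⊕ Z ≃ ι) : Perm Y →* Perm ι where
  toFun g := jj e g 1
  map_one' := by ext i; simp [jj]
  map_mul' g h := by
    ext i
    obtain ⟨x, rfl⟩ := e.surjective i
    cases x <;> simp [jj]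

/-- `S_Z → S_ι` -/
def jR {ι Y Z : Type} (e : Y ⊕ Z ≃ ι) : Perm Z →* Perm ι where
  toFun g := jj e 1 g
  map_one' := by ext i; simp [jj]
  map_mul' g h := by
    ext i
    obtain ⟨x, rfl⟩ := e.surjective i
    cases x <;> simp [jj]

/-- `ℂ[S_Y] → ℂ[S_ι]` -/
noncomputable def mapL {ι Y Z : Type} (e : Y ⊕ Z ≃ ι) : GA Y →ₐ[ℂ] GA ι :=
  MonoidAlgebra.mapDomainAlgHom ℂ ℂ (jL e)
/-- `ℂ[S_Z] → ℂ[S_ι]` -/
noncomputable def mapR {ι Y Z : Type} (e : Y ⊕ Z ≃ ι) : GA Z →ₐ[ℂ] GA ι :=
  MonoidAlgebra.mapDomainAlgHom ℂ ℂ (jR e)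

/-- the set `g⁻¹ Y` has at most as many elements in every prefix as `Y` -/
def Bound (τ : ι → ℤ) (e : Y ⊕ Z ≃ ι) (g : Perm ι) : Prop :=
  ∀ P, IsPre τ P → (P.filter fun i => (e.symm (g i)).isLeft).card ≤
    (P.filter fun i => (e.symm i).isLeft).card

/-- extraction property of one tensor factor -/
def Ext (τ : ι → ℤ) (T : ι → ℕ × ℕ) (κ : YoungDiagram) (e : Y ⊕ Z ≃ ι)
    (TY : Y → ℕ × ℕ) (κY : YoungDiagram) (TZ : Z → ℕ × ℕ) (κZ : YoungDiagram) : Prop :=
  ∀ αY ∈ mcs (fun y => τ (e (Sum.inl y))) TY κY, ∀ αZ ∈ mcs (fun z => τ (e (Sum.inr z))) TZ κZ,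
    ∃ α ∈ mcs τ T κ, (∀ gY gZ, α (jj e gY gZ) = αY gY * αZ gZ) ∧ ∀ g, α g ≠ 0 → Bound τ e g

/-- `l` occurs in the representation induced from `ν ⊠ μ` -/
def SplitAlg (e : Y ⊕ Z ≃ ι) (l ν μ : YoungDiagram) : Prop :=
  ∀ TY TZ, IsTab univ TY ν → IsTab univ TZ μ → ∃ T x, IsTab univ T l ∧
    mapL e (yc univ TY) * mapR e (yc univ TZ) * x * yc univ T ≠ 0

/-- merge a word on `Y` with a word on `Z` shifted by `a` -/
def mrg {ι Y Z : Type} (e : Y ⊕ Z ≃ ι) (a : ℕ) (y : Y → ℕ) (z : Z → ℕ) : ι → ℕ :=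
  fun i => Sum.elim y (fun q => z q + a) (e.symm i)

end Sum

/-- staircase -/
def stair (m : ℕ) : YoungDiagram where
  cells := Crest.AlgebraR.Specht.staircaseShape m
  isLowerSet := by
    rintro ⟨a, b⟩ ⟨c, d⟩ ⟨h1, h2⟩ h
    simp only [Crest.AlgebraR.Specht.staircaseShape, coe_filter, mem_product, mem_range,
      Set.mem_ofPred_eq] at *
    omega

/-- two-row shape `(m+1, m)` -/
def zz (m : ℕ) : YoungDiagram where
  cells := (range 2 ×ˢ range (m + 1)).filter fun c => c.1 + c.2 ≤ m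
  isLowerSet := by
    rintro ⟨a, b⟩ ⟨c, d⟩ ⟨h1, h2⟩ h
    simp only [coe_filter, mem_product, mem_range, Set.mem_ofPred_eq] at *
    omega

/-- symmetric hook `(a+1, 1^a)` -/
def hook (a : ℕ) : YoungDiagram where
  cells := (range (a + 1) ×ˢ range (a + 1)).filter fun c => c.1 = 0 ∨ c.2 = 0
  isLowerSet := by
    rintro ⟨a, b⟩ ⟨c, d⟩ ⟨h1, h2⟩ h
    simp only [coe_filter, mem_product, mem_range, Set.mem_ofPred_eq] at *
    omega

open Classical in
/-- `κ` wrapped into the symmetric hook `(a+1, 1^a)` -/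
noncomputable def wrap (a : ℕ) (κ : YoungDiagram) : YoungDiagram where
  cells := (range (a + 1) ×ˢ range (a + 1)).filter fun c =>
    c.1 = 0 ∨ c.2 = 0 ∨ (c.1 - 1, c.2 - 1) ∈ κ
  isLowerSet := by
    rintro ⟨a, b⟩ ⟨c, d⟩ ⟨h1, h2⟩ h
    simp only [coe_filter, mem_product, mem_range, Set.mem_ofPred_eq] at *
    refine ⟨by omega, ?_⟩
    rcases h.2 with h3 | h3 | h3
    · omega
    · omega
    · exact Or.inr (Or.inr (κ.up_left_mem (by omega) (by omega) h3))

/-- forward zigzag tableau of shape `zz m` -/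
def zig2 (m : ℕ) : Fin (2 * m + 1) → ℕ × ℕ := fun p => ((p : ℕ) % 2, (p : ℕ) / 2)
/-- backward zigzag tableau of shape `zz m` -/
def zig1 (m : ℕ) : Fin (2 * m + 1) → ℕ × ℕ := fun p => ((2 * m - p) % 2, (2 * m - p) / 2)
/-- backward ("leg first") tableau of shape `hook a` -/
def hk1 (a : ℕ) : Fin (2 * a + 1) → ℕ × ℕ := fun p =>
  if (p : ℕ) % 2 = 0 then (0, (2 * a - p) / 2) else ((2 * a + 1 - p) / 2, 0)

/-- envelope condition for the staircase induction -/
def EnvS (τ : ι → ℤ) (T1 T2 : ι → ℕ × ℕ) (m : ℕ) : Prop :=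
  ∀ j k, τ j ≤ τ k → max (T2 j).1 (T2 j).2 + (T1 k).2 + 1 ≤ m

/-- envelope condition for the hook induction -/
def EnvH (τ : ι → ℤ) (T1 T2 : ι → ℕ × ℕ) (a : ℕ) : Prop :=
  ∀ j k, τ j ≤ τ k → max (T2 j).1 (T2 j).2 + max (T1 k).1 ((T1 k).2 + 1) + 2 ≤ a

/-- induction statement for the staircase -/
def StateS (m : ℕ) : Prop :=
  ∀ l : YoungDiagram, l.card = (stair m).card →
    ∃ (τ : Fin (stair m).card → ℤ) (T1 T2 : Fin (stair m).card → ℕ × ℕ),
      Std (-τ) T1 (stair m) ∧ Std τ T2 (stair m) ∧ Good τ T1 T2 (stair m) (stair m) l ∧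
        EnvS τ T1 T2 m

/-- induction statement for nested hooks -/
def StateH (n a : ℕ) (S : YoungDiagram → Prop) : Prop :=
  ∃ κ : YoungDiagram, κ.card = n ∧ (∀ c ∈ κ, c.1 < a ∧ c.2 < a) ∧
    ∀ l : YoungDiagram, l.card = n → S l →
      ∃ (τ : Fin n → ℤ) (T1 T2 : Fin n → ℕ × ℕ),
        Std (-τ) T1 κ ∧ Std τ T2 κ ∧ Good τ T1 T2 κ κ l ∧ EnvH τ T1 T2 a

/-- number of rows in which `l` exceeds `ν` by more than `c` cells -/
def dcol (l ν : YoungDiagram) (c : ℕ) : ℕ :=
  ((range (l.colLen 0)).filter fun r => c < l.rowLen r - ν.rowLen r).card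

/-- the word with letter `j+1` at position `p j` and `0` elsewhere -/
def wword {a : ℕ} (p : Fin a → ι) : ι → ℕ := fun i => ∑ j : Fin a, if p j = i then (j : ℕ) + 1 else 0

/-- exterior product of the rows of `x`, realised in the word module -/
noncomputable def wedge {a : ℕ} (x : Matrix (Fin a) ι ℂ) : WM ι :=
  ∑ p : Fin a ↪ ι, (x.submatrix id p).det • Finsupp.single (wword p) (1 : ℂ)

/-- rows `e_{2k+1} - e_{2k+2}` -/
def dmat (a : ℕ) : Matrix (Fin a) (Fin (2 * a + 1)) ℤ := fun k p =>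
  if (p : ℕ) = 2 * k + 1 then 1 else if (p : ℕ) = 2 * k + 2 then -1 else 0

/-- rows `e_{2k+1} + e_{2k+2} - 2 e_0` for `k < i`, and `e_{2k+1} - e_{2k+2}` for `k ≥ i` -/
def wmat (a i : ℕ) : Matrix (Fin a) (Fin (2 * a + 1)) ℤ := fun k p =>
  if (k : ℕ) < i then
    (if (p : ℕ) = 2 * k + 1 ∨ (p : ℕ) = 2 * k + 2 then 1 else if (p : ℕ) = 0 then -2 else 0)
  else dmat a k p

end Crest.Agent.R195
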