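/- Row 195, task Alg0: elementary group algebra facts about `stab`, `psym`, `palt`, `GP`, `omega`. -/
import Crest.Agent.R195.Defs

set_option autoImplicit false

namespace Crest.Agent.R195

open Equiv Finset

variable {ι : Type} [Fintype ι] [DecidableEq ι]

omit [Fintype ι] [DecidableEq ι] in
theorem mem_SP {P : Finset ι} {g : Perm ι} : g ∈ SP P ↔ ∀ i, i ∉ P → g i = i := Iff.rfl

theorem mem_stab {P : Finset ι} {f : ι → ℕ} {σ : Perm ι} :
    σ ∈ stab P f ↔ (∀ i, i ∉ P → σ i = i) ∧ ∀ i, f (σ i) = f i := by simp [stab]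

omit [Fintype ι] [DecidableEq ι] in
theorem SP_apply_mem_iff {P : Finset ι} {g : Perm ι} (hg : g ∈ SP P) (i : ι) : g i ∈ P ↔ i ∈ P := by
  by_cases hi : i ∈ P
  · refine ⟨fun _ => hi, fun _ => ?_⟩
    by_contra h
    have h1 := mem_SP.1 hg _ h
    rw [g.injective h1] at h
    exact h hi
  · rw [mem_SP.1 hg i hi]

omit [Fintype ι] [DecidableEq ι] in
theorem SP_mono {P Q : Finset ι} (h : P ⊆ Q) : SP P ≤ SP Q := by
  intro g hg
  exact mem_SP.2 fun i hi => mem_SP.1 hg i fun h' => hi (h h')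

omit [DecidableEq ι] in
theorem mem_SP_univ (g : Perm ι) : g ∈ SP (univ : Finset ι) := by
  exact mem_SP.2 fun i hi => absurd (mem_univ i) hi

theorem mem_SP_of_mem_stab {P : Finset ι} {f : ι → ℕ} {σ : Perm ι} (h : σ ∈ stab P f) :
    σ ∈ SP P := (mem_stab.1 h).1

theorem mem_stab_zero {P : Finset ι} {σ : Perm ι} : σ ∈ stab P (fun _ => 0) ↔ σ ∈ SP P := by
  simp [mem_stab, mem_SP]

theorem one_mem_stab (P : Finset ι) (f : ι → ℕ) : (1 : Perm ι) ∈ stab P f := by
  simp [mem_stab]

theorem mul_mem_stab {P : Finset ι} {f : ι → ℕ} {σ ρ : Perm ι} (h : σ ∈ stab P f)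
    (h' : ρ ∈ stab P f) : σ * ρ ∈ stab P f := by
  rw [mem_stab] at *
  refine ⟨fun i hi => ?_, fun i => ?_⟩
  · rw [Perm.mul_apply, h'.1 i hi, h.1 i hi]
  · rw [Perm.mul_apply, h.2, h'.2]

theorem inv_mem_stab {P : Finset ι} {f : ι → ℕ} {σ : Perm ι} (h : σ ∈ stab P f) :
    σ⁻¹ ∈ stab P f := by
  rw [mem_stab] at *
  refine ⟨fun i hi => ?_, fun i => ?_⟩
  · rw [Perm.inv_eq_iff_eq]; exact (h.1 i hi).symm
  · have := h.2 (σ⁻¹ i)
    rw [← this]; simp

theorem swap_mem_stab {P : Finset ι} {f : ι → ℕ} {i j : ι} (hi : i ∈ P) (hj : j ∈ P)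
    (h : f i = f j) : swap i j ∈ stab P f := by
  rw [mem_stab]
  refine ⟨fun k hk => ?_, fun k => ?_⟩
  · exact swap_apply_of_ne_of_ne (fun h' => hk (h' ▸ hi)) (fun h' => hk (h' ▸ hj))
  · rw [swap_apply_def]
    split_ifs with h1 h2
    · rw [h1, h]
    · rw [h2, h]
    · rfl

/-- `stab P f` only depends on the partition of `P` into level sets of `f` -/
theorem stab_congr {P : Finset ι} {f f' : ι → ℕ}
    (h : ∀ i ∈ P, ∀ j ∈ P, f i = f j ↔ f' i = f' j) : stab P f = stab P f' := by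
  ext σ
  rw [mem_stab, mem_stab]
  refine and_congr_right fun h1 => forall_congr' fun i => ?_
  by_cases hi : i ∈ P
  · exact h _ ((SP_apply_mem_iff (mem_SP.2 h1) i).2 hi) _ hi
  · simp [h1 i hi]

theorem card_stab_ne_zero (P : Finset ι) (f : ι → ℕ) : ((stab P f).card : ℂ) ≠ 0 := by
  exact Nat.cast_ne_zero.2 (Finset.card_ne_zero.2 ⟨1, one_mem_stab P f⟩)

/-- permutations supported in `S` are products of swaps inside `S` -/
theorem SP_swap_induction {S : Finset ι} {p : Perm ι → Prop} (h1 : p 1)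
    (hs : ∀ g ∈ SP S, ∀ i ∈ S, ∀ j ∈ S, i ≠ j → p g → p (swap i j * g)) :
    ∀ g ∈ SP S, p g := by
  intro g hg
  induction hn : g.support.card using Nat.strong_induction_on generalizing g with
  | _ n ih =>
    by_cases h : g = 1
    · exact h ▸ h1
    · obtain ⟨x, hx⟩ : ∃ x, g x ≠ x := by
        by_contra hc
        push Not at hc
        exact h (Equiv.ext hc)
      have hxS : x ∈ S := by
        by_contra hc
        exact hx (mem_SP.1 hg x hc)
      have hgx : g x ∈ S := (SP_apply_mem_iff hg x).2 hxS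
      have hsw : swap x (g x) ∈ SP S := mem_SP.2 fun k hk =>
        swap_apply_of_ne_of_ne (fun h' => hk (h' ▸ hxS)) (fun h' => hk (h' ▸ hgx))
      have hmem : swap x (g x) * g ∈ SP S := (SP S).mul_mem hsw hg
      have := hs _ hmem x hxS (g x) hgx (Ne.symm hx)
        (ih _ (hn ▸ Perm.card_support_swap_mul hx) _ hmem rfl)
      rwa [swap_mul_self_mul] at this

@[simp] theorem sg_one : sg (1 : Perm ι) = 1 := by simp [sg]
theorem sg_mul (g h : Perm ι) : sg (g * h) = sg g * sg h := by simp [sg]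
@[simp] theorem sg_inv (g : Perm ι) : sg g⁻¹ = sg g := by simp [sg]
theorem sg_swap {i j : ι} (h : i ≠ j) : sg (swap i j) = -1 := by simp [sg, Perm.sign_swap h]
theorem sg_mul_self (g : Perm ι) : sg g * sg g = 1 := by
  rw [sg]
  rcases Int.units_eq_one_or (Perm.sign g) with h | h <;> simp [h]
theorem sg_ne_zero (g : Perm ι) : sg g ≠ 0 := by
  intro h
  have := sg_mul_self g
  rw [h, zero_mul] at this
  exact zero_ne_one this
theorem conj_sg (g : Perm ι) : (starRingEnd ℂ) (sg g) = sg g := by simp [sg]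

omit [Fintype ι] [DecidableEq ι] in
@[simp] theorem el_one : el (1 : Perm ι) = 1 := rfl
omit [Fintype ι] [DecidableEq ι] in
theorem el_mul (g h : Perm ι) : el (g * h) = el g * el h := by
  simp [el, MonoidAlgebra.single_mul_single]

/-- every element is the sum of its coefficients times group elements -/
theorem eq_sum_el (a : GA ι) : a = ∑ g : Perm ι, a.coeff g • el g := by
  ext h
  simp [el, MonoidAlgebra.coeff_sum]

theorem coeff_sum_el (c : Perm ι → ℂ) (h : Perm ι) :
    (∑ g : Perm ι, c g • el g : GA ι).coeff h = c h := by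
  simp [el, MonoidAlgebra.coeff_sum, Finsupp.finsetSum_apply, Finsupp.single_apply]

theorem el_mul_psym {P : Finset ι} {f : ι → ℕ} {g : Perm ι} (h : g ∈ stab P f) :
    el g * psym P f = psym P f := by
  unfold psym
  rw [Finset.mul_sum]
  refine Finset.sum_bij' (fun σ _ => g * σ) (fun σ _ => g⁻¹ * σ)
    (fun σ hσ => mul_mem_stab h hσ) (fun σ hσ => mul_mem_stab (inv_mem_stab h) hσ)
    (fun σ _ => by simp) (fun σ _ => by simp) (fun σ _ => (el_mul _ _).symm)
theorem psym_mul_el {P : Finset ι} {f : ι → ℕ} {g : Perm ι} (h : g ∈ stab P f) :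
    psym P f * el g = psym P f := by
  unfold psym
  rw [Finset.sum_mul]
  refine Finset.sum_bij' (fun σ _ => σ * g) (fun σ _ => σ * g⁻¹)
    (fun σ hσ => mul_mem_stab hσ h) (fun σ hσ => mul_mem_stab hσ (inv_mem_stab h))
    (fun σ _ => by simp) (fun σ _ => by simp) (fun σ _ => (el_mul _ _).symm)
theorem el_mul_palt {P : Finset ι} {f : ι → ℕ} {g : Perm ι} (h : g ∈ stab P f) :
    el g * palt P f = sg g • palt P f := by
  unfold palt
  rw [Finset.mul_sum, Finset.smul_sum]
  refine Finset.sum_bij' (fun σ _ => g * σ) (fun σ _ => g⁻¹ * σ)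
    (fun σ hσ => mul_mem_stab h hσ) (fun σ hσ => mul_mem_stab (inv_mem_stab h) hσ)
    (fun σ _ => by simp) (fun σ _ => by simp) (fun σ _ => ?_)
  rw [mul_smul_comm, ← el_mul, smul_smul, sg_mul, ← mul_assoc, sg_mul_self, one_mul]
theorem palt_mul_el {P : Finset ι} {f : ι → ℕ} {g : Perm ι} (h : g ∈ stab P f) :
    palt P f * el g = sg g • palt P f := by
  unfold palt
  rw [Finset.sum_mul, Finset.smul_sum]
  refine Finset.sum_bij' (fun σ _ => σ * g) (fun σ _ => σ * g⁻¹)
    (fun σ hσ => mul_mem_stab hσ h) (fun σ hσ => mul_mem_stab hσ (inv_mem_stab h))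
    (fun σ _ => by simp) (fun σ _ => by simp) (fun σ _ => ?_)
  rw [smul_mul_assoc, ← el_mul, smul_smul, sg_mul, mul_comm (sg σ), ← mul_assoc, sg_mul_self,
    one_mul]

theorem psym_mul_psym {P S : Finset ι} {f f' : ι → ℕ} (h : stab S f' ⊆ stab P f) :
    psym P f * psym S f' = ((stab S f').card : ℂ) • psym P f := by
  conv_lhs => rw [psym.eq_1 S f', Finset.mul_sum]
  rw [Finset.sum_congr rfl fun σ hσ => psym_mul_el (h hσ), Finset.sum_const, Nat.cast_smul_eq_nsmul]
theorem psym_mul_psym' {P S : Finset ι} {f f' : ι → ℕ} (h : stab S f' ⊆ stab P f) :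
    psym S f' * psym P f = ((stab S f').card : ℂ) • psym P f := by
  conv_lhs => rw [psym.eq_1 S f', Finset.sum_mul]
  rw [Finset.sum_congr rfl fun σ hσ => el_mul_psym (h hσ), Finset.sum_const, Nat.cast_smul_eq_nsmul]
theorem palt_mul_palt {P S : Finset ι} {f f' : ι → ℕ} (h : stab S f' ⊆ stab P f) :
    palt P f * palt S f' = ((stab S f').card : ℂ) • palt P f := by
  conv_lhs => rw [palt.eq_1 S f', Finset.mul_sum]
  rw [Finset.sum_congr rfl (g := fun _ => palt P f) fun σ hσ => by
    rw [mul_smul_comm, palt_mul_el (h hσ), smul_smul, sg_mul_self, one_smul],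
    Finset.sum_const, Nat.cast_smul_eq_nsmul]
theorem palt_mul_palt' {P S : Finset ι} {f f' : ι → ℕ} (h : stab S f' ⊆ stab P f) :
    palt S f' * palt P f = ((stab S f').card : ℂ) • palt P f := by
  conv_lhs => rw [palt.eq_1 S f', Finset.sum_mul]
  rw [Finset.sum_congr rfl (g := fun _ => palt P f) fun σ hσ => by
    rw [smul_mul_assoc, el_mul_palt (h hσ), smul_smul, sg_mul_self, one_smul],
    Finset.sum_const, Nat.cast_smul_eq_nsmul]

theorem Alg0_conj_mem (g : Perm ι) (P : Finset ι) (f : ι → ℕ) (σ : Perm ι) :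
    g * σ * g⁻¹ ∈ stab (P.map g.toEmbedding) (f ∘ g.symm) ↔ σ ∈ stab P f := by
  rw [mem_stab, mem_stab]
  refine and_congr ⟨fun h i hi => ?_, fun h i hi => ?_⟩ ⟨fun h i => ?_, fun h i => ?_⟩
  · have := h (g i) (by simpa using hi)
    simpa using this
  · rw [Finset.mem_map_equiv] at hi
    have := h _ hi
    simp only [Perm.coe_mul, Function.comp_apply, Perm.coe_inv]
    rw [this]; simp
  · simpa using h (g i)
  · simpa using h (g.symm i)

/-- conjugation of symmetrisers by an arbitrary permutation -/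
theorem el_mul_psym_conj (g : Perm ι) (P : Finset ι) (f : ι → ℕ) :
    el g * psym P f = psym (P.map g.toEmbedding) (f ∘ g.symm) * el g := by
  unfold psym
  rw [Finset.mul_sum, Finset.sum_mul]
  refine Finset.sum_bij' (fun σ _ => g * σ * g⁻¹) (fun σ _ => g⁻¹ * σ * g)
    (fun σ hσ => (Alg0_conj_mem g P f σ).2 hσ)
    (fun σ hσ => (Alg0_conj_mem g P f _).1 (by simpa [mul_assoc] using hσ))
    (fun σ _ => by simp [mul_assoc]) (fun σ _ => by simp [mul_assoc]) (fun σ _ => ?_)
  rw [← el_mul, ← el_mul]; simp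
theorem el_mul_palt_conj (g : Perm ι) (P : Finset ι) (f : ι → ℕ) :
    el g * palt P f = palt (P.map g.toEmbedding) (f ∘ g.symm) * el g := by
  unfold palt
  rw [Finset.mul_sum, Finset.sum_mul]
  refine Finset.sum_bij' (fun σ _ => g * σ * g⁻¹) (fun σ _ => g⁻¹ * σ * g)
    (fun σ hσ => (Alg0_conj_mem g P f σ).2 hσ)
    (fun σ hσ => (Alg0_conj_mem g P f _).1 (by simpa [mul_assoc] using hσ))
    (fun σ _ => by simp [mul_assoc]) (fun σ _ => by simp [mul_assoc]) (fun σ _ => ?_)
  have hs : sg (g * σ * g⁻¹) = sg σ := by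
    rw [sg_mul, sg_mul, sg_inv, mul_comm (sg g), mul_assoc, sg_mul_self, mul_one]
  rw [mul_smul_comm, smul_mul_assoc, ← el_mul, ← el_mul, hs]; simp
omit [Fintype ι] [DecidableEq ι] in
theorem map_eq_of_mem_SP {P : Finset ι} {g : Perm ι} (hg : g ∈ SP P) : P.map g.toEmbedding = P := by
  ext i
  rw [Finset.mem_map_equiv]
  exact SP_apply_mem_iff ((SP P).inv_mem hg) i
theorem el_mul_yc {P : Finset ι} {g : Perm ι} (hg : g ∈ SP P) (T : ι → ℕ × ℕ) :
    el g * yc P T = yc P (T ∘ g.symm) * el g := by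
  unfold yc
  rw [← mul_assoc, el_mul_psym_conj, mul_assoc, el_mul_palt_conj, map_eq_of_mem_SP hg, ← mul_assoc]
  rfl
theorem el_mul_yc' {P : Finset ι} {g : Perm ι} (hg : g ∈ SP P) (T : ι → ℕ × ℕ) :
    el g * yc' P T = yc' P (T ∘ g.symm) * el g := by
  unfold yc'
  rw [← mul_assoc, el_mul_palt_conj, mul_assoc, el_mul_psym_conj, map_eq_of_mem_SP hg, ← mul_assoc]
  rfl
theorem yc_congr {P : Finset ι} {T T' : ι → ℕ × ℕ} (h : ∀ i ∈ P, T i = T' i) :
    yc P T = yc P T' := by
  unfold yc psym palt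
  rw [stab_congr (P := P) (f := rowf T) (f' := rowf T') fun i hi j hj => by
      simp only [rowf, h i hi, h j hj],
    stab_congr (P := P) (f := colf T) (f' := colf T') fun i hi j hj => by
      simp only [colf, h i hi, h j hj]]

/-- two positions in the same symmetrised block and the same antisymmetrised block kill -/
theorem psym_mul_palt_eq_zero {P P' : Finset ι} {f f' : ι → ℕ} {i j : ι} (hij : i ≠ j)
    (hi : i ∈ P) (hj : j ∈ P) (hi' : i ∈ P') (hj' : j ∈ P') (h : f i = f j) (h' : f' i = f' j) :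
    psym P f * palt P' f' = 0 := by
  have h1 := psym_mul_el (swap_mem_stab hi hj h)
  have h2 := el_mul_palt (swap_mem_stab hi' hj' h')
  have h3 : psym P f * palt P' f' = -(psym P f * palt P' f') := by
    conv_lhs => rw [← h1, mul_assoc, h2, sg_swap hij, mul_smul_comm, neg_one_smul]
  have h4 : (2 : ℂ) • (psym P f * palt P' f') = 0 := by
    rw [two_smul]; nth_rewrite 1 [h3]; exact neg_add_cancel _
  exact (smul_eq_zero.1 h4).resolve_left two_ne_zero
theorem palt_mul_psym_eq_zero {P P' : Finset ι} {f f' : ι → ℕ} {i j : ι} (hij : i ≠ j)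
    (hi : i ∈ P) (hj : j ∈ P) (hi' : i ∈ P') (hj' : j ∈ P') (h : f i = f j) (h' : f' i = f' j) :
    palt P' f' * psym P f = 0 := by
  have h1 := el_mul_psym (swap_mem_stab hi hj h)
  have h2 := palt_mul_el (swap_mem_stab hi' hj' h')
  have h3 : palt P' f' * psym P f = -(palt P' f' * psym P f) := by
    conv_lhs => rw [← h1, ← mul_assoc, h2, sg_swap hij, smul_mul_assoc, neg_one_smul]
  have h4 : (2 : ℂ) • (palt P' f' * psym P f) = 0 := by
    rw [two_smul]; nth_rewrite 1 [h3]; exact neg_add_cancel _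
  exact (smul_eq_zero.1 h4).resolve_left two_ne_zero

omit [Fintype ι] [DecidableEq ι] in
theorem el_mem_GP {P : Finset ι} {g : Perm ι} (hg : g ∈ SP P) : el g ∈ GP P := by
  exact Algebra.subset_adjoin ⟨g, hg, rfl⟩
theorem psym_mem_GP (P : Finset ι) (f : ι → ℕ) : psym P f ∈ GP P := by
  exact Subalgebra.sum_mem _ fun σ hσ => el_mem_GP (mem_SP_of_mem_stab hσ)
theorem palt_mem_GP (P : Finset ι) (f : ι → ℕ) : palt P f ∈ GP P := by
  exact Subalgebra.sum_mem _ fun σ hσ => Subalgebra.smul_mem _ (el_mem_GP (mem_SP_of_mem_stab hσ)) _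
theorem yc_mem_GP (P : Finset ι) (T : ι → ℕ × ℕ) : yc P T ∈ GP P := by
  exact Subalgebra.mul_mem _ (psym_mem_GP _ _) (palt_mem_GP _ _)
omit [Fintype ι] [DecidableEq ι] in
theorem GP_mono {P Q : Finset ι} (h : P ⊆ Q) : GP P ≤ GP Q := by
  refine Algebra.adjoin_mono ?_
  rintro a ⟨g, hg, rfl⟩
  exact ⟨g, SP_mono h hg, rfl⟩
theorem mem_GP_univ (a : GA ι) : a ∈ GP (univ : Finset ι) := by
  rw [eq_sum_el a]
  exact Subalgebra.sum_mem _ fun σ _ => Subalgebra.smul_mem _ (el_mem_GP (mem_SP_univ σ)) _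
omit [Fintype ι] [DecidableEq ι] in
/-- linear induction principle for `ℂ[S_P]` -/
theorem GP_induction {P : Finset ι} {p : GA ι → Prop} (h0 : p 0)
    (hel : ∀ g ∈ SP P, p (el g)) (hadd : ∀ a b, p a → p b → p (a + b))
    (hsmul : ∀ (c : ℂ) a, p a → p (c • a)) : ∀ a ∈ GP P, p a := by
  intro a ha
  have h1 : a ∈ Submodule.span ℂ {a : GA ι | ∃ g ∈ SP P, a = el g} := by
    have h2 : a ∈ Subalgebra.toSubmodule (GP P) := ha
    rw [GP, Algebra.adjoin_eq_span] at h2
    refine Submodule.span_mono ?_ h2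
    intro b hb
    induction hb using Submonoid.closure_induction with
    | mem x hx => exact hx
    | one => exact ⟨1, (SP P).one_mem, rfl⟩
    | mul x y _ _ hx hy =>
      obtain ⟨g, hg, rfl⟩ := hx
      obtain ⟨g', hg', rfl⟩ := hy
      exact ⟨g * g', (SP P).mul_mem hg hg', (el_mul _ _).symm⟩
  clear ha
  induction h1 using Submodule.span_induction with
  | mem x hx =>
    obtain ⟨g, hg, rfl⟩ := hx
    exact hel g hg
  | zero => exact h0
  | add x y _ _ hx hy => exact hadd x y hx hy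
  | smul c x _ hx => exact hsmul c x hx
omit [Fintype ι] [DecidableEq ι] in
theorem coeff_eq_zero_of_mem_GP {P : Finset ι} {a : GA ι} (ha : a ∈ GP P) {g : Perm ι}
    (hg : g ∉ SP P) : a.coeff g = 0 := by
  refine GP_induction (p := fun a => a.coeff g = 0) rfl (fun h hh => ?_) (fun a b ha hb => ?_)
    (fun c a ha => ?_) a ha
  · have : h ≠ g := fun e => hg (e ▸ hh)
    simp [el, this]
  · simp [ha, hb]
  · simp [ha]
omit [Fintype ι] [DecidableEq ι] in
theorem GP_commute {P Q : Finset ι} (h : Disjoint P Q) {a b : GA ι} (ha : a ∈ GP P)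
    (hb : b ∈ GP Q) : a * b = b * a := by
  have key : ∀ g ∈ SP P, ∀ g' ∈ SP Q, g * g' = g' * g := by
    intro g hg g' hg'
    refine Perm.Disjoint.commute (fun x => ?_)
    by_cases hx : x ∈ P
    · exact Or.inr (mem_SP.1 hg' x (Finset.disjoint_left.1 h hx))
    · exact Or.inl (mem_SP.1 hg x hx)
  refine GP_induction (p := fun a => a * b = b * a) (by simp) (fun g hg => ?_)
    (fun x y hx hy => by rw [add_mul, mul_add, hx, hy])
    (fun c x hx => by rw [smul_mul_assoc, mul_smul_comm, hx]) a ha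
  refine GP_induction (p := fun b => el g * b = b * el g) (by simp) (fun g' hg' => ?_)
    (fun x y hx hy => by rw [add_mul, mul_add, hx, hy])
    (fun c x hx => by rw [smul_mul_assoc, mul_smul_comm, hx]) b hb
  rw [← el_mul, ← el_mul, key g hg g' hg']

theorem omega_el (g : Perm ι) : omega (el g) = sg g • el g := by
  rw [omega, el, MonoidAlgebra.lift_single, one_smul]
  rfl
theorem omega_omega (a : GA ι) : omega (omega a) = a := by
  conv_rhs => rw [eq_sum_el a]
  conv_lhs => rw [eq_sum_el a]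
  simp only [map_sum, map_smul, omega_el, smul_smul, mul_assoc, sg_mul_self, mul_one]
theorem omega_psym (P : Finset ι) (f : ι → ℕ) : omega (psym P f) = palt P f := by
  simp only [psym, palt, map_sum, omega_el]
theorem omega_palt (P : Finset ι) (f : ι → ℕ) : omega (palt P f) = psym P f := by
  rw [← omega_psym, omega_omega]
theorem omega_yc (P : Finset ι) (T : ι → ℕ × ℕ) : omega (yc P T) = yc' P (Prod.swap ∘ T) := by
  rw [yc, yc', map_mul, omega_psym, omega_palt]
  rfl
theorem omega_mem_GP {P : Finset ι} {a : GA ι} (ha : a ∈ GP P) : omega a ∈ GP P := by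
  refine GP_induction (p := fun a => omega a ∈ GP P) (by simp) (fun g hg => ?_)
    (fun x y hx hy => by rw [map_add]; exact add_mem hx hy)
    (fun c x hx => by rw [map_smul]; exact Subalgebra.smul_mem _ hx _) a ha
  rw [omega_el]
  exact Subalgebra.smul_mem _ (el_mem_GP hg) _

end Crest.Agent.R195
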