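/- Row 195, task Alg1: tableaux, Young diagram helpers, prefixes. -/
import Crest.Agent.R195.Alg0

set_option autoImplicit false

namespace Crest.Agent.R195

open Equiv Finset

variable {ι : Type} [Fintype ι] [DecidableEq ι]

omit [Fintype ι] [DecidableEq ι] in
theorem IsTab.mem {P : Finset ι} {T : ι → ℕ × ℕ} {μ : YoungDiagram} (h : IsTab P T μ) {i : ι}
    (hi : i ∈ P) : T i ∈ μ := by
  exact h.mapsTo hi
omit [Fintype ι] [DecidableEq ι] in
theorem IsTab.inj {P : Finset ι} {T : ι → ℕ × ℕ} {μ : YoungDiagram} (h : IsTab P T μ) {i j : ι}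
    (hi : i ∈ P) (hj : j ∈ P) (hij : T i = T j) : i = j := by
  exact h.injOn hi hj hij
omit [Fintype ι] [DecidableEq ι] in
theorem IsTab.surj {P : Finset ι} {T : ι → ℕ × ℕ} {μ : YoungDiagram} (h : IsTab P T μ)
    {c : ℕ × ℕ} (hc : c ∈ μ) : ∃ i ∈ P, T i = c := by
  exact h.surjOn hc
omit [Fintype ι] [DecidableEq ι] in
theorem isTab_of {P : Finset ι} {T : ι → ℕ × ℕ} {μ : YoungDiagram} (h1 : ∀ i ∈ P, T i ∈ μ)
    (h2 : ∀ i ∈ P, ∀ j ∈ P, T i = T j → i = j) (h3 : ∀ c ∈ μ, ∃ i ∈ P, T i = c) :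
    IsTab P T μ := by
  exact ⟨fun i hi => h1 i hi, fun i hi j hj hij => h2 i hi j hj hij, fun c hc => h3 c hc⟩
omit [Fintype ι] [DecidableEq ι] in
theorem isTab_of_card {P : Finset ι} {T : ι → ℕ × ℕ} {μ : YoungDiagram} (h1 : ∀ i ∈ P, T i ∈ μ)
    (h2 : ∀ i ∈ P, ∀ j ∈ P, T i = T j → i = j) (h3 : μ.card ≤ P.card) :
    IsTab P T μ := by
  refine ⟨fun i hi => h1 i hi, fun i hi j hj hij => h2 i hi j hj hij, ?_⟩
  exact Finset.surjOn_of_injOn_of_card_le T (fun i hi => h1 i hi)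
    (fun i hi j hj hij => h2 i hi j hj hij) h3
omit [Fintype ι] [DecidableEq ι] in
theorem IsTab.card_eq {P : Finset ι} {T : ι → ℕ × ℕ} {μ : YoungDiagram} (h : IsTab P T μ) :
    P.card = μ.card := by
  exact Finset.card_nbij T h.mapsTo h.injOn h.surjOn
omit [Fintype ι] [DecidableEq ι] in
theorem IsTab.unique {P : Finset ι} {T : ι → ℕ × ℕ} {μ ν : YoungDiagram} (h : IsTab P T μ)
    (h' : IsTab P T ν) : μ = ν := by
  have e : (μ.cells : Set (ℕ × ℕ)) = ν.cells := h.image_eq.symm.trans h'.image_eq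
  exact YoungDiagram.ext (Finset.coe_injective e)
omit [Fintype ι] [DecidableEq ι] in
theorem IsTab.congr {P : Finset ι} {T T' : ι → ℕ × ℕ} {μ : YoungDiagram} (h : IsTab P T μ)
    (h' : ∀ i ∈ P, T i = T' i) : IsTab P T' μ := by
  exact Set.BijOn.congr h fun i hi => h' i hi
omit [Fintype ι] [DecidableEq ι] in
theorem IsTab.swap {P : Finset ι} {T : ι → ℕ × ℕ} {μ : YoungDiagram} (h : IsTab P T μ) :
    IsTab P (Prod.swap ∘ T) μ.transpose := by
  refine isTab_of (fun i hi => ?_) (fun i hi j hj hij => h.inj hi hj (Prod.swap_injective hij))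
    fun c hc => ?_
  · rw [YoungDiagram.mem_transpose]
    exact h.mem hi
  · obtain ⟨i, hi, e⟩ := h.surj (YoungDiagram.mem_transpose.1 hc)
    exact ⟨i, hi, by simp [e]⟩
omit [Fintype ι] [DecidableEq ι] in
theorem IsTab.comp {P : Finset ι} {T : ι → ℕ × ℕ} {μ : YoungDiagram} (h : IsTab P T μ)
    {g : Perm ι} (hg : g ∈ SP P) : IsTab P (T ∘ g.symm) μ := by
  have hg' : ∀ i, g.symm i ∈ P ↔ i ∈ P := SP_apply_mem_iff ((SP P).inv_mem hg)
  refine isTab_of (fun i hi => h.mem ((hg' i).2 hi))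
    (fun i hi j hj hij => g.symm.injective (h.inj ((hg' i).2 hi) ((hg' j).2 hj) hij))
    fun c hc => ?_
  obtain ⟨i, hi, e⟩ := h.surj hc
  exact ⟨g i, (SP_apply_mem_iff hg i).2 hi, by simp [e]⟩
omit [Fintype ι] in
theorem IsTab.exists_perm {P : Finset ι} {T T' : ι → ℕ × ℕ} {μ : YoungDiagram} (h : IsTab P T μ)
    (h' : IsTab P T' μ) : ∃ g ∈ SP P, ∀ i ∈ P, T' i = T (g.symm i) := by
  let e : (P : Set ι) ≃ (P : Set ι) := (Set.BijOn.equiv T h).trans (Set.BijOn.equiv T' h').symm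
  refine ⟨Perm.ofSubtype (p := fun i => i ∈ P) e, fun i hi => Perm.ofSubtype_apply_of_not_mem _ hi,
    fun i hi => ?_⟩
  have e1 : (Perm.ofSubtype (p := fun i => i ∈ P) e).symm i = (e.symm ⟨i, hi⟩ : ι) := by
    rw [← Perm.inv_def, ← map_inv]
    exact Perm.ofSubtype_apply_of_mem _ hi
  have e2 : (Set.BijOn.equiv T h) (e.symm ⟨i, hi⟩) = (Set.BijOn.equiv T' h') ⟨i, hi⟩ := by
    simp [e]
  rw [e1]
  exact (congrArg Subtype.val e2).symm
omit [Fintype ι] [DecidableEq ι] in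
theorem exists_isTab {P : Finset ι} {μ : YoungDiagram} (h : P.card = μ.card) :
    ∃ T, IsTab P T μ := by
  classical
  let e : P ≃ μ.cells := Finset.equivOfCardEq h
  refine ⟨fun i => if hi : i ∈ P then (e ⟨i, hi⟩ : ℕ × ℕ) else (0, 0),
    isTab_of_card (fun i hi => ?_) (fun i hi j hj hij => ?_) h.ge⟩
  · rw [dif_pos hi]
    exact (e ⟨i, hi⟩).2
  · rw [dif_pos hi, dif_pos hj] at hij
    exact congrArg Subtype.val (e.injective (Subtype.ext hij))
omit [Fintype ι] in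
theorem IsTab.wt_rowf {P : Finset ι} {T : ι → ℕ × ℕ} {μ : YoungDiagram} (h : IsTab P T μ) (r : ℕ) :
    wt P (rowf T) r = μ.rowLen r := by
  rw [wt, YoungDiagram.rowLen_eq_card]
  refine Finset.card_bij (fun i _ => T i) (fun i hi => ?_) (fun i hi j hj hij => ?_)
    fun c hc => ?_
  · rw [mem_filter] at hi
    exact YoungDiagram.mem_row_iff.2 ⟨h.mem hi.1, hi.2⟩
  · exact h.inj (mem_filter.1 hi).1 (mem_filter.1 hj).1 hij
  · obtain ⟨hc1, hc2⟩ := YoungDiagram.mem_row_iff.1 hc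
    obtain ⟨i, hi, e⟩ := h.surj hc1
    exact ⟨i, mem_filter.2 ⟨hi, by rw [rowf, e, hc2]⟩, e⟩
omit [Fintype ι] in
theorem IsTab.wt_colf {P : Finset ι} {T : ι → ℕ × ℕ} {μ : YoungDiagram} (h : IsTab P T μ) (c : ℕ) :
    wt P (colf T) c = μ.colLen c := by
  rw [wt, YoungDiagram.colLen_eq_card]
  refine Finset.card_bij (fun i _ => T i) (fun i hi => ?_) (fun i hi j hj hij => ?_)
    fun c hc => ?_
  · rw [mem_filter] at hi
    exact YoungDiagram.mem_col_iff.2 ⟨h.mem hi.1, hi.2⟩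
  · exact h.inj (mem_filter.1 hi).1 (mem_filter.1 hj).1 hij
  · obtain ⟨hc1, hc2⟩ := YoungDiagram.mem_col_iff.1 hc
    obtain ⟨i, hi, e⟩ := h.surj hc1
    exact ⟨i, mem_filter.2 ⟨hi, by rw [colf, e, hc2]⟩, e⟩
/-- row group and column group of a tableau intersect trivially -/
theorem IsTab.eq_one_of_mem_stab {P : Finset ι} {T : ι → ℕ × ℕ} {μ : YoungDiagram}
    (h : IsTab P T μ) {g : Perm ι} (hr : g ∈ stab P (rowf T)) (hc : g ∈ stab P (colf T)) :
    g = 1 := by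
  ext i
  by_cases hi : i ∈ P
  · exact h.inj ((SP_apply_mem_iff (mem_SP_of_mem_stab hr) i).2 hi) hi
      (Prod.ext ((mem_stab.1 hr).2 i) ((mem_stab.1 hc).2 i))
  · exact (mem_stab.1 hr).1 i hi

/-! Young diagram helpers -/
theorem yd_ext_rowLen {μ ν : YoungDiagram} (h : ∀ r, μ.rowLen r = ν.rowLen r) : μ = ν := by
  ext ⟨i, j⟩
  rw [YoungDiagram.mem_cells, YoungDiagram.mem_cells, YoungDiagram.mem_iff_lt_rowLen,
    YoungDiagram.mem_iff_lt_rowLen, h]
theorem yd_ext_colLen {μ ν : YoungDiagram} (h : ∀ r, μ.colLen r = ν.colLen r) : μ = ν := by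
  ext ⟨i, j⟩
  rw [YoungDiagram.mem_cells, YoungDiagram.mem_cells, YoungDiagram.mem_iff_lt_colLen,
    YoungDiagram.mem_iff_lt_colLen, h]
theorem exists_yd_of_antitone (f : ℕ → ℕ) (hf : Antitone f) (N : ℕ) (hN : f N = 0) :
    ∃ μ : YoungDiagram, ∀ r, μ.rowLen r = f r := by
  let μ : YoungDiagram :=
    { cells := (range N ×ˢ range (f 0)).filter fun c => c.2 < f c.1
      isLowerSet := by
        rintro ⟨a, b⟩ ⟨c, d⟩ ⟨h1, h2⟩ h
        simp only [coe_filter, mem_product, mem_range, Set.mem_ofPred_eq] at *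
        have := hf h1
        omega }
  have hm : ∀ i j, (i, j) ∈ μ ↔ j < f i := by
    intro i j
    change (i, j) ∈ (range N ×ˢ range (f 0)).filter (fun c => c.2 < f c.1) ↔ _
    simp only [mem_filter, mem_product, mem_range]
    refine ⟨fun h => h.2, fun h => ⟨⟨?_, h.trans_le (hf (Nat.zero_le i))⟩, h⟩⟩
    by_contra hi
    have := hf (not_lt.1 hi)
    omega
  refine ⟨μ, fun r => eq_of_forall_lt_iff fun j => ?_⟩
  rw [← YoungDiagram.mem_iff_lt_rowLen, hm]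
theorem alg1_card_filter_row_lt (μ : YoungDiagram) (k : ℕ) :
    (μ.cells.filter fun c => c.1 < k).card = ∑ r ∈ range k, μ.rowLen r := by
  rw [card_eq_sum_card_fiberwise (f := Prod.fst) (t := range k)
    (fun c hc => by simpa using (mem_filter.1 hc).2)]
  refine sum_congr rfl fun r hr => ?_
  rw [YoungDiagram.rowLen_eq_card, YoungDiagram.row, filter_filter]
  congr 1
  refine filter_congr fun c _ => ⟨fun h => h.2, fun h => ⟨?_, h⟩⟩
  rw [h]
  exact mem_range.1 hr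
theorem card_eq_sum_rowLen (μ : YoungDiagram) {N : ℕ} (hN : μ.colLen 0 ≤ N) :
    μ.card = ∑ r ∈ range N, μ.rowLen r := by
  rw [← alg1_card_filter_row_lt, filter_true_of_mem]
  rintro ⟨i, j⟩ hc
  exact ((YoungDiagram.mem_iff_lt_colLen.1 hc).trans_le (μ.colLen_anti 0 j (Nat.zero_le j))).trans_le
    hN
theorem card_filter_row_lt (μ : YoungDiagram) (k : ℕ) :
    (μ.cells.filter fun c => c.1 < k).card = ∑ r ∈ range k, μ.rowLen r := by
  exact alg1_card_filter_row_lt μ k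
theorem card_transpose (μ : YoungDiagram) : μ.transpose.card = μ.card := by
  exact Finset.card_map _
/-- mutual dominance implies equality -/
theorem yd_eq_of_dom {μ ν : YoungDiagram}
    (h : ∀ k, ∑ r ∈ range k, μ.rowLen r ≤ ∑ r ∈ range k, ν.rowLen r)
    (h' : ∀ k, ∑ r ∈ range k, ν.rowLen r ≤ ∑ r ∈ range k, μ.rowLen r) : μ = ν := by
  have e : ∀ k, ∑ r ∈ range k, μ.rowLen r = ∑ r ∈ range k, ν.rowLen r :=
    fun k => le_antisymm (h k) (h' k)
  refine yd_ext_rowLen fun r => ?_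
  have := e (r + 1)
  rw [sum_range_succ, sum_range_succ, e r] at this
  exact Nat.add_left_cancel this

omit [Fintype ι] [DecidableEq ι] in
theorem isPre_congr {τ τ' : ι → ℤ} (h : ∀ i j, τ i ≤ τ j ↔ τ' i ≤ τ' j) (P : Finset ι) :
    IsPre τ P ↔ IsPre τ' P := by
  simp only [IsPre, h]
theorem isPre_neg_iff_compl {τ : ι → ℤ} (hτ : Function.Injective τ) (P : Finset ι) :
    IsPre (-τ) P ↔ IsPre τ Pᶜ := by
  have _ := hτ
  simp only [IsPre, Pi.neg_apply, neg_le_neg_iff, mem_compl]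
  exact ⟨fun h i hi j hj hj' => hi (h j hj' i hj), fun h i hi j hj => by
    by_contra hj'
    exact h j hj' i hj hi⟩
omit [Fintype ι] [DecidableEq ι] in
theorem IsPre.subset_or_subset {τ : ι → ℤ} {P Q : Finset ι} (hP : IsPre τ P) (hQ : IsPre τ Q) :
    P ⊆ Q ∨ Q ⊆ P := by
  by_contra hh
  rw [not_or] at hh
  obtain ⟨i, hi, hi'⟩ := Finset.not_subset.1 hh.1
  obtain ⟨j, hj, hj'⟩ := Finset.not_subset.1 hh.2
  rcases le_total (τ i) (τ j) with h | h
  · exact hi' (hQ j hj i h)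
  · exact hj' (hP i hi j h)
theorem mcs_congr {τ τ' : ι → ℤ} (h : ∀ i j, τ i ≤ τ j ↔ τ' i ≤ τ' j) (T : ι → ℕ × ℕ)
    (κ : YoungDiagram) : mcs τ T κ = mcs τ' T κ := by
  simp only [mcs, IsGT, isPre_congr h]
theorem good_congr {τ τ' : ι → ℤ} (h : ∀ i j, τ i ≤ τ j ↔ τ' i ≤ τ' j) {T1 T2 : ι → ℕ × ℕ}
    {κ1 κ2 l : YoungDiagram} (hg : Good τ T1 T2 κ1 κ2 l) : Good τ' T1 T2 κ1 κ2 l := by
  have h' : ∀ i j, (-τ) i ≤ (-τ) j ↔ (-τ') i ≤ (-τ') j := fun i j => by
    simp only [Pi.neg_apply, neg_le_neg_iff, h]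
  unfold Good at hg ⊢
  rwa [← mcs_congr h, ← mcs_congr h']
omit [DecidableEq ι] in
theorem Std.swap {τ : ι → ℤ} {T : ι → ℕ × ℕ} {κ : YoungDiagram} (h : Std τ T κ) :
    Std τ (Prod.swap ∘ T) κ.transpose := by
  exact ⟨h.1, h.2.1.swap, fun i j hij => h.2.2 i j (Prod.swap_le_swap.1 hij)⟩

end Crest.Agent.R195
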