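/- Row 195, task Alg2: dominance, orthogonality, von Neumann's lemma, the ideals `Idl`. -/
import Crest.Agent.R195.Alg1

set_option autoImplicit false

namespace Crest.Agent.R195

open Equiv Finset

variable {ι : Type} [Fintype ι] [DecidableEq ι]

theorem alg2_col_card (μ : YoungDiagram) (k c : ℕ) :
    ((μ.cells.filter fun x => x.1 < k).filter fun x => x.2 = c).card = min k (μ.colLen c) := by
  have h : ((μ.cells.filter fun x => x.1 < k).filter fun x => x.2 = c) =
      (range (min k (μ.colLen c))).image fun r => (r, c) := by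
    ext ⟨a, b⟩
    simp only [mem_filter, YoungDiagram.mem_cells, mem_image, mem_range, Prod.mk.injEq, lt_min_iff]
    constructor
    · rintro ⟨⟨h1, h2⟩, rfl⟩
      exact ⟨a, ⟨h2, YoungDiagram.mem_iff_lt_colLen.1 h1⟩, rfl, rfl⟩
    · rintro ⟨r, ⟨h1, h2⟩, rfl, rfl⟩
      exact ⟨⟨YoungDiagram.mem_iff_lt_colLen.2 h2, h1⟩, rfl⟩
  rw [h, card_image_of_injective _ (fun a b hab => (Prod.mk.inj hab).1), card_range]

theorem alg2_sum_rowLen_eq (μ : YoungDiagram) (k : ℕ) :
    ∑ r ∈ range k, μ.rowLen r = ∑ c ∈ range (μ.rowLen 0), min k (μ.colLen c) := by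
  rw [← card_filter_row_lt,
    card_eq_sum_card_fiberwise (f := fun x : ℕ × ℕ => x.2) (t := range (μ.rowLen 0))]
  · exact sum_congr rfl fun c _ => alg2_col_card μ k c
  · rintro ⟨a, b⟩ h
    simp only [coe_filter, YoungDiagram.mem_cells, Set.mem_ofPred_eq] at h
    simp only [coe_range, Set.mem_Iio]
    exact YoungDiagram.mem_iff_lt_rowLen.1 (μ.up_left_mem (Nat.zero_le _) le_rfl h.1)

omit [Fintype ι] [DecidableEq ι] in
theorem alg2_card_eq_sum_col {P A : Finset ι} {T : ι → ℕ × ℕ} {μ : YoungDiagram}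
    (hT : IsTab P T μ) (hA : A ⊆ P) :
    A.card = ∑ c ∈ range (μ.rowLen 0), (A.filter fun i => colf T i = c).card := by
  refine card_eq_sum_card_fiberwise (f := colf T) ?_
  intro i hi
  simp only [coe_range, Set.mem_Iio]
  have h := hT.mem (hA hi)
  exact YoungDiagram.mem_iff_lt_rowLen.1
    (μ.up_left_mem (i2 := (T i).1) (j2 := (T i).2) (Nat.zero_le _) le_rfl h)

omit [Fintype ι] in
theorem alg2_fib_le {P A : Finset ι} {T : ι → ℕ × ℕ} {μ : YoungDiagram}
    (hT : IsTab P T μ) (hA : A ⊆ P) (b : ι → ℕ) (k : ℕ) (hb : ∀ i ∈ A, b i < k)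
    (hinj : ∀ i ∈ A, ∀ j ∈ A, b i = b j → colf T i = colf T j → i = j) (c : ℕ) :
    (A.filter fun i => colf T i = c).card ≤ min k (μ.colLen c) := by
  refine le_min ?_ ?_
  · rw [← card_range k]
    refine card_le_card_of_injOn b ?_ ?_
    · intro i hi
      simp only [coe_filter, Set.mem_ofPred_eq] at hi
      simpa using hb i hi.1
    · intro i hi j hj hij
      simp only [coe_filter, Set.mem_ofPred_eq] at hi hj
      exact hinj i hi.1 j hj.1 hij (hi.2.trans hj.2.symm)
  · rw [← hT.wt_colf c]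
    exact card_le_card (filter_subset_filter _ hA)

omit [Fintype ι] [DecidableEq ι] in
theorem alg2_card_lt (P : Finset ι) (x : ι → ℕ) (k : ℕ) :
    (P.filter fun i => x i < k).card = ∑ r ∈ range k, wt P x r := by
  rw [card_eq_sum_card_fiberwise (f := x) (t := range k)]
  · refine sum_congr rfl fun r hr => ?_
    unfold wt
    congr 1
    ext i
    simp only [mem_filter]
    constructor
    · exact fun h => ⟨h.1.1, h.2⟩
    · exact fun h => ⟨⟨h.1, h.2 ▸ mem_range.1 hr⟩, h.2⟩
  · intro i hi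
    simp only [coe_filter, Set.mem_ofPred_eq] at hi
    simpa using hi.2

omit [Fintype ι] in
/-- If `A ⊆ P` is covered by `k` blocks (level sets of `b`), each meeting every column of `T` at
most once, then `|A| ≤ μ₀ + … + μ_{k-1}`.  (Each column `c` contains at most `min k (colLen c)`
elements of `A`; use `card_filter_row_lt`.) -/
theorem dom_of_transversal {P A : Finset ι} {T : ι → ℕ × ℕ} {μ : YoungDiagram}
    (hT : IsTab P T μ) (hA : A ⊆ P) (b : ι → ℕ) (k : ℕ) (hb : ∀ i ∈ A, b i < k)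
    (hinj : ∀ i ∈ A, ∀ j ∈ A, b i = b j → colf T i = colf T j → i = j) :
    A.card ≤ ∑ r ∈ range k, μ.rowLen r := by
  rw [alg2_sum_rowLen_eq, alg2_card_eq_sum_col hT hA]
  exact sum_le_sum fun c _ => alg2_fib_le hT hA b k hb hinj c

omit [Fintype ι] in
theorem alg2_dom {P : Finset ι} {T T' : ι → ℕ × ℕ} {μ ν : YoungDiagram}
    (hT : IsTab P T μ) (hT' : IsTab P T' ν)
    (hinj : ∀ i ∈ P, ∀ j ∈ P, rowf T i = rowf T j → colf T' i = colf T' j → i = j) (k : ℕ) :
    ∑ r ∈ range k, μ.rowLen r ≤ ∑ r ∈ range k, ν.rowLen r := by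
  have h1 : (P.filter fun i => rowf T i < k).card = ∑ r ∈ range k, μ.rowLen r := by
    rw [alg2_card_lt]
    exact sum_congr rfl fun r _ => hT.wt_rowf r
  rw [← h1]
  refine dom_of_transversal hT' (filter_subset _ _) (rowf T) k (fun i hi => (mem_filter.1 hi).2) ?_
  intro i hi j hj
  exact hinj i (mem_filter.1 hi).1 j (mem_filter.1 hj).1

theorem alg2_el_mul_psym {P : Finset ι} {g : Perm ι} (hg : g ∈ SP P) (f : ι → ℕ) :
    el g * psym P f = psym P (f ∘ g.symm) * el g := by
  rw [el_mul_psym_conj, map_eq_of_mem_SP hg]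

theorem alg2_el_mul_palt {P : Finset ι} {g : Perm ι} (hg : g ∈ SP P) (f : ι → ℕ) :
    el g * palt P f = palt P (f ∘ g.symm) * el g := by
  rw [el_mul_palt_conj, map_eq_of_mem_SP hg]

/-- `p_R x p_C^- ≠ 0` forces the shape of the column tableau to dominate the shape of the row
tableau.  (Reduce to `x = el g` by `GP_induction`, conjugate, use `psym_mul_palt_eq_zero` and
`dom_of_transversal` with `A = {i | row T i < k}`.) -/
theorem dom_of_psym_mul_palt {P : Finset ι} {T T' : ι → ℕ × ℕ} {μ ν : YoungDiagram}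
    (hT : IsTab P T μ) (hT' : IsTab P T' ν) {x : GA ι} (hx : x ∈ GP P)
    (h : psym P (rowf T) * x * palt P (colf T') ≠ 0) (k : ℕ) :
    ∑ r ∈ range k, μ.rowLen r ≤ ∑ r ∈ range k, ν.rowLen r := by
  by_contra hk
  apply h
  refine GP_induction (p := fun x => psym P (rowf T) * x * palt P (colf T') = 0) (by simp) ?_ ?_ ?_
    x hx
  · intro g hg
    by_contra hne
    apply hk
    refine alg2_dom hT (hT'.comp hg) ?_ k
    intro i hi j hj h1 h2
    by_contra hij
    apply hne
    rw [mul_assoc, alg2_el_mul_palt hg, ← mul_assoc,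
      psym_mul_palt_eq_zero (f' := colf T' ∘ g.symm) hij hi hj hi hj h1 h2, zero_mul]
  · intro a b ha hb
    rw [mul_add, add_mul, ha, hb, add_zero]
  · intro c a ha
    rw [mul_smul_comm, smul_mul_assoc, ha, smul_zero]

theorem dom_of_palt_mul_psym {P : Finset ι} {T T' : ι → ℕ × ℕ} {μ ν : YoungDiagram}
    (hT : IsTab P T μ) (hT' : IsTab P T' ν) {x : GA ι} (hx : x ∈ GP P)
    (h : palt P (colf T') * x * psym P (rowf T) ≠ 0) (k : ℕ) :
    ∑ r ∈ range k, μ.rowLen r ≤ ∑ r ∈ range k, ν.rowLen r := by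
  by_contra hk
  apply h
  refine GP_induction (p := fun x => palt P (colf T') * x * psym P (rowf T) = 0) (by simp) ?_ ?_ ?_
    x hx
  · intro g hg
    by_contra hne
    apply hk
    refine alg2_dom (hT.comp hg) hT' ?_ k
    intro i hi j hj h1 h2
    by_contra hij
    apply hne
    rw [mul_assoc, alg2_el_mul_psym hg, ← mul_assoc,
      palt_mul_psym_eq_zero (f := rowf T ∘ g.symm) hij hi hj hi hj h1 h2, zero_mul]
  · intro a b ha hb
    rw [mul_add, add_mul, ha, hb, add_zero]
  · intro c a ha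
    rw [mul_smul_comm, smul_mul_assoc, ha, smul_zero]

/-- orthogonality of Young symmetrisers of different shapes (both dominances + `yd_eq_of_dom`) -/
theorem yc_mul_mul_yc {P : Finset ι} {T T' : ι → ℕ × ℕ} {μ ν : YoungDiagram}
    (hT : IsTab P T μ) (hT' : IsTab P T' ν) (hne : μ ≠ ν) {x : GA ι} (hx : x ∈ GP P) :
    yc P T * x * yc P T' = 0 := by
  by_contra h
  have e : yc P T * x * yc P T' =
      psym P (rowf T) * (palt P (colf T) * x * psym P (rowf T')) * palt P (colf T') := by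
    simp only [yc, mul_assoc]
  rw [e] at h
  apply hne
  refine yd_eq_of_dom (fun k => dom_of_psym_mul_palt hT hT' ?_ h k)
    (fun k => dom_of_palt_mul_psym hT' hT hx ?_ k)
  · exact mul_mem (mul_mem (palt_mem_GP _ _) hx) (psym_mem_GP _ _)
  · intro h0
    apply h
    rw [h0, mul_zero, zero_mul]

/-- A word of weight `μ` without repeated letters in a column of `T` is a column permutation of
the row word of `T`.  (For every `k`, `#{i ∈ P | x i < k} = Σ_{r<k} μ_r = Σ_c min k (colLen c)`,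
and column `c` contributes at most `min k (colLen c)`; so equality holds in every column; take
`k = colLen c`.  Then `c i := T⁻¹ (x i, col i)`.) -/
theorem col_fill {P : Finset ι} {T : ι → ℕ × ℕ} {μ : YoungDiagram} (hT : IsTab P T μ)
    (x : ι → ℕ) (hw : ∀ r, wt P x r = μ.rowLen r)
    (hinj : ∀ i ∈ P, ∀ j ∈ P, x i = x j → colf T i = colf T j → i = j) :
    ∃ c ∈ stab P (colf T), ∀ i ∈ P, x i = rowf T (c i) := by
  have key : ∀ i ∈ P, x i < μ.colLen (colf T i) := by
    intro i hi
    set c := colf T i with hc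
    set k := μ.colLen c with hk
    have hA : (P.filter fun j => x j < k) ⊆ P := filter_subset _ _
    have hle := fun c' => alg2_fib_le hT hA x k (fun j hj => (mem_filter.1 hj).2)
      (fun a ha b hb => hinj a (mem_filter.1 ha).1 b (mem_filter.1 hb).1) c'
    have hsum : ∑ c' ∈ range (μ.rowLen 0),
        ((P.filter fun j => x j < k).filter fun j => colf T j = c').card =
        ∑ c' ∈ range (μ.rowLen 0), min k (μ.colLen c') := by
      rw [← alg2_card_eq_sum_col hT hA, ← alg2_sum_rowLen_eq, alg2_card_lt]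
      exact sum_congr rfl fun r _ => hw r
    have hcm : c ∈ range (μ.rowLen 0) := by
      rw [mem_range]
      exact YoungDiagram.mem_iff_lt_rowLen.1
        (μ.up_left_mem (i2 := (T i).1) (j2 := (T i).2) (Nat.zero_le _) le_rfl (hT.mem hi))
    have h1 := (sum_eq_sum_iff_of_le fun c' _ => hle c').1 hsum c hcm
    rw [← hk, min_self] at h1
    have h2 : ((P.filter fun j => x j < k).filter fun j => colf T j = c) =
        P.filter fun j => colf T j = c := by
      refine eq_of_subset_of_card_le (filter_subset_filter _ hA) ?_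
      rw [h1]
      exact (hT.wt_colf c).le
    have h3 : i ∈ (P.filter fun j => x j < k).filter fun j => colf T j = c := by
      rw [h2]
      exact mem_filter.2 ⟨hi, rfl⟩
    exact (mem_filter.1 (mem_filter.1 h3).1).2
  have hT' : IsTab P (fun i => (x i, colf T i)) μ := by
    refine isTab_of_card (fun i hi => YoungDiagram.mem_iff_lt_colLen.2 (key i hi)) ?_
      hT.card_eq.ge
    intro i hi j hj hij
    exact hinj i hi j hj (Prod.mk.inj hij).1 (Prod.mk.inj hij).2
  obtain ⟨g, hg, hg'⟩ := hT.exists_perm hT'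
  refine ⟨g⁻¹, mem_stab.2 ⟨(SP P).inv_mem hg, fun i => ?_⟩, fun i hi => ?_⟩
  · by_cases hi : i ∈ P
    · exact (congrArg Prod.snd (hg' i hi)).symm
    · rw [(SP P).inv_mem hg i hi]
  · exact congrArg Prod.fst (hg' i hi)

/-- von Neumann's lemma.  (For `x = el g`: either two positions share a row of `T ∘ g` and a column
of `T`, and the product vanishes, or `col_fill` applied to `rowf T ∘ g` gives `g = r c`.) -/
theorem vonNeumann {P : Finset ι} {T : ι → ℕ × ℕ} {μ : YoungDiagram} (hT : IsTab P T μ)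
    {x : GA ι} (hx : x ∈ GP P) :
    ∃ β : ℂ, psym P (rowf T) * x * palt P (colf T) = β • yc P T := by
  refine GP_induction (p := fun x => ∃ β : ℂ, psym P (rowf T) * x * palt P (colf T) = β • yc P T)
    ⟨0, by simp⟩ ?_ ?_ ?_ x hx
  · intro g hg
    by_cases h : ∀ i ∈ P, ∀ j ∈ P, rowf T (g i) = rowf T (g j) → colf T i = colf T j → i = j
    · have hTg : IsTab P (T ∘ (g⁻¹ : Perm ι).symm) μ := hT.comp ((SP P).inv_mem hg)
      obtain ⟨c, hc, hc'⟩ := col_fill hT (fun i => rowf T (g i)) (fun r => hTg.wt_rowf r) h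
      have hcP : c⁻¹ ∈ SP P := (SP P).inv_mem (mem_SP_of_mem_stab hc)
      have hr : g * c⁻¹ ∈ stab P (rowf T) := by
        refine mem_stab.2 ⟨(SP P).mul_mem hg hcP, fun i => ?_⟩
        by_cases hi : i ∈ P
        · have := hc' (c⁻¹ i) ((SP_apply_mem_iff hcP i).2 hi)
          simpa using this
        · rw [(SP P).mul_mem hg hcP i hi]
      refine ⟨sg c, ?_⟩
      have e : el g = el (g * c⁻¹) * el c := by rw [← el_mul, inv_mul_cancel_right]
      rw [e, ← mul_assoc, psym_mul_el hr, mul_assoc, el_mul_palt hc, mul_smul_comm, yc]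
    · push Not at h
      obtain ⟨i, hi, j, hj, h1, h2, hij⟩ := h
      refine ⟨0, ?_⟩
      have e : psym P (rowf T) * el g = el g * psym P (rowf T ∘ g) := by
        rw [alg2_el_mul_psym hg]
        congr 2
        ext i
        simp
      rw [e, mul_assoc, psym_mul_palt_eq_zero hij hi hj hi hj h1 h2, mul_zero, zero_smul]
  · rintro a b ⟨β, ha⟩ ⟨γ, hb⟩
    exact ⟨β + γ, by rw [mul_add, add_mul, ha, hb, add_smul]⟩
  · rintro c a ⟨β, ha⟩
    exact ⟨c * β, by rw [mul_smul_comm, smul_mul_assoc, ha, mul_smul]⟩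

theorem yc_coeff_one {P : Finset ι} {T : ι → ℕ × ℕ} {μ : YoungDiagram} (hT : IsTab P T μ) :
    (yc P T).coeff 1 = 1 := by
  have e : yc P T = ∑ r ∈ stab P (rowf T), ∑ c ∈ stab P (colf T), sg c • el (r * c) := by
    rw [yc, psym, palt, sum_mul_sum]
    simp only [mul_smul_comm, el_mul]
  have h1 : ∀ r c : Perm ι, (sg c • el (r * c) : GA ι).coeff 1 = if r * c = 1 then sg c else 0 := by
    intro r c
    simp [el, Finsupp.single_apply]
  rw [e]
  simp only [MonoidAlgebra.coeff_sum, Finsupp.finsetSum_apply, h1]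
  rw [sum_eq_single_of_mem 1 (one_mem_stab _ _), sum_eq_single_of_mem 1 (one_mem_stab _ _)]
  · simp
  · intro c _ hc
    simp [hc]
  · intro r hr hr1
    refine sum_eq_zero fun c hc => if_neg fun h => hr1 ?_
    refine hT.eq_one_of_mem_stab hr ?_
    rw [mul_eq_one_iff_eq_inv.1 h]
    exact inv_mem_stab hc

theorem yc_ne_zero {P : Finset ι} {T : ι → ℕ × ℕ} {μ : YoungDiagram} (hT : IsTab P T μ) :
    yc P T ≠ 0 := by
  intro h
  have := yc_coeff_one hT
  rw [h] at this
  simp at this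

theorem alg2_trace_mulLeft (a : GA ι) :
    LinearMap.trace ℂ (GA ι) (LinearMap.mulLeft ℂ a) = (Fintype.card (Perm ι) : ℂ) * a.coeff 1 := by
  rw [LinearMap.trace_eq_matrix_trace ℂ (MonoidAlgebra.basis (Perm ι) ℂ), Matrix.trace]
  have h : ∀ g : Perm ι, Matrix.diag (LinearMap.toMatrix (MonoidAlgebra.basis (Perm ι) ℂ)
      (MonoidAlgebra.basis (Perm ι) ℂ) (LinearMap.mulLeft ℂ a)) g = a.coeff 1 := by
    intro g
    rw [Matrix.diag_apply, LinearMap.toMatrix_apply]
    change (a * MonoidAlgebra.single g 1).coeff g = _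
    simp
  rw [sum_congr rfl fun g _ => h g, sum_const, card_univ, nsmul_eq_mul]

/-- `c² = α c` with `α ≠ 0`.  (If `α = 0`, left multiplication by `c` is nilpotent, so has trace 0,
but its trace is `|S_ι| * c.coeff 1`.) -/
theorem yc_mul_yc {P : Finset ι} {T : ι → ℕ × ℕ} {μ : YoungDiagram} (hT : IsTab P T μ) :
    ∃ α : ℂ, α ≠ 0 ∧ yc P T * yc P T = α • yc P T := by
  obtain ⟨β, hβ⟩ := vonNeumann hT (mul_mem (palt_mem_GP P (colf T)) (psym_mem_GP P (rowf T)))
  have e : yc P T * yc P T = β • yc P T := by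
    rw [← hβ]
    simp only [yc, mul_assoc]
  refine ⟨β, fun h0 => ?_, e⟩
  rw [h0, zero_smul] at e
  have hn : IsNilpotent (LinearMap.mulLeft ℂ (yc P T)) := by
    refine ⟨2, ?_⟩
    refine LinearMap.ext fun x => ?_
    simp [pow_two, ← mul_assoc, e]
  have : Module.Finite ℂ (GA ι) := Module.Finite.of_basis (MonoidAlgebra.basis (Perm ι) ℂ)
  have h := (LinearMap.isNilpotent_trace_of_isNilpotent hn).eq_zero
  rw [alg2_trace_mulLeft, yc_coeff_one hT, mul_one] at h
  exact Nat.cast_ne_zero.2 Fintype.card_ne_zero h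

theorem yc_mem_Idl {P : Finset ι} {T : ι → ℕ × ℕ} {μ : YoungDiagram} (hT : IsTab P T μ) :
    yc P T ∈ Idl P μ := by
  exact Submodule.subset_span ⟨1, (SP P).one_mem, T, hT, by simp⟩
theorem alg2_Idl_induction {P : Finset ι} {μ : YoungDiagram} {p : GA ι → Prop} (h0 : p 0)
    (hel : ∀ g ∈ SP P, ∀ T, IsTab P T μ → p (el g * yc P T))
    (hadd : ∀ a b, p a → p b → p (a + b)) (hsmul : ∀ (c : ℂ) a, p a → p (c • a)) :
    ∀ a ∈ Idl P μ, p a := by
  intro a ha
  induction ha using Submodule.span_induction with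
  | mem x hx =>
    obtain ⟨g, hg, T, hT, rfl⟩ := hx
    exact hel g hg T hT
  | zero => exact h0
  | add x y _ _ hx hy => exact hadd x y hx hy
  | smul c x _ hx => exact hsmul c x hx
theorem alg2_gen_mem {P : Finset ι} {μ : YoungDiagram} {g : Perm ι} (hg : g ∈ SP P)
    {T : ι → ℕ × ℕ} (hT : IsTab P T μ) : el g * yc P T ∈ Idl P μ :=
  Submodule.subset_span ⟨g, hg, T, hT, rfl⟩
theorem Idl_le_GP {P : Finset ι} {μ : YoungDiagram} {a : GA ι} (ha : a ∈ Idl P μ) : a ∈ GP P := by
  refine alg2_Idl_induction (p := fun a => a ∈ GP P) (zero_mem _) ?_ (fun _ _ => add_mem)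
    (fun c _ h => (GP P).smul_mem h c) a ha
  intro g hg T _
  exact mul_mem (el_mem_GP hg) (yc_mem_GP _ _)
theorem Idl_mul_left {P : Finset ι} {μ : YoungDiagram} {a x : GA ι} (hx : x ∈ GP P)
    (ha : a ∈ Idl P μ) : x * a ∈ Idl P μ := by
  refine GP_induction (p := fun x => x * a ∈ Idl P μ) (by simp) ?_ ?_ ?_ x hx
  · intro g hg
    refine alg2_Idl_induction (p := fun a => el g * a ∈ Idl P μ) (by simp) ?_ ?_ ?_ a ha
    · intro h hh T hT
      rw [← mul_assoc, ← el_mul]
      exact alg2_gen_mem ((SP P).mul_mem hg hh) hT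
    · intro a b ha hb
      rw [mul_add]
      exact add_mem ha hb
    · intro c a ha
      rw [mul_smul_comm]
      exact Submodule.smul_mem _ c ha
  · intro x y hx hy
    rw [add_mul]
    exact add_mem hx hy
  · intro c x hx
    rw [smul_mul_assoc]
    exact Submodule.smul_mem _ c hx
theorem Idl_mul_right {P : Finset ι} {μ : YoungDiagram} {a x : GA ι} (hx : x ∈ GP P)
    (ha : a ∈ Idl P μ) : a * x ∈ Idl P μ := by
  refine GP_induction (p := fun x => a * x ∈ Idl P μ) (by simp) ?_ ?_ ?_ x hx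
  · intro g hg
    refine alg2_Idl_induction (p := fun a => a * el g ∈ Idl P μ) (by simp) ?_ ?_ ?_ a ha
    · intro h hh T hT
      have hTg : IsTab P (T ∘ (g⁻¹ : Perm ι).symm) μ := hT.comp ((SP P).inv_mem hg)
      have e : yc P T * el g = el g * yc P (T ∘ (g⁻¹ : Perm ι).symm) := by
        rw [el_mul_yc hg]
        congr 2
        ext i <;> simp [Perm.inv_def]
      rw [mul_assoc, e, ← mul_assoc, ← el_mul]
      exact alg2_gen_mem ((SP P).mul_mem hh hg) hTg
    · intro a b ha hb
      rw [add_mul]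
      exact add_mem ha hb
    · intro c a ha
      rw [smul_mul_assoc]
      exact Submodule.smul_mem _ c ha
  · intro x y hx hy
    rw [mul_add]
    exact add_mem hx hy
  · intro c x hx
    rw [mul_smul_comm]
    exact Submodule.smul_mem _ c hx

theorem alg2_yc'_eq {P : Finset ι} {T : ι → ℕ × ℕ} {μ : YoungDiagram} (hT : IsTab P T μ) :
    ∃ β : ℂ, yc' P T = β • (palt P (colf T) * yc P T * psym P (rowf T)) := by
  obtain ⟨α, hα, h⟩ := yc_mul_yc hT.swap
  have h' := congrArg omega h
  rw [map_mul, map_smul, omega_yc] at h'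
  have e : Prod.swap ∘ Prod.swap ∘ T = T := rfl
  rw [e] at h'
  refine ⟨α⁻¹, ?_⟩
  have e2 : palt P (colf T) * yc P T * psym P (rowf T) = yc' P T * yc' P T := by
    simp only [yc, yc', mul_assoc]
  rw [e2, h', smul_smul, inv_mul_cancel₀ hα, one_smul]

/-- apply `yc_mul_yc` to the transposed tableau and `omega`: `yc' * yc' = α • yc'`, and
`yc' * yc' = palt * yc * psym`. -/
theorem yc'_mem_Idl {P : Finset ι} {T : ι → ℕ × ℕ} {μ : YoungDiagram} (hT : IsTab P T μ) :
    yc' P T ∈ Idl P μ := by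
  obtain ⟨β, h⟩ := alg2_yc'_eq hT
  rw [h]
  exact Submodule.smul_mem _ _
    (Idl_mul_right (psym_mem_GP _ _) (Idl_mul_left (palt_mem_GP _ _) (yc_mem_Idl hT)))

/-- `yc` is a multiple of `psym * yc' * palt` -/
theorem yc_eq_smul_yc' {P : Finset ι} {T : ι → ℕ × ℕ} {μ : YoungDiagram} (hT : IsTab P T μ) :
    ∃ β : ℂ, yc P T = β • (psym P (rowf T) * yc' P T * palt P (colf T)) := by
  obtain ⟨α, hα, h⟩ := yc_mul_yc hT
  refine ⟨α⁻¹, ?_⟩
  have e2 : psym P (rowf T) * yc' P T * palt P (colf T) = yc P T * yc P T := by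
    simp only [yc, yc', mul_assoc]
  rw [e2, h, smul_smul, inv_mul_cancel₀ hα, one_smul]
/-- `yc'` is a multiple of `palt * yc * psym` -/
theorem yc'_eq_smul_yc {P : Finset ι} {T : ι → ℕ × ℕ} {μ : YoungDiagram} (hT : IsTab P T μ) :
    ∃ β : ℂ, yc' P T = β • (palt P (colf T) * yc P T * psym P (rowf T)) := by
  exact alg2_yc'_eq hT

theorem omega_mem_Idl {P : Finset ι} {μ : YoungDiagram} {a : GA ι} (ha : a ∈ Idl P μ) :
    omega a ∈ Idl P μ.transpose := by
  refine alg2_Idl_induction (p := fun a => omega a ∈ Idl P μ.transpose) (by simp) ?_ ?_ ?_ a ha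
  · intro g hg T hT
    rw [map_mul, omega_el, omega_yc, smul_mul_assoc]
    exact Submodule.smul_mem _ _ (Idl_mul_left (el_mem_GP hg) (yc'_mem_Idl hT.swap))
  · intro a b ha hb
    rw [map_add]
    exact add_mem ha hb
  · intro c a ha
    rw [map_smul]
    exact Submodule.smul_mem _ c ha

theorem yc_mul_Idl {P : Finset ι} {T : ι → ℕ × ℕ} {μ ν : YoungDiagram} (hT : IsTab P T ν)
    (hne : ν ≠ μ) {a : GA ι} (ha : a ∈ Idl P μ) : yc P T * a = 0 := by
  refine alg2_Idl_induction (p := fun a => yc P T * a = 0) (by simp) ?_ ?_ ?_ a ha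
  · intro g hg T' hT'
    rw [← mul_assoc]
    exact yc_mul_mul_yc hT hT' hne (el_mem_GP hg)
  · intro a b ha hb
    rw [mul_add, ha, hb, add_zero]
  · intro c a ha
    rw [mul_smul_comm, ha, smul_zero]
theorem Idl_mul_Idl {P : Finset ι} {μ ν : YoungDiagram} (hne : ν ≠ μ) {a b : GA ι}
    (hb : b ∈ Idl P ν) (ha : a ∈ Idl P μ) : b * a = 0 := by
  refine alg2_Idl_induction (p := fun b => b * a = 0) (by simp) ?_ ?_ ?_ b hb
  · intro g _ T hT
    rw [mul_assoc, yc_mul_Idl hT hne ha, mul_zero]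
  · intro x y hx hy
    rw [add_mul, hx, hy, add_zero]
  · intro c x hx
    rw [smul_mul_assoc, hx, smul_zero]

omit [DecidableEq ι] in
theorem alg2_regular (x : GA ι) : ∃ r : GA ι, x * r * x = x := by
  have : NeZero (Nat.card (Perm ι) : ℂ) := ⟨Nat.cast_ne_zero.2 Nat.card_pos.ne'⟩
  obtain ⟨e, he, h⟩ := IsSemisimpleRing.ideal_eq_span_idempotent (Ideal.span {x})
  have h1 : e ∈ Ideal.span {x} := by
    rw [h]
    exact Ideal.subset_span rfl
  have h2 : x ∈ Ideal.span {e} := by
    rw [← h]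
    exact Ideal.subset_span rfl
  obtain ⟨r, hr⟩ := Ideal.mem_span_singleton'.1 h1
  obtain ⟨s, hs⟩ := Ideal.mem_span_singleton'.1 h2
  refine ⟨r, ?_⟩
  rw [mul_assoc, hr, ← hs, mul_assoc, he.eq]

/-- `ℂ[S_ι]` is semisimple (Maschke), so `x = a * c` satisfies `x r x = x` for some `r`
(`IsSemisimpleRing.ideal_eq_span_idempotent`); then `c r a c = β c` with `β ≠ 0` by `vonNeumann`. -/
theorem exists_left_inv {T : ι → ℕ × ℕ} {l : YoungDiagram} (hT : IsTab univ T l) {a : GA ι}
    (h : a * yc univ T ≠ 0) : ∃ b : GA ι, b * a * yc univ T = yc univ T := by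
  obtain ⟨r, hr⟩ := alg2_regular (a * yc univ T)
  obtain ⟨β, hβ⟩ := vonNeumann hT
    (mem_GP_univ (palt univ (colf T) * r * a * psym univ (rowf T)))
  have e : yc univ T * r * a * yc univ T = β • yc univ T := by
    rw [← hβ]
    simp only [yc, mul_assoc]
  have hβ0 : β ≠ 0 := by
    rintro rfl
    apply h
    rw [← hr]
    calc a * yc univ T * r * (a * yc univ T) = a * (yc univ T * r * a * yc univ T) := by
          simp only [mul_assoc]
      _ = 0 := by rw [e, zero_smul, mul_zero]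
  refine ⟨β⁻¹ • (yc univ T * r), ?_⟩
  rw [smul_mul_assoc, smul_mul_assoc, e, smul_smul, inv_mul_cancel₀ hβ0, one_smul]

theorem exists_tab_of_mul_Idl {l : YoungDiagram} {a x : GA ι} (hx : x ∈ Idl univ l)
    (h : a * x ≠ 0) : ∃ T, IsTab univ T l ∧ a * yc univ T ≠ 0 := by
  by_contra hc
  push Not at hc
  apply h
  refine alg2_Idl_induction (p := fun x => a * x = 0) (by simp) ?_ ?_ ?_ x hx
  · intro g hg T hT
    rw [el_mul_yc hg, ← mul_assoc, hc _ (hT.comp hg), zero_mul]
  · intro x y hx hy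
    rw [mul_add, hx, hy, add_zero]
  · intro c x hx
    rw [mul_smul_comm, hx, smul_zero]

end Crest.Agent.R195
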