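/- Row 195, task Cover: combinatorics of Young diagrams (covering lemmas). -/
import Crest.Agent.R195.Alg1

set_option autoImplicit false

namespace Crest.Agent.R195

open Equiv Finset

variable {ι : Type} [Fintype ι] [DecidableEq ι]

omit [Fintype ι] [DecidableEq ι]

theorem mem_stair {m : ℕ} {c : ℕ × ℕ} : c ∈ stair m ↔ c.1 + c.2 < m := by
  change c ∈ Crest.AlgebraR.Specht.staircaseShape m ↔ _
  simp only [Crest.AlgebraR.Specht.staircaseShape, mem_filter, mem_product, mem_range]
  omega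
theorem two_mul_card_stair (m : ℕ) : 2 * (stair m).card = m * (m + 1) := by
  have h1 : ∀ r, (stair m).rowLen r = m - r := fun r => eq_of_forall_lt_iff fun j => by
    rw [← YoungDiagram.mem_iff_lt_rowLen, mem_stair]
    simp only
    omega
  have h2 : (stair m).colLen 0 ≤ m := by
    by_contra h
    have := mem_stair.1 (YoungDiagram.mem_iff_lt_colLen.2 (not_le.1 h))
    simp at this
  rw [card_eq_sum_rowLen _ h2]
  simp only [h1]
  clear h1 h2
  induction m with
  | zero => rfl
  | succ m ih =>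
    rw [sum_range_succ']
    simp only [Nat.add_sub_add_right, Nat.sub_zero]
    rw [mul_add, ih]
    ring
theorem card_stair_succ (m : ℕ) : (stair (m + 1)).card = 2 * m + 1 + (stair (m - 1)).card := by
  have h1 := two_mul_card_stair (m + 1)
  have h2 := two_mul_card_stair (m - 1)
  cases m with
  | zero => omega
  | succ m =>
    rw [Nat.add_sub_cancel] at h2 ⊢
    nlinarith
theorem mem_wrap {a : ℕ} {κ : YoungDiagram} {c : ℕ × ℕ} :
    c ∈ wrap a κ ↔ c.1 ≤ a ∧ c.2 ≤ a ∧ (c.1 = 0 ∨ c.2 = 0 ∨ (c.1 - 1, c.2 - 1) ∈ κ) := by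
  change c ∈ (wrap a κ).cells ↔ _
  simp only [wrap, mem_filter, mem_product, mem_range, Nat.lt_succ_iff, and_assoc]
theorem card_wrap {a : ℕ} {κ : YoungDiagram} (h : ∀ c ∈ κ, c.1 < a ∧ c.2 < a) :
    (wrap a κ).card = κ.card + (2 * a + 1) := by
  have h0 : (wrap a κ).rowLen 0 = a + 1 := eq_of_forall_lt_iff fun j => by
    rw [← YoungDiagram.mem_iff_lt_rowLen, mem_wrap]
    simp
  have h1 : ∀ r ∈ range a, (wrap a κ).rowLen (r + 1) = κ.rowLen r + 1 := fun r hr =>
    eq_of_forall_lt_iff fun j => by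
      rw [← YoungDiagram.mem_iff_lt_rowLen, mem_wrap]
      have hr' := mem_range.1 hr
      cases j with
      | zero => simp; omega
      | succ j =>
        simp only [Nat.add_sub_cancel, Nat.add_lt_add_iff_right, ← YoungDiagram.mem_iff_lt_rowLen]
        refine ⟨fun h' => ?_, fun h' => ⟨hr', (h _ h').2, Or.inr (Or.inr h')⟩⟩
        rcases h'.2.2 with h'' | h'' | h''
        · omega
        · omega
        · exact h''
  have h2 : (wrap a κ).colLen 0 ≤ a + 1 := by
    by_contra h'
    have := (mem_wrap.1 (YoungDiagram.mem_iff_lt_colLen.2 (not_le.1 h'))).1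
    simp at this
  have h3 : κ.colLen 0 ≤ a := by
    by_contra h'
    have := (h _ (YoungDiagram.mem_iff_lt_colLen.2 (not_le.1 h'))).1
    simp at this
  rw [card_eq_sum_rowLen _ h2, card_eq_sum_rowLen _ h3, sum_range_succ', h0, sum_congr rfl h1,
    sum_add_distrib, sum_const, card_range, smul_eq_mul]
  ring

/-- remove maximal cells one at a time -/
theorem exists_sub (μ : YoungDiagram) {k : ℕ} (hk : k ≤ μ.card) : ∃ ν ≤ μ, ν.card = k := by
  obtain ⟨n, hn⟩ := Nat.exists_eq_add_of_le hk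
  clear hk
  induction n generalizing μ with
  | zero => exact ⟨μ, le_rfl, hn⟩
  | succ n ih =>
    have hne : μ.cells.Nonempty := card_pos.1 (by change 0 < μ.card; omega)
    obtain ⟨c, hc⟩ := Finset.exists_maximal hne
    let μ' : YoungDiagram :=
      { cells := μ.cells.erase c
        isLowerSet := by
          intro x y hxy hx
          rw [mem_coe, mem_erase] at hx ⊢
          refine ⟨?_, μ.isLowerSet hxy hx.2⟩
          rintro rfl
          exact hx.1 (le_antisymm (hc.2 hx.2 hxy) hxy) }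
    have h1 : μ'.card = k + n := by
      change (μ.cells.erase c).card = _
      rw [card_erase_of_mem hc.1]
      change μ.card - 1 = _
      omega
    obtain ⟨ν, h2, h3⟩ := ih μ' h1
    exact ⟨ν, h2.trans (erase_subset c μ.cells), h3⟩

theorem cover_exists_sub_filter (l : YoungDiagram) (q : ℕ × ℕ → Prop) [DecidablePred q]
    (hq : ∀ x y, y ≤ x → q x → q y) {k : ℕ} (hk : k ≤ (l.cells.filter q).card) :
    ∃ ν ≤ l, ν.card = k ∧ ∀ c ∈ ν, q c := by
  let D : YoungDiagram :=
    { cells := l.cells.filter q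
      isLowerSet := by
        intro x y hxy hx
        rw [mem_coe, mem_filter] at hx ⊢
        exact ⟨l.isLowerSet hxy hx.1, hq x y hxy hx.2⟩ }
  obtain ⟨ν, h1, h2⟩ := exists_sub D hk
  exact ⟨ν, h1.trans (filter_subset q l.cells), h2, fun c hc => (mem_filter.1 (h1 hc)).2⟩

theorem cover_card_le (l : YoungDiagram) (k : ℕ) :
    l.card ≤ (l.cells.filter fun c => c.1 < k ∨ c.2 < k).card +
      (l.colLen k - k) * (l.rowLen k - k) := by
  rw [← Nat.card_Ico, ← Nat.card_Ico, ← card_product]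
  refine le_trans (card_le_card fun c hc => ?_) (card_union_le _ _)
  simp only [mem_union, mem_filter, mem_product, mem_Ico]
  by_cases h : c.1 < k ∨ c.2 < k
  · exact Or.inl ⟨hc, h⟩
  · rw [not_or, not_lt, not_lt] at h
    exact Or.inr ⟨⟨h.1, YoungDiagram.mem_iff_lt_colLen.1 (l.up_left_mem le_rfl h.2 hc)⟩,
      h.2, YoungDiagram.mem_iff_lt_rowLen.1 (l.up_left_mem h.1 le_rfl hc)⟩

/-- If the first four rows and the first four columns both have at most `2m` cells, count:
if `(4,4) ∈ l` then `|l| ≤ R₄ + C₄ - 16 + (l.rowLen 3 - 4) * (l.colLen 3 - 4)` with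
`4 * rowLen 3 ≤ 2m`, `4 * colLen 3 ≤ 2m`; otherwise `|l| = R₄ + C₄ - K` with `K` the number of cells in
the `4 × 4` corner, and `K ≥ 4` or `K = |l|`.  Both contradict `2 |l| = (m+1)(m+2)`. -/
theorem cover_stair {m : ℕ} {l : YoungDiagram} (h : l.card = (stair (m + 1)).card) :
    ∃ ν ≤ l, ν.card = 2 * m + 1 ∧ (ν.colLen 0 ≤ 4 ∨ ν.rowLen 0 ≤ 4) := by
  have h0 := two_mul_card_stair (m + 1)
  rw [← h] at h0
  by_cases hA : 2 * m + 1 ≤ (l.cells.filter fun c => c.1 < 4).card
  · obtain ⟨ν, h1, h2, h3⟩ := cover_exists_sub_filter l (fun c => c.1 < 4)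
      (fun x y hxy hx => hxy.1.trans_lt hx) hA
    refine ⟨ν, h1, h2, Or.inl ?_⟩
    by_contra h'
    exact lt_irrefl _ (h3 _ (YoungDiagram.mem_iff_lt_colLen.2 (not_le.1 h')))
  by_cases hB : 2 * m + 1 ≤ (l.cells.filter fun c => c.2 < 4).card
  · obtain ⟨ν, h1, h2, h3⟩ := cover_exists_sub_filter l (fun c => c.2 < 4)
      (fun x y hxy hx => hxy.2.trans_lt hx) hB
    refine ⟨ν, h1, h2, Or.inr ?_⟩
    by_contra h'
    exact lt_irrefl _ (h3 _ (YoungDiagram.mem_iff_lt_rowLen.2 (not_le.1 h')))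
  exfalso
  have h1 := cover_card_le l 4
  have h2 := card_union_add_card_inter (l.cells.filter fun c => c.1 < 4)
    (l.cells.filter fun c => c.2 < 4)
  rw [← filter_or, ← filter_and] at h2
  by_cases h44 : (4, 4) ∈ l
  · have k1 : (range 4 ×ˢ range 4).card ≤ (l.cells.filter fun c => c.1 < 4 ∧ c.2 < 4).card := by
      refine card_le_card fun c hc => ?_
      rw [mem_product, mem_range, mem_range] at hc
      exact mem_filter.2 ⟨l.up_left_mem hc.1.le hc.2.le h44, hc⟩
    have k2 : (range 4 ×ˢ range (l.rowLen 4)).card ≤ (l.cells.filter fun c => c.1 < 4).card := by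
      refine card_le_card fun c hc => ?_
      rw [mem_product, mem_range, mem_range] at hc
      exact mem_filter.2 ⟨l.up_left_mem hc.1.le le_rfl
        (YoungDiagram.mem_iff_lt_rowLen.2 hc.2), hc.1⟩
    have k3 : (range (l.colLen 4) ×ˢ range 4).card ≤ (l.cells.filter fun c => c.2 < 4).card := by
      refine card_le_card fun c hc => ?_
      rw [mem_product, mem_range, mem_range] at hc
      exact mem_filter.2 ⟨l.up_left_mem le_rfl hc.2.le
        (YoungDiagram.mem_iff_lt_colLen.2 hc.1), hc.2⟩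
    simp only [card_product, card_range] at k1 k2 k3
    obtain ⟨x, hx⟩ := Nat.exists_eq_add_of_le (YoungDiagram.mem_iff_lt_rowLen.1 h44).le
    obtain ⟨y, hy⟩ := Nat.exists_eq_add_of_le (YoungDiagram.mem_iff_lt_colLen.1 h44).le
    rw [hx, hy, Nat.add_sub_cancel_left, Nat.add_sub_cancel_left] at h1
    have k4 : 2 * x + 8 ≤ m := by omega
    have k5 : 2 * y + 8 ≤ m := by omega
    have k6 : l.card + 16 ≤ 4 * m + y * x := by omega
    obtain ⟨s, rfl⟩ : ∃ s, m = s + 8 := ⟨m - 8, by omega⟩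
    have k7 : (2 * y) * (2 * x) ≤ s * s := Nat.mul_le_mul (by omega) (by omega)
    nlinarith
  · have k0 : l.rowLen 4 - 4 = 0 := by
      rw [YoungDiagram.mem_iff_lt_rowLen] at h44
      omega
    rw [k0, mul_zero, add_zero] at h1
    by_cases hK : ∀ c ∈ l.cells, c.1 < 4
    · rw [filter_true_of_mem hK] at hA
      change ¬ 2 * m + 1 ≤ l.card at hA
      have k6 : l.card ≤ 2 * m := by omega
      nlinarith [sq_nonneg ((m : ℤ) - 1)]
    · push Not at hK
      obtain ⟨c, hc, hc'⟩ := hK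
      have k1 : (range 4 ×ˢ range 1).card ≤ (l.cells.filter fun c => c.1 < 4 ∧ c.2 < 4).card := by
        refine card_le_card fun d hd => ?_
        rw [mem_product, mem_range, mem_range] at hd
        exact mem_filter.2 ⟨l.up_left_mem (j2 := c.2) (hd.1.le.trans hc') (by omega) hc, hd.1,
          by omega⟩
      simp only [card_product, card_range] at k1
      have k6 : l.card + 4 ≤ 4 * m := by omega
      nlinarith [sq_nonneg ((m : ℤ) - 2), sq_nonneg ((m : ℤ) - 3)]

/-- Let `D` be the part of `l` in the first two rows and columns.  If `|D| ≤ 2a` then `(2,2) ∈ l`; with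
`p = l.colLen 2 - 2 ≥ 1`, `q = l.rowLen 2 - 2 ≥ 1` we have `2(p+q) + 4 ≤ |D|` and `|l| ≤ |D| + p q`. -/
theorem cover_hook {a : ℕ} {l : YoungDiagram} (h : 2 * a + 1 ≤ l.card)
    (ha : a ≤ 3 ∨ (a + 2) ^ 2 < 4 * l.card) : ∃ ν ≤ l, ν.card = 2 * a + 1 ∧ (2, 2) ∉ ν := by
  by_cases hD : 2 * a + 1 ≤ (l.cells.filter fun c => c.1 < 2 ∨ c.2 < 2).card
  · obtain ⟨ν, h1, h2, h3⟩ := cover_exists_sub_filter l (fun c => c.1 < 2 ∨ c.2 < 2)
      (fun x y hxy hx => hx.imp hxy.1.trans_lt hxy.2.trans_lt) hD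
    exact ⟨ν, h1, h2, fun h' => by simpa using h3 _ h'⟩
  exfalso
  have h1 := cover_card_le l 2
  have h2 : 0 < (l.colLen 2 - 2) * (l.rowLen 2 - 2) := by omega
  have h3 := Nat.pos_of_mul_pos_right h2
  have h4 := Nat.pos_of_mul_pos_left h2
  have k1 : (range 2 ×ˢ range (l.rowLen 2) ∪ Ico 2 (l.colLen 2) ×ˢ range 2).card ≤
      (l.cells.filter fun c => c.1 < 2 ∨ c.2 < 2).card := by
    refine card_le_card fun c hc => ?_
    simp only [mem_union, mem_product, mem_range, mem_Ico] at hc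
    rcases hc with hc | hc
    · exact mem_filter.2 ⟨l.up_left_mem hc.1.le le_rfl
        (YoungDiagram.mem_iff_lt_rowLen.2 hc.2), Or.inl hc.1⟩
    · exact mem_filter.2 ⟨l.up_left_mem le_rfl hc.2.le
        (YoungDiagram.mem_iff_lt_colLen.2 hc.1.2), Or.inr hc.2⟩
  rw [card_union_of_disjoint (by
    rw [disjoint_left]
    intro c hc hc'
    simp only [mem_product, mem_range, mem_Ico] at hc hc'
    omega)] at k1
  simp only [card_product, card_range, Nat.card_Ico] at k1
  obtain ⟨q, hq⟩ : ∃ q, l.rowLen 2 = q + 2 := ⟨l.rowLen 2 - 2, by omega⟩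
  rw [hq] at h1 h4 k1
  rw [Nat.add_sub_cancel] at h1 h4
  clear h2
  generalize l.colLen 2 - 2 = p at *
  obtain ⟨s, rfl⟩ : ∃ s, a = p + q + 2 + s := ⟨a - (p + q + 2), by omega⟩
  have k2 : l.card ≤ 2 * (p + q + 2 + s) + p * q := by omega
  rcases ha with ha | ha
  · omega
  · nlinarith [sq_nonneg ((p : ℤ) - q)]

/-- all partitions of `n` with parts `≤ k` (fuel `f`), as non-increasing lists of positive numbers -/
def partsAux : ℕ → ℕ → ℕ → List (List ℕ)
  | _, 0, _ => [[]]
  | 0, _ + 1, _ => []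
  | f + 1, n + 1, k => (List.range (min k (n + 1))).flatMap fun j =>
      (partsAux f (n - j) (j + 1)).map fun l => (j + 1) :: l

/-- all partitions of `n` -/
def allParts (n : ℕ) : List (List ℕ) := partsAux n n n

theorem cover_mem_partsAux (f n k : ℕ) (w : List ℕ) (hs : w.Pairwise (· ≥ ·))
    (hp : ∀ x ∈ w, 0 < x) (hn : w.sum = n) (hk : ∀ x ∈ w, x ≤ k) (hf : n ≤ f) :
    w ∈ partsAux f n k := by
  induction w generalizing f n k with
  | nil =>
    subst hn
    cases f <;> simp [partsAux]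
  | cons x w ih =>
    obtain ⟨j, rfl⟩ : ∃ j, x = j + 1 := ⟨x - 1, by have := hp x List.mem_cons_self; omega⟩
    rw [List.sum_cons] at hn
    obtain ⟨n, rfl⟩ : ∃ n', n = n' + 1 := ⟨n - 1, by omega⟩
    obtain ⟨f, rfl⟩ : ∃ f', f = f' + 1 := ⟨f - 1, by omega⟩
    rw [List.pairwise_cons] at hs
    simp only [partsAux, List.mem_flatMap, List.mem_range, List.mem_map]
    have := hk _ List.mem_cons_self
    exact ⟨j, by omega, w, ih f (n - j) (j + 1) hs.2 (fun y hy => hp y (List.mem_cons_of_mem _ hy))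
      (by omega) hs.1 (by omega), rfl⟩

theorem rowLens_mem_allParts (l : YoungDiagram) : l.rowLens ∈ allParts l.card := by
  have h1 : l.rowLens.sum = l.card := by
    rw [card_eq_sum_rowLen l le_rfl]
    rfl
  refine cover_mem_partsAux _ _ _ _ l.rowLens_sorted.pairwise l.pos_of_mem_rowLens h1 ?_ le_rfl
  intro x hx
  rw [← h1]
  exact List.le_sum_of_mem hx

theorem rowLen_eq_getD (l : YoungDiagram) (r : ℕ) : l.rowLen r = l.rowLens.getD r 0 := by
  by_cases h : r < l.rowLens.length
  · rw [List.getD_eq_getElem _ _ h, YoungDiagram.get_rowLens]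
  · rw [List.getD_eq_default _ _ (not_lt.1 h)]
    rw [YoungDiagram.length_rowLens, ← YoungDiagram.mem_iff_lt_colLen,
      YoungDiagram.mem_iff_lt_rowLen] at h
    omega

end Crest.Agent.R195
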