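/- Row 195, task Words: the word module, inner product, raising/lowering operators. -/
import Crest.Agent.R195.Alg1

set_option autoImplicit false
set_option linter.unusedSectionVars false

namespace Crest.Agent.R195

open Equiv Finset

variable {ι : Type} [Fintype ι] [DecidableEq ι]

omit [Fintype ι] [DecidableEq ι] in
theorem words_eq_zero_of_neg {v : WM ι} (h : -v = v) : v = 0 := by
  ext x
  have := congrArg (fun w : WM ι => w x) h
  simp only [Finsupp.neg_apply] at this
  rw [Finsupp.zero_apply]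
  linear_combination (-1 / 2 : ℂ) * this
omit [Fintype ι] in
theorem words_comp_swap {x : ι → ℕ} {i j : ι} (hx : x i = x j) : x ∘ swap i j = x := by
  funext k
  exact apply_swap_eq_self hx k
omit [Fintype ι] [DecidableEq ι] in
theorem words_mem_iff {P Q : Finset ι} (h : Q ⊆ P ∨ Disjoint Q P) {g : Perm ι} (hg : g ∈ SP Q)
    (k : ι) : g k ∈ P ↔ k ∈ P := by
  by_cases hk : k ∈ Q
  · have hk' := (SP_apply_mem_iff hg k).2 hk
    rcases h with h | h
    · exact iff_of_true (h hk') (h hk)
    · exact iff_of_false (Finset.disjoint_left.1 h hk') (Finset.disjoint_left.1 h hk)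
  · rw [hg k hk]

omit [Fintype ι] [DecidableEq ι] in
theorem wrep_single (g : Perm ι) (x : ι → ℕ) (c : ℂ) :
    wrep ι g (Finsupp.single x c) = Finsupp.single (x ∘ g.symm) c := by
  change Finsupp.mapDomain (wact g) (Finsupp.single x c) = _
  rw [Finsupp.mapDomain_single]
  rfl
omit [Fintype ι] [DecidableEq ι] in
theorem wrep_apply (g : Perm ι) (v : WM ι) (x : ι → ℕ) : wrep ι g v x = v (x ∘ g) := by
  have hinj : Function.Injective (wact g : (ι → ℕ) → (ι → ℕ)) := fun y z h => by
    funext i
    simpa [wact] using congrFun h (g i)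
  have hx : x = wact g (x ∘ g) := by
    funext i
    simp [wact]
  change Finsupp.mapDomain (wact g) v x = _
  conv_lhs => rw [hx]
  exact Finsupp.mapDomain_apply hinj v _
omit [Fintype ι] [DecidableEq ι] in
theorem act_el (g : Perm ι) (v : WM ι) : act (el g) v = wrep ι g v := by
  simp [act, el, Representation.asAlgebraHom_single]
omit [Fintype ι] [DecidableEq ι] in
theorem act_mul_apply (a b : GA ι) (v : WM ι) : act (a * b) v = act a (act b v) := by
  rw [map_mul]
  rfl
theorem act_apply (a : GA ι) (v : WM ι) (x : ι → ℕ) :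
    act a v x = ∑ g : Perm ι, a.coeff g * v (x ∘ g) := by
  conv_lhs => rw [eq_sum_el a]
  rw [map_sum, LinearMap.sum_apply, Finsupp.finsetSum_apply]
  refine Finset.sum_congr rfl fun g _ => ?_
  rw [map_smul, LinearMap.smul_apply, act_el, Finsupp.smul_apply, wrep_apply, smul_eq_mul]
theorem act_psym_apply (P : Finset ι) (f : ι → ℕ) (v : WM ι) (x : ι → ℕ) :
    act (psym P f) v x = ∑ σ ∈ stab P f, v (x ∘ σ) := by
  rw [psym, map_sum, LinearMap.sum_apply, Finsupp.finsetSum_apply]
  refine Finset.sum_congr rfl fun g _ => ?_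
  rw [act_el, wrep_apply]
theorem act_palt_apply (P : Finset ι) (f : ι → ℕ) (v : WM ι) (x : ι → ℕ) :
    act (palt P f) v x = ∑ σ ∈ stab P f, sg σ * v (x ∘ σ) := by
  rw [palt, map_sum, LinearMap.sum_apply, Finsupp.finsetSum_apply]
  refine Finset.sum_congr rfl fun g _ => ?_
  rw [map_smul, LinearMap.smul_apply, act_el, Finsupp.smul_apply, wrep_apply, smul_eq_mul]
theorem act_psym_eq (P : Finset ι) (f : ι → ℕ) (v : WM ι) :
    act (psym P f) v = ∑ σ ∈ stab P f, wrep ι σ v := by
  rw [psym, map_sum, LinearMap.sum_apply]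
  exact Finset.sum_congr rfl fun g _ => act_el g v
theorem act_palt_eq (P : Finset ι) (f : ι → ℕ) (v : WM ι) :
    act (palt P f) v = ∑ σ ∈ stab P f, sg σ • wrep ι σ v := by
  rw [palt, map_sum, LinearMap.sum_apply]
  refine Finset.sum_congr rfl fun g _ => ?_
  rw [map_smul, LinearMap.smul_apply, act_el]
/-- a vector fixed by a swap inside a block is killed by the antisymmetriser -/
theorem act_palt_eq_zero_of_swap {P : Finset ι} {f : ι → ℕ} {i j : ι} (hij : i ≠ j) (hi : i ∈ P)
    (hj : j ∈ P) (h : f i = f j) {v : WM ι} (hv : wrep ι (swap i j) v = v) :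
    act (palt P f) v = 0 := by
  have h1 : act (palt P f * el (swap i j)) v = act (palt P f) v := by
    rw [act_mul_apply, act_el, hv]
  rw [palt_mul_el (swap_mem_stab hi hj h), sg_swap hij, map_smul, LinearMap.smul_apply,
    neg_one_smul] at h1
  exact words_eq_zero_of_neg h1
/-- a vector negated by a swap inside a block is killed by the symmetriser -/
theorem act_psym_eq_zero_of_swap {P : Finset ι} {f : ι → ℕ} {i j : ι} (hi : i ∈ P)
    (hj : j ∈ P) (h : f i = f j) {v : WM ι} (hv : wrep ι (swap i j) v = -v) :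
    act (psym P f) v = 0 := by
  have h1 : act (psym P f * el (swap i j)) v = -act (psym P f) v := by
    rw [act_mul_apply, act_el, hv, map_neg]
  rw [psym_mul_el (swap_mem_stab hi hj h)] at h1
  exact words_eq_zero_of_neg h1.symm
theorem act_palt_single_eq_zero {P : Finset ι} {f : ι → ℕ} {i j : ι} (hij : i ≠ j) (hi : i ∈ P)
    (hj : j ∈ P) (h : f i = f j) {x : ι → ℕ} (hx : x i = x j) (c : ℂ) :
    act (palt P f) (Finsupp.single x c) = 0 := by
  refine act_palt_eq_zero_of_swap hij hi hj h ?_
  rw [wrep_single, symm_swap, words_comp_swap hx]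
/-- the coefficient of an antisymmetrised vector at a word with a repeated letter vanishes -/
theorem act_palt_apply_eq_zero {P : Finset ι} {f : ι → ℕ} {i j : ι} (hij : i ≠ j) (hi : i ∈ P)
    (hj : j ∈ P) (h : f i = f j) {x : ι → ℕ} (hx : x i = x j) (v : WM ι) :
    act (palt P f) v x = 0 := by
  have h1 : act (el (swap i j) * palt P f) v x = act (palt P f) v x := by
    rw [act_mul_apply, act_el, wrep_apply, words_comp_swap hx]
  rw [el_mul_palt (swap_mem_stab hi hj h), sg_swap hij, map_smul, LinearMap.smul_apply,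
    Finsupp.smul_apply, smul_eq_mul] at h1
  linear_combination (-1 / 2 : ℂ) * h1
/-- the support of `a • v` lies in the `S_P`-orbit of the support of `v` -/
theorem exists_of_act_apply_ne_zero {P : Finset ι} {a : GA ι} (ha : a ∈ GP P) {v : WM ι}
    {x : ι → ℕ} (h : act a v x ≠ 0) : ∃ g ∈ SP P, v (x ∘ g) ≠ 0 := by
  rw [act_apply] at h
  obtain ⟨g, -, hg⟩ := Finset.exists_ne_zero_of_sum_ne_zero h
  refine ⟨g, ?_, right_ne_zero_of_mul hg⟩
  by_contra hn
  exact left_ne_zero_of_mul hg (coeff_eq_zero_of_mem_GP ha hn)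
omit [Fintype ι] in
theorem wt_comp {P : Finset ι} {g : Perm ι} (hg : ∀ i, g i ∈ P ↔ i ∈ P) (x : ι → ℕ) (r : ℕ) :
    wt P (x ∘ g) r = wt P x r := by
  unfold wt
  refine Finset.card_equiv g fun p => ?_
  simp [hg]

open Classical in
omit [Fintype ι] [DecidableEq ι] in
theorem flt_apply (q : (ι → ℕ) → Prop) (v : WM ι) (x : ι → ℕ) :
    flt q v x = if q x then v x else 0 := by
  change Finsupp.filter q v x = _
  rw [Finsupp.filter_apply]
omit [Fintype ι] [DecidableEq ι] in
theorem flt_act {P : Finset ι} {q : (ι → ℕ) → Prop} (hq : ∀ g ∈ SP P, ∀ x, q (x ∘ g) ↔ q x)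
    {a : GA ι} (ha : a ∈ GP P) (v : WM ι) : flt q (act a v) = act a (flt q v) := by
  refine GP_induction (p := fun a => flt q (act a v) = act a (flt q v)) (by simp)
    (fun g hg => ?_) (fun a b ha hb => ?_) (fun c a ha => ?_) a ha
  · ext x
    rw [act_el, act_el, flt_apply, wrep_apply, wrep_apply, flt_apply]
    by_cases hx : q x
    · rw [if_pos hx, if_pos ((hq g hg x).2 hx)]
    · rw [if_neg hx, if_neg fun h' => hx ((hq g hg x).1 h')]
  · simp only [map_add, LinearMap.add_apply, ha, hb]
  · simp only [map_smul, LinearMap.smul_apply, ha]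

omit [Fintype ι] [DecidableEq ι] in
theorem ip_single_left (x : ι → ℕ) (c : ℂ) (w : WM ι) :
    ip (Finsupp.single x c) w = (starRingEnd ℂ) c * w x := by
  unfold ip
  rw [Finsupp.sum_single_index (by simp)]
omit [Fintype ι] [DecidableEq ι] in
theorem ip_add_left (u v w : WM ι) : ip (u + v) w = ip u w + ip v w := by
  unfold ip
  exact Finsupp.sum_add_index' (fun _ => by simp) fun _ _ _ => by rw [map_add, add_mul]
omit [Fintype ι] [DecidableEq ι] in
theorem ip_smul_left (c : ℂ) (v w : WM ι) : ip (c • v) w = (starRingEnd ℂ) c * ip v w := by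
  unfold ip
  rw [Finsupp.sum_smul_index' (fun _ => by simp), Finsupp.mul_sum]
  refine Finsupp.sum_congr fun x _ => ?_
  rw [smul_eq_mul, map_mul, mul_assoc]
omit [Fintype ι] [DecidableEq ι] in
theorem ip_add_right (u v w : WM ι) : ip u (v + w) = ip u v + ip u w := by
  unfold ip
  rw [← Finsupp.sum_add]
  refine Finsupp.sum_congr fun x _ => ?_
  rw [Finsupp.add_apply, mul_add]
omit [Fintype ι] [DecidableEq ι] in
theorem ip_smul_right (c : ℂ) (v w : WM ι) : ip v (c • w) = c * ip v w := by
  unfold ip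
  rw [Finsupp.mul_sum]
  refine Finsupp.sum_congr fun x _ => ?_
  rw [Finsupp.smul_apply, smul_eq_mul, mul_left_comm]
omit [Fintype ι] [DecidableEq ι] in
theorem ip_zero_left (w : WM ι) : ip 0 w = 0 := by
  simp [ip]
omit [Fintype ι] [DecidableEq ι] in
theorem ip_zero_right (w : WM ι) : ip w 0 = 0 := by
  simp [ip]
omit [Fintype ι] [DecidableEq ι] in
theorem ip_self_eq (v : WM ι) : ip v v = ((∑ x ∈ v.support, ‖v x‖ ^ 2 : ℝ) : ℂ) := by
  unfold ip
  rw [Finsupp.sum]
  push_cast
  exact Finset.sum_congr rfl fun x _ => Complex.conj_mul' _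
omit [Fintype ι] [DecidableEq ι] in
theorem eq_zero_of_ip_self {v : WM ι} (h : ip v v = 0) : v = 0 := by
  rw [ip_self_eq, Complex.ofReal_eq_zero,
    Finset.sum_eq_zero_iff_of_nonneg fun x _ => sq_nonneg _] at h
  ext x
  by_contra hx
  have := h x (Finsupp.mem_support_iff.2 hx)
  rw [sq_eq_zero_iff, norm_eq_zero] at this
  exact hx this
omit [Fintype ι] [DecidableEq ι] in
theorem ip_wrep_left (g : Perm ι) (v w : WM ι) : ip (wrep ι g v) w = ip v (wrep ι g⁻¹ w) := by
  induction v using Finsupp.induction_linear with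
  | zero => rw [map_zero, ip_zero_left, ip_zero_left]
  | add a b ha hb => rw [map_add, ip_add_left, ip_add_left, ha, hb]
  | single x c =>
    rw [wrep_single, ip_single_left, ip_single_left, wrep_apply]
    rfl
omit [Fintype ι] [DecidableEq ι] in
theorem words_ip_sum_left {α : Type*} (s : Finset α) (v : α → WM ι) (w : WM ι) :
    ip (∑ a ∈ s, v a) w = ∑ a ∈ s, ip (v a) w := by
  classical
  induction s using Finset.induction_on with
  | empty => simp [ip_zero_left]
  | insert a s ha ih => rw [Finset.sum_insert ha, Finset.sum_insert ha, ip_add_left, ih]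
omit [Fintype ι] [DecidableEq ι] in
theorem words_ip_sum_right {α : Type*} (s : Finset α) (v : WM ι) (w : α → WM ι) :
    ip v (∑ a ∈ s, w a) = ∑ a ∈ s, ip v (w a) := by
  classical
  induction s using Finset.induction_on with
  | empty => simp [ip_zero_right]
  | insert a s ha ih => rw [Finset.sum_insert ha, Finset.sum_insert ha, ip_add_right, ih]
theorem ip_act_psym (P : Finset ι) (f : ι → ℕ) (v w : WM ι) :
    ip (act (psym P f) v) w = ip v (act (psym P f) w) := by
  rw [act_psym_eq, act_psym_eq, words_ip_sum_left, words_ip_sum_right]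
  refine Finset.sum_nbij' (fun σ => σ⁻¹) (fun σ => σ⁻¹) (fun σ h => inv_mem_stab h)
    (fun σ h => inv_mem_stab h) (fun σ _ => inv_inv σ) (fun σ _ => inv_inv σ) fun σ _ => ?_
  rw [ip_wrep_left]
theorem ip_act_palt (P : Finset ι) (f : ι → ℕ) (v w : WM ι) :
    ip (act (palt P f) v) w = ip v (act (palt P f) w) := by
  rw [act_palt_eq, act_palt_eq, words_ip_sum_left, words_ip_sum_right]
  refine Finset.sum_nbij' (fun σ => σ⁻¹) (fun σ => σ⁻¹) (fun σ h => inv_mem_stab h)
    (fun σ h => inv_mem_stab h) (fun σ _ => inv_inv σ) (fun σ _ => inv_inv σ) fun σ _ => ?_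
  rw [ip_smul_left, ip_smul_right, ip_wrep_left, conj_sg, sg_inv]

omit [Fintype ι] in
theorem Eop_single (P : Finset ι) (i j : ℕ) (x : ι → ℕ) (c : ℂ) :
    Eop P i j (Finsupp.single x c) =
      ∑ p ∈ P.filter (fun p => x p = j), Finsupp.single (Function.update x p i) c := by
  unfold Eop
  rw [Finsupp.linearCombination_single, Finset.smul_sum]
  refine Finset.sum_congr rfl fun p _ => ?_
  rw [Finsupp.smul_single, smul_eq_mul, mul_one]
omit [Fintype ι] in
theorem Eop_apply (P : Finset ι) (i j : ℕ) (v : WM ι) (z : ι → ℕ) :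
    Eop P i j v z = ∑ p ∈ P.filter (fun p => z p = i), v (Function.update z p j) := by
  classical
  induction v using Finsupp.induction_linear with
  | zero => simp
  | add a b ha hb =>
    rw [map_add, Finsupp.add_apply, ha, hb, ← Finset.sum_add_distrib]
    rfl
  | single x c =>
    rw [Eop_single, Finsupp.finsetSum_apply, Finset.sum_filter, Finset.sum_filter]
    refine Finset.sum_congr rfl fun p _ => ?_
    simp only [Finsupp.single_apply]
    have key : (x p = j ∧ Function.update x p i = z) ↔ (z p = i ∧ x = Function.update z p j) := by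
      constructor
      · rintro ⟨h1, rfl⟩
        refine ⟨Function.update_self _ _ _, ?_⟩
        rw [Function.update_idem, ← h1, Function.update_eq_self]
      · rintro ⟨h1, rfl⟩
        refine ⟨Function.update_self _ _ _, ?_⟩
        rw [Function.update_idem, ← h1, Function.update_eq_self]
    rw [← ite_and, ← ite_and]
    exact if_congr key rfl rfl
omit [Fintype ι] in
theorem Eop_union {P Q : Finset ι} (h : Disjoint P Q) (i j : ℕ) (v : WM ι) :
    Eop (P ∪ Q) i j v = Eop P i j v + Eop Q i j v := by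
  ext z
  rw [Finsupp.add_apply, Eop_apply, Eop_apply, Eop_apply, Finset.filter_union,
    Finset.sum_union (Finset.disjoint_filter_filter h)]
omit [Fintype ι] in
theorem Eop_wrep {P : Finset ι} {g : Perm ι} (hg : ∀ i, g i ∈ P ↔ i ∈ P) (i j : ℕ) (v : WM ι) :
    Eop P i j (wrep ι g v) = wrep ι g (Eop P i j v) := by
  ext z
  rw [wrep_apply, Eop_apply, Eop_apply]
  symm
  refine Finset.sum_equiv g (fun p => by simp [hg]) fun p _ => ?_
  rw [wrep_apply, Function.update_comp_eq_of_injective z g.injective]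
omit [Fintype ι] in
theorem Eop_act {P Q : Finset ι} (h : Q ⊆ P ∨ Disjoint Q P) {a : GA ι} (ha : a ∈ GP Q) (i j : ℕ)
    (v : WM ι) : Eop P i j (act a v) = act a (Eop P i j v) := by
  refine GP_induction (p := fun a => Eop P i j (act a v) = act a (Eop P i j v)) (by simp)
    (fun g hg => ?_) (fun a b ha hb => ?_) (fun c a ha => ?_) a ha
  · rw [act_el, act_el, Eop_wrep (words_mem_iff h hg)]
  · simp only [map_add, LinearMap.add_apply, ha, hb]
  · simp only [map_smul, LinearMap.smul_apply, ha]
omit [Fintype ι] in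
theorem ip_Eop (P : Finset ι) (i j : ℕ) (v w : WM ι) :
    ip (Eop P i j v) w = ip v (Eop P j i w) := by
  induction v using Finsupp.induction_linear with
  | zero => rw [map_zero, ip_zero_left, ip_zero_left]
  | add a b ha hb => rw [map_add, ip_add_left, ip_add_left, ha, hb]
  | single x c =>
    rw [Eop_single, words_ip_sum_left, ip_single_left, Eop_apply, Finset.mul_sum]
    exact Finset.sum_congr rfl fun p _ => ip_single_left _ _ _
omit [Fintype ι] in
theorem words_EF (P : Finset ι) {i j : ℕ} (hij : i ≠ j) (x : ι → ℕ) :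
    Eop P i j (Eop P j i (Finsupp.single x 1)) = (wt P x i : ℂ) • Finsupp.single x 1 +
      ∑ p ∈ P.filter (fun p => x p = i), ∑ q ∈ P.filter (fun p => x p = j),
        Finsupp.single (Function.update (Function.update x p j) q i) (1 : ℂ) := by
  rw [Eop_single, map_sum, wt, Nat.cast_smul_eq_nsmul, ← Finset.sum_const,
    ← Finset.sum_add_distrib]
  refine Finset.sum_congr rfl fun p hp => ?_
  obtain ⟨hpP, hpi⟩ := Finset.mem_filter.1 hp
  have hn : p ∉ P.filter (fun q => x q = j) := fun h' =>
    hij (hpi.symm.trans (Finset.mem_filter.1 h').2)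
  have e : P.filter (fun q => Function.update x p j q = j) =
      insert p (P.filter fun q => x q = j) := by
    ext q
    by_cases hq : q = p
    · subst hq
      simp [hpP]
    · simp [hq]
  rw [Eop_single, e, Finset.sum_insert hn, Function.update_idem, ← hpi, Function.update_eq_self]
omit [Fintype ι] in
/-- `[E, F] = H` on a basis word -/
theorem Eop_comm_single (P : Finset ι) {i j : ℕ} (hij : i ≠ j) (x : ι → ℕ) :
    Eop P i j (Eop P j i (Finsupp.single x 1)) - Eop P j i (Eop P i j (Finsupp.single x 1)) =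
      ((wt P x i : ℂ) - (wt P x j : ℂ)) • Finsupp.single x 1 := by
  rw [words_EF P hij x, words_EF P hij.symm x, sub_smul, Finset.sum_comm (s := P.filter _)]
  have : ∀ p ∈ P.filter (fun p => x p = i), ∀ q ∈ P.filter (fun p => x p = j),
      (Finsupp.single (Function.update (Function.update x p j) q i) (1 : ℂ) : WM ι) =
        Finsupp.single (Function.update (Function.update x q i) p j) 1 := fun p hp q hq => by
    have hpq : p ≠ q := fun e => hij (by
      rw [← (Finset.mem_filter.1 hp).2, ← (Finset.mem_filter.1 hq).2, e])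
    rw [Function.update_comm hpq]
  rw [Finset.sum_congr rfl fun q hq => Finset.sum_congr rfl fun p hp => this p hp q hq]
  abel
omit [Fintype ι] in
/-- highest weights are dominant: `‖F v‖² = (a - b) ‖v‖²` -/
theorem sl2_dom {P : Finset ι} {i j a b : ℕ} (hij : i ≠ j) {v : WM ι} (hv : v ≠ 0)
    (hE : Eop P i j v = 0) (hw : ∀ x, v x ≠ 0 → wt P x i = a ∧ wt P x j = b) : b ≤ a := by
  have hc : Eop P i j (Eop P j i v) - Eop P j i (Eop P i j v) = ((a : ℂ) - (b : ℂ)) • v := by
    have hv' : v = ∑ x ∈ v.support, v x • Finsupp.single x (1 : ℂ) := by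
      conv_lhs => rw [← Finsupp.sum_single v, Finsupp.sum]
      refine Finset.sum_congr rfl fun x _ => ?_
      rw [Finsupp.smul_single, smul_eq_mul, mul_one]
    rw [hv']
    simp only [map_sum, map_smul]
    rw [← Finset.sum_sub_distrib, Finset.smul_sum]
    refine Finset.sum_congr rfl fun x hx => ?_
    obtain ⟨h1, h2⟩ := hw x (Finsupp.mem_support_iff.1 hx)
    rw [← smul_sub, Eop_comm_single P hij, h1, h2, smul_comm]
  rw [hE, map_zero, sub_zero] at hc
  have h1 := ip_Eop P j i v (Eop P j i v)
  rw [hc, ip_smul_right, ip_self_eq, ip_self_eq] at h1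
  have h2 : (∑ x ∈ (Eop P j i v).support, ‖Eop P j i v x‖ ^ 2 : ℝ) =
      ((a : ℝ) - b) * ∑ x ∈ v.support, ‖v x‖ ^ 2 := by exact_mod_cast h1
  have h3 : (0 : ℝ) ≤ ∑ x ∈ (Eop P j i v).support, ‖Eop P j i v x‖ ^ 2 :=
    Finset.sum_nonneg fun x _ => sq_nonneg _
  have h4 : (0 : ℝ) < ∑ x ∈ v.support, ‖v x‖ ^ 2 :=
    Finset.sum_pos (fun x hx => pow_pos (norm_pos_iff.2 (Finsupp.mem_support_iff.1 hx)) 2)
      (Finsupp.support_nonempty_iff.2 hv)
  rw [h2] at h3
  have h5 := nonneg_of_mul_nonneg_left h3 h4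
  exact_mod_cast sub_nonneg.1 h5
omit [Fintype ι] in
/-- a nonzero vector of constant weight killed by all raising operators is in some `HW P μ` -/
theorem exists_mem_HW {P : Finset ι} {v : WM ι} (hv : v ≠ 0) (f : ℕ → ℕ)
    (hw : ∀ x, v x ≠ 0 → ∀ r, wt P x r = f r) (hE : ∀ i j, i < j → Eop P i j v = 0) :
    ∃ μ : YoungDiagram, (∀ r, μ.rowLen r = f r) ∧ v ∈ HW P μ := by
  have hanti : Antitone f := antitone_nat_of_succ_le fun n =>
    sl2_dom (P := P) (i := n) (j := n + 1) (by omega) hv (hE n (n + 1) (by omega))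
      fun x hx => ⟨hw x hx n, hw x hx (n + 1)⟩
  obtain ⟨x, hx⟩ := Finsupp.support_nonempty_iff.2 hv
  have hx' := Finsupp.mem_support_iff.1 hx
  have hN : f (P.sup x + 1) = 0 := by
    rw [← hw x hx', wt, Finset.card_eq_zero, Finset.filter_eq_empty_iff]
    intro p hp e
    have := Finset.le_sup (f := x) hp
    omega
  obtain ⟨μ, hμ⟩ := exists_yd_of_antitone f hanti _ hN
  exact ⟨μ, hμ, fun y hy r => by rw [hw y hy r, hμ], hE⟩
omit [Fintype ι] in
theorem HW_act {P Q : Finset ι} (h : Q ⊆ P ∨ Disjoint Q P) {μ : YoungDiagram} {a : GA ι}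
    (ha : a ∈ GP Q) {v : WM ι} (hv : v ∈ HW P μ) : act a v ∈ HW P μ := by
  refine GP_induction (p := fun a => act a v ∈ HW P μ) (by simp)
    (fun g hg => ?_) (fun a b ha hb => ?_) (fun c a ha => ?_) a ha
  · rw [act_el]
    refine ⟨fun x hx r => ?_, fun i j hij => ?_⟩
    · rw [wrep_apply] at hx
      rw [← hv.1 _ hx r, wt_comp (words_mem_iff h hg)]
    · rw [Eop_wrep (words_mem_iff h hg), hv.2 i j hij, map_zero]
  · rw [map_add, LinearMap.add_apply]
    exact Submodule.add_mem _ ha hb
  · rw [map_smul, LinearMap.smul_apply]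
    exact Submodule.smul_mem _ c ha

end Crest.Agent.R195
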