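/- Row 195, task HWSpec: highest weight vectors = Specht module; Specht modules are isotypic. -/
import Crest.Agent.R195.Alg2
import Crest.Agent.R195.Words

set_option autoImplicit false

namespace Crest.Agent.R195

open Equiv Finset

variable {ι : Type} [Fintype ι] [DecidableEq ι]

theorem ptab_apply (P : Finset ι) (T : ι → ℕ × ℕ) (x : ι → ℕ) :
    ptab P T x = ∑ σ ∈ stab P (colf T), if rowf T = x ∘ σ then sg σ else 0 := by
  unfold ptab
  rw [act_palt_apply]
  refine Finset.sum_congr rfl fun σ _ => ?_
  rw [Finsupp.single_apply]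
  split_ifs <;> simp

theorem wrep_ptab {P : Finset ι} {g : Perm ι} (hg : g ∈ SP P) (T : ι → ℕ × ℕ) :
    wrep ι g (ptab P T) = ptab P (T ∘ g.symm) := by
  unfold ptab
  rw [← act_el, ← act_mul_apply, el_mul_palt_conj, map_eq_of_mem_SP hg, act_mul_apply, act_el,
    wrep_single]
  rfl

theorem ptab_mem_Spec {P : Finset ι} {T : ι → ℕ × ℕ} {μ : YoungDiagram} (hT : IsTab P T μ) :
    ptab P T ∈ Spec P μ := Submodule.subset_span ⟨T, hT, rfl⟩

theorem ptab_apply_row {P : Finset ι} {T : ι → ℕ × ℕ} {μ : YoungDiagram} (hT : IsTab P T μ) :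
    ptab P T (rowf T) = 1 := by
  rw [ptab_apply, Finset.sum_eq_single (1 : Perm ι)]
  · simp
  · intro σ hσ hne
    rw [if_neg]
    intro h
    apply hne
    refine hT.eq_one_of_mem_stab (mem_stab.2 ⟨(mem_stab.1 hσ).1, fun i => ?_⟩) hσ
    exact (congrFun h i).symm
  · intro h
    exact absurd (one_mem_stab _ _) h

theorem HWSpec_exists_of_ne_zero {P : Finset ι} {T : ι → ℕ × ℕ} {x : ι → ℕ}
    (hx : ptab P T x ≠ 0) : ∃ σ ∈ stab P (colf T), rowf T = x ∘ σ := by
  rw [ptab_apply] at hx
  obtain ⟨σ, hσ, h⟩ := Finset.exists_ne_zero_of_sum_ne_zero hx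
  refine ⟨σ, hσ, ?_⟩
  by_contra h'
  exact h (if_neg h')

/-- letters of a polytabloid are bounded by the column lengths -/
theorem ptab_apply_lt {P : Finset ι} {T : ι → ℕ × ℕ} {μ : YoungDiagram} (hT : IsTab P T μ)
    {x : ι → ℕ} (hx : ptab P T x ≠ 0) {i : ι} (hi : i ∈ P) : x i < μ.colLen (colf T i) := by
  obtain ⟨σ, hσ, h⟩ := HWSpec_exists_of_ne_zero hx
  have hσ' := inv_mem_stab hσ
  have h1 : σ⁻¹ i ∈ P := (SP_apply_mem_iff (mem_SP_of_mem_stab hσ') i).2 hi
  have h2 : x i = rowf T (σ⁻¹ i) := by
    rw [h]; simp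
  have h3 : colf T (σ⁻¹ i) = colf T i := (mem_stab.1 hσ').2 i
  rw [h2, ← h3, ← YoungDiagram.mem_iff_lt_colLen]
  exact hT.mem h1

/-- `Eop` commutes with `palt`; `Eop P i j (single (rowf T) 1)` is a sum of words with the letter `i`
twice in one column. -/
theorem ptab_mem_HW {P : Finset ι} {T : ι → ℕ × ℕ} {μ : YoungDiagram} (hT : IsTab P T μ) :
    ptab P T ∈ HW P μ := by
  refine ⟨fun x hx r => ?_, fun i j hij => ?_⟩
  · obtain ⟨σ, hσ, h⟩ := HWSpec_exists_of_ne_zero hx
    rw [← hT.wt_rowf r, h, wt_comp (SP_apply_mem_iff (mem_SP_of_mem_stab hσ))]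
  · unfold ptab
    rw [Eop_act (Or.inl (Finset.Subset.refl P)) (palt_mem_GP P _), Eop_single, map_sum]
    refine Finset.sum_eq_zero fun q hq => ?_
    rw [Finset.mem_filter] at hq
    have hmem : (i, colf T q) ∈ μ := by
      have h1 : (rowf T q, colf T q) ∈ μ := hT.mem hq.1
      refine μ.up_left_mem ?_ le_rfl h1
      rw [hq.2]; exact hij.le
    obtain ⟨q', hq', hT'⟩ := hT.surj hmem
    have hr : rowf T q' = i := by simp [rowf, hT']
    have hc : colf T q' = colf T q := by
      show (T q').2 = _
      rw [hT']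
    have hne : q' ≠ q := by
      rintro rfl
      rw [hq.2] at hr
      omega
    refine act_palt_single_eq_zero hne hq' hq.1 hc ?_ _
    rw [Function.update_of_ne hne, Function.update_self, hr]

omit [Fintype ι] in
theorem HWSpec_wt_insert {P : Finset ι} {p : ι} (hp : p ∉ P) (x : ι → ℕ) (s : ℕ) :
    wt (insert p P) x s = wt P x s + if x p = s then 1 else 0 := by
  unfold wt
  rw [Finset.filter_insert]
  split_ifs with h
  · rw [Finset.card_insert_of_notMem]
    intro h'
    exact hp (Finset.mem_filter.1 h').1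
  · rfl

omit [Fintype ι] in
/-- the component of a highest weight vector with the largest letter at position `p` is a highest
weight vector for the remaining positions (use `Eop_union`, `Eop_apply`, `exists_mem_HW`) -/
theorem top_component {P : Finset ι} {p : ι} (hp : p ∉ P) {μ : YoungDiagram} {v : WM ι}
    (hv : v ∈ HW (insert p P) μ) (r : ℕ) (hr : ∀ x, v x ≠ 0 → x p ≤ r)
    (h0 : flt (fun x => x p = r) v ≠ 0) :
    ∃ μ' : YoungDiagram, flt (fun x => x p = r) v ∈ HW P μ' ∧
      ∀ s, μ.rowLen s = μ'.rowLen s + if s = r then 1 else 0 := by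
  have hsupp : ∀ x, flt (fun x => x p = r) v x ≠ 0 → x p = r ∧ v x ≠ 0 := by
    intro x hx
    rw [flt_apply] at hx
    by_cases h : x p = r
    · rw [if_pos h] at hx; exact ⟨h, hx⟩
    · rw [if_neg h] at hx; exact absurd rfl hx
  have hwt : ∀ x, flt (fun x => x p = r) v x ≠ 0 → ∀ s,
      μ.rowLen s = wt P x s + if s = r then 1 else 0 := by
    intro x hx s
    obtain ⟨h1, h2⟩ := hsupp x hx
    rw [← hv.1 x h2 s, HWSpec_wt_insert hp, h1]
    simp only [eq_comm]
  obtain ⟨μ', h1, h2⟩ := exists_mem_HW (P := P) h0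
    (fun s => μ.rowLen s - if s = r then 1 else 0)
    (fun x hx s => by rw [hwt x hx s]; omega) (fun i j hij => by
      ext z
      rw [Eop_apply, Finsupp.zero_apply]
      have hne : ∀ q ∈ P.filter (fun q => z q = i), p ≠ q := by
        intro q hq h
        exact hp (h ▸ (Finset.mem_filter.1 hq).1)
      by_cases hz : z p = r
      · have e1 := congrArg (fun w : WM ι => w z) (hv.2 i j hij)
        simp only [Eop_apply, Finsupp.zero_apply] at e1
        rw [Finset.filter_insert] at e1
        have e2 : ∑ q ∈ P.filter (fun q => z q = i), v (Function.update z q j) = 0 := by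
          split_ifs at e1 with h
          · rw [Finset.sum_insert (fun h' => hp (Finset.mem_filter.1 h').1)] at e1
            have : v (Function.update z p j) = 0 := by
              by_contra h'
              have := hr _ h'
              rw [Function.update_self] at this
              omega
            rwa [this, zero_add] at e1
          · exact e1
        rw [← e2]
        refine Finset.sum_congr rfl fun q hq => ?_
        rw [flt_apply, if_pos]
        rw [Function.update_of_ne (hne q hq), hz]
      · refine Finset.sum_eq_zero fun q hq => ?_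
        rw [flt_apply, if_neg]
        rw [Function.update_of_ne (hne q hq)]
        exact hz)
  refine ⟨μ', h2, fun s => ?_⟩
  obtain ⟨x, hx⟩ : ∃ x, flt (fun x => x p = r) v x ≠ 0 := by
    by_contra h
    push Not at h
    exact h0 (Finsupp.ext h)
  have := hwt x hx s
  rw [h1 s]
  omega

omit [Fintype ι] in
theorem isTab_insert {P : Finset ι} {p : ι} (hp : p ∉ P) {T : ι → ℕ × ℕ} {μ μ' : YoungDiagram}
    {r : ℕ} (hT : IsTab P T μ') (h : ∀ s, μ.rowLen s = μ'.rowLen s + if s = r then 1 else 0) :
    IsTab (insert p P) (Function.update T p (r, μ'.rowLen r)) μ := by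
  have hnot : (r, μ'.rowLen r) ∉ μ' := by
    rw [YoungDiagram.mem_iff_lt_rowLen]; omega
  have hup : ∀ i ∈ P, Function.update T p (r, μ'.rowLen r) i = T i := by
    intro i hi
    exact Function.update_of_ne (ne_of_mem_of_not_mem hi hp) _ _
  refine isTab_of (fun i hi => ?_) (fun i hi j hj hij => ?_) (fun c hc => ?_)
  · rcases Finset.mem_insert.1 hi with rfl | hi
    · rw [Function.update_self, YoungDiagram.mem_iff_lt_rowLen, h r]; simp
    · rw [hup i hi]
      have h1 : ((T i).1, (T i).2) ∈ μ' := hT.mem hi
      show ((T i).1, (T i).2) ∈ μ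
      rw [YoungDiagram.mem_iff_lt_rowLen] at h1 ⊢
      rw [h]; omega
  · rcases Finset.mem_insert.1 hi with hi' | hi' <;> rcases Finset.mem_insert.1 hj with hj' | hj'
    · rw [hi', hj']
    · rw [hi', Function.update_self, hup j hj'] at hij
      exact absurd (hij ▸ hT.mem hj') hnot
    · rw [hj', Function.update_self, hup i hi'] at hij
      exact absurd (hij ▸ hT.mem hi') hnot
    · rw [hup i hi', hup j hj'] at hij
      exact hT.inj hi' hj' hij
  · by_cases hc' : c ∈ μ'
    · obtain ⟨i, hi, hTi⟩ := hT.surj hc'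
      exact ⟨i, Finset.mem_insert_of_mem hi, by rw [hup i hi, hTi]⟩
    · refine ⟨p, Finset.mem_insert_self _ _, ?_⟩
      obtain ⟨a, b⟩ := c
      rw [YoungDiagram.mem_iff_lt_rowLen] at hc hc'
      rw [h a] at hc
      rw [Function.update_self]
      by_cases har : a = r
      · subst har
        rw [if_pos rfl] at hc
        congr 1
        omega
      · rw [if_neg har] at hc
        omega

/-- if `p` sits at the bottom of its column, the top component of the polytabloid is the
polytabloid of the smaller tableau -/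
theorem flt_ptab {P : Finset ι} {p : ι} (hp : p ∉ P) {T : ι → ℕ × ℕ} {μ : YoungDiagram}
    (hT : IsTab (insert p P) T μ) (hbot : ∀ i ∈ P, colf T i = colf T p → rowf T i < rowf T p) :
    flt (fun x => x p = rowf T p) (ptab (insert p P) T) = ptab P T ∧
      ∀ x, ptab (insert p P) T x ≠ 0 → x p ≤ rowf T p := by
  have _ := hT
  have key : ∀ x : ι → ℕ, ∀ σ ∈ stab (insert p P) (colf T), rowf T = x ∘ σ →
      (σ p = p ∧ x p = rowf T p) ∨ x p < rowf T p := by
    intro x σ hσ h
    have hσ' := inv_mem_stab hσ
    have h1 : σ⁻¹ p ∈ insert p P :=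
      (SP_apply_mem_iff (mem_SP_of_mem_stab hσ') p).2 (Finset.mem_insert_self _ _)
    have h2 : x p = rowf T (σ⁻¹ p) := by
      rw [h]; simp
    rcases Finset.mem_insert.1 h1 with h3 | h3
    · left
      refine ⟨?_, by rw [h2, h3]⟩
      rw [Perm.inv_eq_iff_eq] at h3
      exact h3.symm
    · right
      rw [h2]
      exact hbot _ h3 ((mem_stab.1 hσ').2 p)
  refine ⟨?_, fun x hx => ?_⟩
  · ext x
    rw [flt_apply, ptab_apply, ptab_apply]
    split_ifs with hx
    · symm
      refine Finset.sum_subset (fun σ hσ => ?_) (fun σ hσ hσ' => ?_)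
      · rw [mem_stab] at hσ ⊢
        exact ⟨fun i hi => hσ.1 i (fun h => hi (Finset.mem_insert_of_mem h)), hσ.2⟩
      · rw [if_neg]
        intro h
        rcases key x σ hσ h with h1 | h1
        · apply hσ'
          rw [mem_stab] at hσ ⊢
          refine ⟨fun i hi => ?_, hσ.2⟩
          by_cases hip : i = p
          · rw [hip]; exact h1.1
          · exact hσ.1 i (fun h => (Finset.mem_insert.1 h).elim hip hi)
        · omega
    · symm
      refine Finset.sum_eq_zero fun σ hσ => if_neg fun h => hx ?_
      have := congrFun h p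
      rw [this, Function.comp_apply, (mem_stab.1 hσ).1 p hp]
  · obtain ⟨σ, hσ, h⟩ := HWSpec_exists_of_ne_zero hx
    rcases key x σ hσ h with h1 | h1
    · exact h1.2.le
    · exact h1.le

theorem HWSpec_Spec_le_HW (P : Finset ι) (μ : YoungDiagram) : Spec P μ ≤ HW P μ := by
  refine Submodule.span_le.2 ?_
  rintro v ⟨T, hT, rfl⟩
  exact ptab_mem_HW hT

theorem HWSpec_empty (μ : YoungDiagram) : HW (∅ : Finset ι) μ ≤ Spec ∅ μ := by
  intro v hv
  rw [← Finsupp.sum_single v, Finsupp.sum]
  refine Submodule.sum_mem _ fun x hx => ?_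
  have hx' : v x ≠ 0 := Finsupp.mem_support_iff.1 hx
  have hrow : ∀ r, μ.rowLen r = 0 := fun r => by
    rw [← hv.1 x hx' r]; simp [wt]
  have hT : IsTab (∅ : Finset ι) (fun i => (x i, 0)) μ := by
    refine isTab_of (by simp) (by simp) (fun c hc => ?_)
    obtain ⟨a, b⟩ := c
    rw [YoungDiagram.mem_iff_lt_rowLen, hrow] at hc
    omega
  have hst : stab (∅ : Finset ι) (colf (fun i => (x i, 0))) = {1} := by
    ext σ
    rw [mem_stab, Finset.mem_singleton]
    constructor
    · intro h
      ext i
      exact h.1 i (by simp)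
    · rintro rfl
      simp
  have : Finsupp.single x (v x) = v x • ptab (∅ : Finset ι) (fun i => (x i, 0)) := by
    unfold ptab
    rw [act_palt_eq, hst, Finset.sum_singleton, sg_one, one_smul, map_one, Module.End.one_apply,
      Finsupp.smul_single, smul_eq_mul, mul_one]
    rfl
  rw [this]
  exact Submodule.smul_mem _ _ (ptab_mem_Spec hT)

theorem HWSpec_lift {P : Finset ι} {p : ι} (hp : p ∉ P) {μ μ' : YoungDiagram} {r : ℕ}
    (h : ∀ s, μ.rowLen s = μ'.rowLen s + if s = r then 1 else 0) {w : WM ι}
    (hw : w ∈ Spec P μ') :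
    ∃ u ∈ Spec (insert p P) μ, (∀ x, u x ≠ 0 → x p ≤ r) ∧
      flt (fun x => x p = r) u = flt (fun x => x p = r) w := by
  induction hw using Submodule.span_induction with
  | mem w hw =>
    obtain ⟨T, hT, rfl⟩ := hw
    have hsupp : ∀ x, ptab P T x ≠ 0 → x p = rowf T p := by
      intro x hx
      obtain ⟨σ, hσ, h⟩ := HWSpec_exists_of_ne_zero hx
      rw [congrFun h p, Function.comp_apply, (mem_stab.1 hσ).1 p hp]
    by_cases hr : rowf T p = r
    · have hT' := isTab_insert hp hT h
      set T' := Function.update T p (r, μ'.rowLen r) with hT'def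
      have hup : ∀ i ∈ P, T' i = T i := by
        intro i hi
        exact Function.update_of_ne (ne_of_mem_of_not_mem hi hp) _ _
      have hp1 : rowf T' p = r := by simp [rowf, hT'def]
      have hp2 : colf T' p = μ'.rowLen r := by simp [colf, hT'def]
      have hbot : ∀ i ∈ P, colf T' i = colf T' p → rowf T' i < rowf T' p := by
        intro i hi hc
        rw [hp2] at hc
        rw [hp1]
        have h1 : ((T' i).1, (T' i).2) ∈ μ' := by
          rw [hup i hi]; exact hT.mem hi
        rw [YoungDiagram.mem_iff_lt_rowLen] at h1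
        change (T' i).2 = _ at hc
        change (T' i).1 < r
        by_contra hle
        have := μ'.rowLen_anti r (T' i).1 (not_lt.1 hle)
        omega
      obtain ⟨e1, e2⟩ := flt_ptab hp hT' hbot
      rw [hp1] at e1 e2
      refine ⟨ptab (insert p P) T', ptab_mem_Spec hT', e2, ?_⟩
      rw [e1]
      have hrow : rowf T' = rowf T := by
        funext i
        by_cases hi : i = p
        · rw [hi, hp1, hr]
        · simp [rowf, hT'def, Function.update_of_ne hi]
      have hcol : stab P (colf T') = stab P (colf T) := by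
        refine stab_congr fun i hi j hj => ?_
        simp only [colf, hup i hi, hup j hj]
      have e3 : ptab P T' = ptab P T := by
        unfold ptab palt
        rw [hrow, hcol]
      rw [e3]
      ext x
      rw [flt_apply]
      split_ifs with hx
      · rfl
      · by_contra h'
        exact hx ((hsupp x h').trans hr)
    · refine ⟨0, Submodule.zero_mem _, fun x hx => absurd rfl hx, ?_⟩
      rw [map_zero]
      ext x
      rw [flt_apply, Finsupp.zero_apply]
      split_ifs with hx
      · by_contra h'
        exact hr ((hsupp x (Ne.symm h')).symm.trans hx)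
      · rfl
  | zero => exact ⟨0, Submodule.zero_mem _, fun x hx => absurd rfl hx, rfl⟩
  | add a b _ _ ha hb =>
    obtain ⟨u, hu, hu1, hu2⟩ := ha
    obtain ⟨u', hu', hu1', hu2'⟩ := hb
    refine ⟨u + u', Submodule.add_mem _ hu hu', fun x hx => ?_, by rw [map_add, map_add, hu2, hu2']⟩
    by_cases h1 : u x = 0
    · exact hu1' x (fun h2 => hx (by simp [h1, h2]))
    · exact hu1 x h1
  | smul c a _ ha =>
    obtain ⟨u, hu, hu1, hu2⟩ := ha
    refine ⟨c • u, Submodule.smul_mem _ _ hu, fun x hx => hu1 x (fun h1 => hx (by simp [h1])),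
      by rw [map_smul, map_smul, hu2]⟩

/-- Induction on `P`, and for `insert p P` on a bound for the letter at `p`: the top component is
in `Spec P μ'` by induction; lift each polytabloid `ptab P T'` with `rowf T' p = r` to
`ptab (insert p P) (update T' p (r, μ'.rowLen r))` (and those with `rowf T' p ≠ r` to `0`), subtract. -/
theorem HW_le_Spec (P : Finset ι) (μ : YoungDiagram) : HW P μ ≤ Spec P μ := by
  induction P using Finset.induction_on generalizing μ with
  | empty => exact HWSpec_empty μ
  | insert p P hp ih =>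
    have main : ∀ n : ℕ, ∀ v ∈ HW (insert p P) μ, (∀ x, v x ≠ 0 → x p < n) →
        v ∈ Spec (insert p P) μ := by
      intro n
      induction n with
      | zero =>
        intro v _ h
        have : v = 0 := by
          ext x
          by_contra h'
          exact absurd (h x h') (Nat.not_lt_zero _)
        rw [this]; exact Submodule.zero_mem _
      | succ n ihn =>
        intro v hv h
        by_cases h0 : flt (fun x => x p = n) v = 0
        · refine ihn v hv fun x hx => ?_
          have h1 := h x hx
          have h2 : x p ≠ n := by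
            intro h2
            have := congrArg (fun w : WM ι => w x) h0
            simp only [flt_apply, if_pos h2, Finsupp.zero_apply] at this
            exact hx this
          omega
        · obtain ⟨μ', h1, h2⟩ := top_component hp hv n (fun x hx => Nat.lt_succ_iff.1 (h x hx)) h0
          obtain ⟨u, hu, hu1, hu2⟩ := HWSpec_lift hp h2 (ih μ' h1)
          have h3 : v - u ∈ Spec (insert p P) μ := by
            refine ihn _ (Submodule.sub_mem _ hv (HWSpec_Spec_le_HW _ _ hu)) fun x hx => ?_
            by_contra hlt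
            apply hx
            rw [Finsupp.sub_apply]
            rcases (not_lt.1 hlt).eq_or_lt with h4 | h4
            · have := congrArg (fun w : WM ι => w x) hu2
              simp only [flt_apply, if_pos h4.symm] at this
              rw [this, sub_self]
            · have e1 : v x = 0 := by
                by_contra h5
                have := h x h5
                omega
              have e2 : u x = 0 := by
                by_contra h5
                have := hu1 x h5
                omega
              rw [e1, e2, sub_self]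
          have := Submodule.add_mem _ h3 hu
          rwa [sub_add_cancel] at this
    intro v hv
    refine main (v.support.sup (fun x => x p) + 1) v hv fun x hx => Nat.lt_succ_of_le ?_
    exact Finset.le_sup (f := fun x : ι → ℕ => x p) (Finsupp.mem_support_iff.2 hx)

theorem Spec_le_HW (P : Finset ι) (μ : YoungDiagram) : Spec P μ ≤ HW P μ := by
  exact HWSpec_Spec_le_HW P μ

theorem Spec_act {P Q : Finset ι} (h : Q ⊆ P ∨ Disjoint Q P) {μ : YoungDiagram} {a : GA ι}
    (ha : a ∈ GP Q) {v : WM ι} (hv : v ∈ Spec P μ) : act a v ∈ Spec P μ :=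
  HW_le_Spec P μ (HW_act h ha (Spec_le_HW P μ hv))

/-- positivity: `ip v v ≠ 0`, so `ip (ptab P T) v ≠ 0` for some `T` -/
theorem exists_palt_apply_ne_zero {P : Finset ι} {μ : YoungDiagram} {v : WM ι}
    (hv : v ∈ Spec P μ) (h0 : v ≠ 0) :
    ∃ T, IsTab P T μ ∧ act (palt P (colf T)) v (rowf T) ≠ 0 := by
  by_contra hcon
  push Not at hcon
  have key : ∀ u ∈ Spec P μ, ip u v = 0 := by
    intro u hu
    induction hu using Submodule.span_induction with
    | mem w hw =>
      obtain ⟨T, hT, rfl⟩ := hw
      unfold ptab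
      rw [ip_act_palt, ip_single_left, hcon T hT, mul_zero]
    | zero => exact ip_zero_left v
    | add a b _ _ ha hb => rw [ip_add_left, ha, hb, add_zero]
    | smul c a _ ha => rw [ip_smul_left, ha, mul_zero]
  exact h0 (eq_zero_of_ip_self (key v hv))

theorem exists_yc_ne_zero {P : Finset ι} {μ : YoungDiagram} {v : WM ι}
    (hv : v ∈ Spec P μ) (h0 : v ≠ 0) : ∃ T, IsTab P T μ ∧ act (yc P T) v ≠ 0 := by
  obtain ⟨T, hT, h⟩ := exists_palt_apply_ne_zero hv h0
  refine ⟨T, hT, fun h' => h ?_⟩
  have e := congrArg (fun w : WM ι => w (rowf T)) h'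
  simp only [yc, act_mul_apply, act_psym_apply, Finsupp.zero_apply] at e
  have e2 : ∑ σ ∈ stab P (rowf T), act (palt P (colf T)) v (rowf T ∘ σ) =
      ∑ σ ∈ stab P (rowf T), act (palt P (colf T)) v (rowf T) := by
    refine Finset.sum_congr rfl fun σ hσ => ?_
    congr 1
    funext i
    exact (mem_stab.1 hσ).2 i
  rw [e2, Finset.sum_const, nsmul_eq_mul] at e
  exact (mul_eq_zero.1 e).resolve_left (card_stab_ne_zero _ _)

/-- `|R| • ptab P T = act (yc' P T) (single (rowf T) 1)` -/
theorem card_smul_ptab (P : Finset ι) (T : ι → ℕ × ℕ) :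
    ((stab P (rowf T)).card : ℂ) • ptab P T = act (yc' P T) (Finsupp.single (rowf T) 1) := by
  unfold ptab yc'
  rw [act_mul_apply, ← map_smul, act_psym_eq]
  congr 1
  have e2 : ∑ σ ∈ stab P (rowf T), wrep ι σ (Finsupp.single (rowf T) (1 : ℂ)) =
      ∑ σ ∈ stab P (rowf T), Finsupp.single (rowf T) (1 : ℂ) := by
    refine Finset.sum_congr rfl fun σ hσ => ?_
    rw [wrep_single]
    congr 1
    funext i
    exact (mem_stab.1 (inv_mem_stab hσ)).2 i
  rw [e2, Finset.sum_const, Nat.cast_smul_eq_nsmul]

theorem act_Idl_mem_Iso {P : Finset ι} {μ : YoungDiagram} {a : GA ι} (ha : a ∈ Idl P μ)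
    (v : WM ι) : act a v ∈ Iso P μ := by
  intro T ν hT hne
  rw [← act_mul_apply, yc_mul_Idl hT hne ha, map_zero]
  rfl

theorem Spec_le_Iso (P : Finset ι) (μ : YoungDiagram) : Spec P μ ≤ Iso P μ := by
  refine Submodule.span_le.2 ?_
  rintro v ⟨T, hT, rfl⟩
  have h1 : ptab P T = ((stab P (rowf T)).card : ℂ)⁻¹ •
      act (yc' P T) (Finsupp.single (rowf T) 1) := by
    rw [← card_smul_ptab, smul_smul, inv_mul_cancel₀ (card_stab_ne_zero _ _), one_smul]
  rw [SetLike.mem_coe, h1]
  exact Submodule.smul_mem _ _ (act_Idl_mem_Iso (yc'_mem_Idl hT) _)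

theorem Iso_act {P Q : Finset ι} (h : Q ⊆ P ∨ Disjoint Q P) {μ : YoungDiagram} {a : GA ι}
    (ha : a ∈ GP Q) {v : WM ι} (hv : v ∈ Iso P μ) : act a v ∈ Iso P μ := by
  rcases h with h | h
  · refine GP_induction (P := Q) (p := fun a => act a v ∈ Iso P μ) ?_ ?_ ?_ ?_ a ha
    · rw [map_zero]; exact Submodule.zero_mem _
    · intro g hg T ν hT hne
      have hg' : g ∈ SP P := SP_mono h hg
      have h1 := el_mul_yc hg' (T ∘ g)
      have h2 : (T ∘ g) ∘ g.symm = T := by
        funext i; simp
      rw [h2] at h1
      have h3 : IsTab P (T ∘ g) ν := hT.comp ((SP P).inv_mem hg')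
      rw [← act_mul_apply, ← h1, act_mul_apply, hv _ ν h3 hne, map_zero]
    · intro a b ha hb
      rw [map_add]; exact Submodule.add_mem _ ha hb
    · intro c a ha
      rw [map_smul]; exact Submodule.smul_mem _ _ ha
  · intro T ν hT hne
    rw [← act_mul_apply, ← GP_commute h ha (yc_mem_GP P T), act_mul_apply, hv T ν hT hne,
      map_zero]

/-- an operator commuting with `ℂ[S_P]` preserves `Iso P μ` -/
theorem Iso_map {P : Finset ι} {μ : YoungDiagram} (f : WM ι →ₗ[ℂ] WM ι)
    (hf : ∀ a ∈ GP P, ∀ v, f (act a v) = act a (f v)) {v : WM ι} (hv : v ∈ Iso P μ) :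
    f v ∈ Iso P μ := by
  intro T ν hT hne
  rw [← hf _ (yc_mem_GP P T), hv T ν hT hne, map_zero]

theorem act_Idl_eq_zero {P : Finset ι} {μ ν : YoungDiagram} (hne : ν ≠ μ) {a : GA ι}
    (ha : a ∈ Idl P ν) {v : WM ι} (hv : v ∈ Iso P μ) : act a v = 0 := by
  induction ha using Submodule.span_induction with
  | mem a ha =>
    obtain ⟨g, _, T, hT, rfl⟩ := ha
    rw [act_mul_apply, hv T ν hT hne, map_zero]
  | zero => rw [map_zero]; rfl
  | add a b _ _ ha hb => rw [map_add, LinearMap.add_apply, ha, hb, add_zero]
  | smul c a _ ha => rw [map_smul, LinearMap.smul_apply, ha, smul_zero]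

theorem eq_of_mem_Spec_of_mem_Iso {P : Finset ι} {μ ν : YoungDiagram} {v : WM ι}
    (hv : v ∈ Spec P μ) (hv' : v ∈ Iso P ν) (h0 : v ≠ 0) : μ = ν := by
  by_contra hne
  obtain ⟨T, hT, h⟩ := exists_yc_ne_zero hv h0
  exact h (hv' T μ hT hne)

/-- James' lemma (absolute version): the column antisymmetriser maps a vector of weight `μ` to a
multiple of the polytabloid (use `col_fill` on each basis word) -/
theorem act_palt_eq_smul_ptab {T : ι → ℕ × ℕ} {μ : YoungDiagram} (hT : IsTab univ T μ)
    {v : WM ι} (hv : ∀ x, v x ≠ 0 → ∀ r, wt univ x r = μ.rowLen r) :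
    act (palt univ (colf T)) v = (act (palt univ (colf T)) v (rowf T)) • ptab univ T := by
  have key : act (palt univ (colf T)) v ∈ Submodule.span ℂ {ptab univ T} := by
    rw [← Finsupp.sum_single v, Finsupp.sum, map_sum]
    refine Submodule.sum_mem _ fun x hx => ?_
    have hx' : v x ≠ 0 := Finsupp.mem_support_iff.1 hx
    by_cases hinj : ∀ i ∈ (univ : Finset ι), ∀ j ∈ (univ : Finset ι), x i = x j →
        colf T i = colf T j → i = j
    · obtain ⟨c, hc, hxc⟩ := col_fill hT x (hv x hx') hinj
      have e1 : Finsupp.single x (v x) =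
          v x • act (el c⁻¹) (Finsupp.single (rowf T) (1 : ℂ)) := by
        rw [act_el, wrep_single, Finsupp.smul_single, smul_eq_mul, mul_one]
        congr 1
        funext i
        exact hxc i (Finset.mem_univ i)
      rw [e1, map_smul, ← act_mul_apply, palt_mul_el (inv_mem_stab hc), map_smul,
        LinearMap.smul_apply]
      exact Submodule.smul_mem _ _ (Submodule.smul_mem _ _ (Submodule.subset_span rfl))
    · push Not at hinj
      obtain ⟨i, hi, j, hj, h1, h2, h3⟩ := hinj
      rw [act_palt_single_eq_zero h3 hi hj h2 h1]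
      exact Submodule.zero_mem _
  obtain ⟨β, hβ⟩ := Submodule.mem_span_singleton.1 key
  rw [← hβ, Finsupp.smul_apply, ptab_apply_row hT, smul_eq_mul, mul_one]

end Crest.Agent.R195
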