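/- Row 195, task Complete: completeness of the Young symmetrisers, central idempotents. -/
import Crest.Agent.R195.HWSpec

set_option autoImplicit false

namespace Crest.Agent.R195

open Equiv Finset

variable {ι : Type} [Fintype ι] [DecidableEq ι]

theorem HW_le_Low (P : Finset ι) (μ : YoungDiagram) : HW P μ ≤ Low P μ := by
  exact le_sInf fun _ hN => hN.1

theorem Eop_mem_Low {P : Finset ι} {μ : YoungDiagram} {i j : ℕ} (hij : i < j) {v : WM ι}
    (hv : v ∈ Low P μ) : Eop P j i v ∈ Low P μ := by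
  rw [Low, Submodule.mem_sInf] at hv ⊢
  intro N hN
  exact hN.2 i j hij v (hv N hN)

theorem Low_induction {P : Finset ι} {μ : YoungDiagram} {N : Submodule ℂ (WM ι)}
    (h1 : HW P μ ≤ N) (h2 : ∀ i j, i < j → ∀ v ∈ N, Eop P j i v ∈ N) : Low P μ ≤ N := by
  exact sInf_le ⟨h1, h2⟩

theorem Low_le_Iso (P : Finset ι) (μ : YoungDiagram) : Low P μ ≤ Iso P μ := by
  refine Low_induction ((HW_le_Spec P μ).trans (Spec_le_Iso P μ)) fun i j _ v hv => ?_
  exact Iso_map (Eop P j i) (fun a ha w => Eop_act (Or.inl subset_rfl) ha j i w) hv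

theorem complete_Eop_mem {P : Finset ι} {i j : ℕ} (hij : i < j) {v : WM ι}
    (hv : v ∈ ⨆ μ : YoungDiagram, Low P μ) : Eop P j i v ∈ ⨆ μ : YoungDiagram, Low P μ := by
  refine Submodule.iSup_induction (motive := fun w => Eop P j i w ∈
    ⨆ μ : YoungDiagram, Low P μ) _ hv (fun μ w hw => ?_) ?_ (fun v w hv hw => ?_)
  · exact Submodule.mem_iSup_of_mem μ (Eop_mem_Low hij hw)
  · rw [map_zero]; exact Submodule.zero_mem _
  · rw [map_add]; exact Submodule.add_mem _ hv hw

omit [Fintype ι] [DecidableEq ι] in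
theorem complete_sum_comp {P : Finset ι} {g : Perm ι} (hg : g ∈ SP P) (x : ι → ℕ) :
    ∑ p ∈ P, (x ∘ g) p = ∑ p ∈ P, x p :=
  Finset.sum_equiv g (fun i => (SP_apply_mem_iff hg i).symm) fun _ _ => rfl

omit [Fintype ι] in
theorem complete_update_swap {z : ι → ℕ} {p q : ι} (h : z p = z q) (j : ℕ) :
    Function.update z q j = Function.update z p j ∘ swap p q := by
  funext r
  simp only [Function.comp_apply]
  by_cases hq : r = q
  · subst hq
    rw [swap_apply_right, Function.update_self, Function.update_self]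
  · rw [Function.update_of_ne hq]
    by_cases hp : r = p
    · subst hp
      rw [swap_apply_left, Function.update_of_ne (Ne.symm hq), h]
    · rw [swap_apply_of_ne_of_ne hp hq, Function.update_of_ne hp]

theorem complete_single_mem (P : Finset ι) (n : ℕ) : ∀ x : ι → ℕ, ∑ p ∈ P, x p = n →
    Finsupp.single x (1 : ℂ) ∈ ⨆ μ : YoungDiagram, Low P μ := by
  classical
  induction n using Nat.strong_induction_on with
  | _ n ih =>
  intro x hx
  by_contra hnot
  obtain ⟨φ, hφx, hφ⟩ := Submodule.exists_dual_map_eq_bot_of_notMem hnot inferInstance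
  have hker : ∀ w ∈ ⨆ μ : YoungDiagram, Low P μ, φ w = 0 := by
    intro w hw
    have : φ w ∈ (⨆ μ : YoungDiagram, Low P μ).map φ := Submodule.mem_map_of_mem hw
    rwa [hφ, Submodule.mem_bot] at this
  set C : Finset (ι → ℕ) := (stab P fun _ => 0).image fun g : Perm ι => x ∘ g with hC
  have hmemC : ∀ y, y ∈ C ↔ ∃ g ∈ SP P, x ∘ g = y := by
    intro y
    simp only [hC, Finset.mem_image, mem_stab_zero]
  have hxC : x ∈ C := (hmemC x).2 ⟨1, one_mem _, rfl⟩
  set v : WM ι := ∑ y ∈ C, Finsupp.single y ((starRingEnd ℂ) (φ (Finsupp.single y 1))) with hv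
  have hvapp : ∀ z, v z = if z ∈ C then (starRingEnd ℂ) (φ (Finsupp.single z 1)) else 0 := by
    intro z
    rw [hv, Finsupp.finsetSum_apply]
    simp only [Finsupp.single_apply]
    rw [Finset.sum_ite_eq' C z]
  have hv0 : v ≠ 0 := by
    intro h0
    have := hvapp x
    rw [h0, if_pos hxC, Finsupp.zero_apply] at this
    exact hφx ((map_eq_zero _).1 this.symm)
  have hw : ∀ y, v y ≠ 0 → ∀ r, wt P y r = wt P x r := by
    intro y hy r
    rw [hvapp] at hy
    have hyC : y ∈ C := by
      by_contra h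
      exact hy (if_neg h)
    obtain ⟨g, hg, rfl⟩ := (hmemC y).1 hyC
    exact wt_comp (SP_apply_mem_iff hg) x r
  have hE : ∀ i j, i < j → Eop P i j v = 0 := by
    intro i j hij
    ext z
    rw [Eop_apply, Finsupp.zero_apply]
    by_cases hex : ∃ p ∈ P.filter (fun p => z p = i), Function.update z p j ∈ C
    · obtain ⟨p, hp, hpC⟩ := hex
      obtain ⟨hpP, hpi⟩ := Finset.mem_filter.1 hp
      obtain ⟨g, hg, hgz⟩ := (hmemC _).1 hpC
      have hall : ∀ q ∈ P.filter (fun p => z p = i), Function.update z q j ∈ C := by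
        intro q hq
        obtain ⟨hqP, hqi⟩ := Finset.mem_filter.1 hq
        refine (hmemC _).2 ⟨g * swap p q, mul_mem hg ?_, ?_⟩
        · exact mem_SP_of_mem_stab (swap_mem_stab (f := fun _ => 0) hpP hqP rfl)
        · rw [complete_update_swap (hpi.trans hqi.symm), ← hgz]
          rfl
      have hlt : ∑ q ∈ P, z q < n := by
        rw [← hx, ← complete_sum_comp hg x, hgz]
        refine Finset.sum_lt_sum (fun q _ => ?_) ⟨p, hpP, ?_⟩
        · by_cases hq : q = p
          · subst hq
            rw [Function.update_self, hpi]; exact hij.le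
          · rw [Function.update_of_ne hq]
        · rw [Function.update_self, hpi]; exact hij
      have h0 := hker _ (complete_Eop_mem hij (ih _ hlt z rfl))
      rw [Eop_single, map_sum] at h0
      rw [Finset.sum_congr rfl fun q hq => (hvapp _).trans (if_pos (hall q hq)), ← map_sum, h0,
        map_zero]
    · push Not at hex
      exact Finset.sum_eq_zero fun q hq => (hvapp _).trans (if_neg (hex q hq))
  obtain ⟨μ, -, hμ⟩ := exists_mem_HW hv0 _ hw hE
  have h0 := hker v (Submodule.mem_iSup_of_mem μ (HW_le_Low P μ hμ))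
  have h1 : φ v = ((∑ y ∈ C, Complex.normSq (φ (Finsupp.single y 1)) : ℝ) : ℂ) := by
    rw [hv, map_sum, Complex.ofReal_sum]
    refine Finset.sum_congr rfl fun y _ => ?_
    rw [← mul_one ((starRingEnd ℂ) _), ← smul_eq_mul, ← Finsupp.smul_single, map_smul,
      smul_eq_mul, Complex.normSq_eq_conj_mul_self]
  rw [h1, Complex.ofReal_eq_zero,
    Finset.sum_eq_zero_iff_of_nonneg fun y _ => Complex.normSq_nonneg _] at h0
  exact hφx (Complex.normSq_eq_zero.1 (h0 x hxC))

/-- Let `N = ⨆ μ, Low P μ`.  Show `single x 1 ∈ N` by strong induction on `∑ p ∈ P, x p`.  If not,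
take a functional `φ` killing `N` with `φ (single x 1) ≠ 0`, let `C` be the finite set of words that
agree with `x` off `P` and have the same `P`-weight, and `v = ∑ y ∈ C, conj (φ (single y 1)) • single y 1`.
By `Eop_apply` and the induction hypothesis (`Eop P j i (single z 1) ∈ N` for `z` of smaller sum)
`v` is killed by all raising operators, so `v ∈ N` by `exists_mem_HW`; but `φ v = ∑ |φ y|² ≠ 0`. -/
theorem iSup_Low (P : Finset ι) : (⨆ μ : YoungDiagram, Low P μ) = ⊤ := by
  rw [eq_top_iff]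
  intro v _
  induction v using Finsupp.induction_linear with
  | zero => exact Submodule.zero_mem _
  | add f g hf hg => exact Submodule.add_mem _ (hf trivial) (hg trivial)
  | single x c =>
    have h := Submodule.smul_mem _ c (complete_single_mem P _ x rfl)
    rwa [Finsupp.smul_single, smul_eq_mul, mul_one] at h

/-- the map `v ↦ ∑ g ∈ S_P, v (x₀ ∘ g⁻¹) • g` -/
noncomputable def complete_Lam (P : Finset ι) (x₀ : ι → ℕ) : WM ι →ₗ[ℂ] GA ι where
  toFun v := ∑ g ∈ stab P (fun _ => 0), v (x₀ ∘ g.symm) • el g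
  map_add' v w := by
    simp only [Finsupp.add_apply, add_smul, Finset.sum_add_distrib]
  map_smul' c v := by
    simp only [Finsupp.smul_apply, smul_eq_mul, RingHom.id_apply, Finset.smul_sum, smul_smul]

theorem complete_Lam_apply (P : Finset ι) (x₀ : ι → ℕ) (v : WM ι) :
    complete_Lam P x₀ v = ∑ g ∈ stab P (fun _ => 0), v (x₀ ∘ g.symm) • el g := rfl

theorem complete_Lam_mem_GP (P : Finset ι) (x₀ : ι → ℕ) (v : WM ι) :
    complete_Lam P x₀ v ∈ GP P := by
  rw [complete_Lam_apply]
  exact Subalgebra.sum_mem _ fun g hg =>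
    Subalgebra.smul_mem _ (el_mem_GP (mem_SP_of_mem_stab hg)) _

theorem complete_Lam_single (P : Finset ι) {x₀ : ι → ℕ} (hx₀ : Function.Injective x₀) :
    complete_Lam P x₀ (Finsupp.single x₀ 1) = 1 := by
  rw [complete_Lam_apply, Finset.sum_eq_single (1 : Perm ι)]
  · have : x₀ ∘ (1 : Perm ι).symm = x₀ := rfl
    rw [this, Finsupp.single_eq_same, one_smul, el_one]
  · intro g _ hg
    have : x₀ ∘ g.symm ≠ x₀ := by
      intro h
      apply hg
      ext i
      have := hx₀ (congrFun h (g i))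
      simpa using this.symm
    rw [Finsupp.single_eq_of_ne this, zero_smul]
  · intro h
    exact absurd (one_mem_stab P _) h

theorem complete_Lam_act {P : Finset ι} (x₀ : ι → ℕ) (v : WM ι) :
    ∀ a ∈ GP P, complete_Lam P x₀ (act a v) = a * complete_Lam P x₀ v := by
  refine GP_induction ?_ ?_ ?_ ?_
  · rw [map_zero, LinearMap.zero_apply, map_zero, zero_mul]
  · intro h hh
    have hh' : h ∈ stab P (fun _ => 0) := mem_stab_zero.2 hh
    rw [act_el, complete_Lam_apply, complete_Lam_apply, Finset.mul_sum]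
    symm
    refine Finset.sum_equiv (Equiv.mulLeft h) (fun g => ⟨fun hg => mul_mem_stab hh' hg,
      fun hg => ?_⟩) fun g _ => ?_
    · have := mul_mem_stab (inv_mem_stab hh') hg
      simpa using this
    · rw [Equiv.coe_mulLeft, wrep_apply, mul_smul_comm, ← el_mul]
      congr 2
      funext i
      simp [Perm.mul_def]
  · intro a b ha hb
    rw [map_add, LinearMap.add_apply, map_add, ha, hb, add_mul]
  · intro c a ha
    rw [map_smul, LinearMap.smul_apply, map_smul, ha, smul_mul_assoc]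

theorem complete_Low_le_span (P : Finset ι) (μ : YoungDiagram) :
    Low P μ ≤ Submodule.span ℂ {w | ∃ a ∈ Idl P μ, ∃ v, w = act a v} := by
  refine Low_induction ((HW_le_Spec P μ).trans (Submodule.span_le.2 ?_)) fun i j _ w hw => ?_
  · rintro w ⟨T, hT, rfl⟩
    have h : ptab P T = ((stab P (rowf T)).card : ℂ)⁻¹ •
        act (yc' P T) (Finsupp.single (rowf T) 1) := by
      rw [← card_smul_ptab, smul_smul, inv_mul_cancel₀ (card_stab_ne_zero P _), one_smul]
    rw [h]
    exact Submodule.smul_mem _ _ (Submodule.subset_span ⟨_, yc'_mem_Idl hT, _, rfl⟩)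
  · refine Submodule.span_induction (p := fun w _ => Eop P j i w ∈
      Submodule.span ℂ {w | ∃ a ∈ Idl P μ, ∃ v, w = act a v}) ?_ ?_ ?_ ?_ hw
    · rintro w ⟨a, ha, v, rfl⟩
      exact Submodule.subset_span ⟨a, ha, _, Eop_act (Or.inl subset_rfl) (Idl_le_GP ha) j i v⟩
    · rw [map_zero]; exact Submodule.zero_mem _
    · intro a b _ _ ha hb
      rw [map_add]; exact Submodule.add_mem _ ha hb
    · intro c a _ ha
      rw [map_smul]; exact Submodule.smul_mem _ _ ha

theorem complete_Lam_mem_Idl {P : Finset ι} {μ : YoungDiagram} (x₀ : ι → ℕ) {w : WM ι}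
    (hw : w ∈ Low P μ) : complete_Lam P x₀ w ∈ Idl P μ := by
  refine Submodule.span_induction (p := fun w _ => complete_Lam P x₀ w ∈ Idl P μ) ?_ ?_ ?_ ?_
    (complete_Low_le_span P μ hw)
  · rintro w ⟨a, ha, v, rfl⟩
    rw [complete_Lam_act x₀ v a (Idl_le_GP ha)]
    exact Idl_mul_right (complete_Lam_mem_GP P x₀ v) ha
  · rw [map_zero]; exact Submodule.zero_mem _
  · intro a b _ _ ha hb
    rw [map_add]; exact Submodule.add_mem _ ha hb
  · intro c a _ ha
    rw [map_smul]; exact Submodule.smul_mem _ _ ha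

/-- `Low P μ ≤ span {act a v | a ∈ Idl P μ}` (`card_smul_ptab`, `yc'_mem_Idl`, `Eop_act`).  Take an
injective word `x₀` and the linear map `Λ v = ∑ g ∈ stab P 0, v (x₀ ∘ g⁻¹) • el g`, which satisfies
`Λ (act a v) = a * Λ v` for `a ∈ GP P`, `Λ v ∈ GP P` and `Λ (single x₀ 1) = 1`. -/
theorem exists_idem (P : Finset ι) : ∃ (s : Finset YoungDiagram) (e : YoungDiagram → GA ι),
    (∀ μ, e μ ∈ Idl P μ) ∧ (∀ μ, μ ∉ s → e μ = 0) ∧ ∑ μ ∈ s, e μ = 1 := by
  classical
  obtain ⟨x₀, hx₀⟩ : ∃ x₀ : ι → ℕ, Function.Injective x₀ :=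
    ⟨fun i => (Fintype.equivFin ι i : ℕ), fun i j h =>
      (Fintype.equivFin ι).injective (Fin.ext h)⟩
  have h1 : (1 : GA ι) ∈ ⨆ μ : YoungDiagram, Idl P μ := by
    rw [← complete_Lam_single P hx₀]
    have hmem : Finsupp.single x₀ (1 : ℂ) ∈ ⨆ μ : YoungDiagram, Low P μ := by
      rw [iSup_Low]; trivial
    refine Submodule.iSup_induction (motive := fun v => complete_Lam P x₀ v ∈
      ⨆ μ : YoungDiagram, Idl P μ) _ hmem (fun μ v hv => ?_) ?_ (fun v w hv hw => ?_)
    · exact Submodule.mem_iSup_of_mem μ (complete_Lam_mem_Idl x₀ hv)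
    · rw [map_zero]; exact Submodule.zero_mem _
    · rw [map_add]; exact Submodule.add_mem _ hv hw
  obtain ⟨f, hf, hs⟩ := (Submodule.mem_iSup_iff_exists_finsupp _ _).1 h1
  exact ⟨f.support, f, hf, fun μ hμ => Finsupp.notMem_support_iff.1 hμ, hs⟩

/-- the shapes that occur in the decomposition of `1` -/
noncomputable def idemS (P : Finset ι) : Finset YoungDiagram := (exists_idem P).choose
/-- the central idempotent of `ℂ[S_P]` of shape `μ` -/
noncomputable def idem (P : Finset ι) : YoungDiagram → GA ι := (exists_idem P).choose_spec.choose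

theorem idem_mem_Idl (P : Finset ι) (μ : YoungDiagram) : idem P μ ∈ Idl P μ :=
  (exists_idem P).choose_spec.choose_spec.1 μ
theorem idem_eq_zero {P : Finset ι} {μ : YoungDiagram} (h : μ ∉ idemS P) : idem P μ = 0 :=
  (exists_idem P).choose_spec.choose_spec.2.1 μ h
theorem sum_idem (P : Finset ι) : ∑ μ ∈ idemS P, idem P μ = 1 :=
  (exists_idem P).choose_spec.choose_spec.2.2
theorem idem_mem_GP (P : Finset ι) (μ : YoungDiagram) : idem P μ ∈ GP P :=
  Idl_le_GP (idem_mem_Idl P μ)

theorem idem_mul_of_mem_Idl {P : Finset ι} {μ : YoungDiagram} {a : GA ι} (ha : a ∈ Idl P μ) :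
    idem P μ * a = a := by
  classical
  have h : (∑ ν ∈ idemS P, idem P ν) * a = idem P μ * a := by
    rw [Finset.sum_mul]
    refine Finset.sum_eq_single μ (fun ν _ hν => Idl_mul_Idl hν (idem_mem_Idl P ν) ha) fun h => ?_
    rw [idem_eq_zero h, zero_mul]
  rw [← h, sum_idem, one_mul]
theorem mul_idem_of_mem_Idl {P : Finset ι} {μ : YoungDiagram} {a : GA ι} (ha : a ∈ Idl P μ) :
    a * idem P μ = a := by
  classical
  have h : a * (∑ ν ∈ idemS P, idem P ν) = a * idem P μ := by
    rw [Finset.mul_sum]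
    refine Finset.sum_eq_single μ (fun ν _ hν => Idl_mul_Idl hν.symm ha (idem_mem_Idl P ν))
      fun h => ?_
    rw [idem_eq_zero h, mul_zero]
  rw [← h, sum_idem, mul_one]
/-- `idem P μ` is central in `ℂ[S_P]`: both sides equal `idem * a * idem` -/
theorem idem_comm {P : Finset ι} (μ : YoungDiagram) {a : GA ι} (ha : a ∈ GP P) :
    a * idem P μ = idem P μ * a := by
  have h1 := idem_mul_of_mem_Idl (Idl_mul_left ha (idem_mem_Idl P μ))
  have h2 := mul_idem_of_mem_Idl (Idl_mul_right ha (idem_mem_Idl P μ))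
  rw [← h1, ← mul_assoc, h2]
theorem sum_act_idem (P : Finset ι) (v : WM ι) : ∑ μ ∈ idemS P, act (idem P μ) v = v := by
  rw [← LinearMap.sum_apply, ← map_sum, sum_idem, map_one, Module.End.one_apply]
theorem act_idem_mem_Iso (P : Finset ι) (μ : YoungDiagram) (v : WM ι) :
    act (idem P μ) v ∈ Iso P μ := act_Idl_mem_Iso (idem_mem_Idl P μ) v
theorem act_idem_of_mem_Iso {P : Finset ι} {μ : YoungDiagram} {v : WM ι} (hv : v ∈ Iso P μ) :
    act (idem P μ) v = v := by
  classical
  have h : ∑ ν ∈ idemS P, act (idem P ν) v = act (idem P μ) v := by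
    refine Finset.sum_eq_single μ (fun ν _ hν => act_Idl_eq_zero hν (idem_mem_Idl P ν) hv)
      fun h => ?_
    rw [idem_eq_zero h, map_zero, LinearMap.zero_apply]
  rw [← h, sum_act_idem]
theorem Iso_le_Low (P : Finset ι) (μ : YoungDiagram) : Iso P μ ≤ Low P μ := by
  intro v hv
  rw [← act_idem_of_mem_Iso hv]
  have hmem : v ∈ ⨆ ν : YoungDiagram, Low P ν := by rw [iSup_Low]; trivial
  refine Submodule.iSup_induction (motive := fun w => act (idem P μ) w ∈ Low P μ) _ hmem
    (fun ν w hw => ?_) ?_ (fun v w hv hw => ?_)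
  · by_cases h : μ = ν
    · subst h
      rw [act_idem_of_mem_Iso (Low_le_Iso P μ hw)]
      exact hw
    · rw [act_Idl_eq_zero h (idem_mem_Idl P μ) (Low_le_Iso P ν hw)]
      exact Submodule.zero_mem _
  · rw [map_zero]; exact Submodule.zero_mem _
  · rw [map_add]; exact Submodule.add_mem _ hv hw
theorem eq_zero_of_forall_yc {P : Finset ι} {v : WM ι}
    (h : ∀ T ν, IsTab P T ν → act (yc P T) v = 0) : v = 0 := by
  rw [← sum_act_idem P v]
  refine Finset.sum_eq_zero fun μ _ => ?_
  refine Submodule.span_induction (p := fun a _ => act a v = 0) ?_ ?_ ?_ ?_ (idem_mem_Idl P μ)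
  · rintro a ⟨g, _, T, hT, rfl⟩
    rw [act_mul_apply, h T μ hT, map_zero]
  · rw [map_zero, LinearMap.zero_apply]
  · intro a b _ _ ha hb
    rw [map_add, LinearMap.add_apply, ha, hb, add_zero]
  · intro c a _ ha
    rw [map_smul, LinearMap.smul_apply, ha, smul_zero]
theorem card_eq_of_mem_Iso {P : Finset ι} {μ : YoungDiagram} {v : WM ι} (hv : v ∈ Iso P μ)
    (h0 : v ≠ 0) : P.card = μ.card := by
  by_contra hne
  refine h0 (eq_zero_of_forall_yc (P := P) fun T ν hT => hv T ν hT fun h => hne ?_)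
  rw [← h]
  exact hT.card_eq
/-- if `x v ≠ 0` for `v ∈ Iso P μ` then `x` does not kill the Young symmetrisers of shape `μ` -/
theorem exists_mul_yc_ne_zero {P : Finset ι} {μ : YoungDiagram} {v : WM ι} (hv : v ∈ Iso P μ)
    {x : GA ι} (h : act x v ≠ 0) : ∃ T, IsTab P T μ ∧ x * yc P T ≠ 0 := by
  by_contra hne
  push Not at hne
  apply h
  rw [← act_idem_of_mem_Iso hv, ← act_mul_apply]
  have h0 : x * idem P μ = 0 := by
    refine Submodule.span_induction (p := fun a _ => x * a = 0) ?_ ?_ ?_ ?_ (idem_mem_Idl P μ)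
    · rintro a ⟨g, hg, T, hT, rfl⟩
      rw [el_mul_yc hg, ← mul_assoc, hne _ (hT.comp hg), zero_mul]
    · rw [mul_zero]
    · intro a b _ _ ha hb
      rw [mul_add, ha, hb, add_zero]
    · intro c a _ ha
      rw [mul_smul_comm, ha, smul_zero]
  rw [h0, map_zero, LinearMap.zero_apply]
theorem exists_mul_yc'_ne_zero {P : Finset ι} {μ : YoungDiagram} {v : WM ι} (hv : v ∈ Iso P μ)
    {x : GA ι} (h : act x v ≠ 0) : ∃ T, IsTab P T μ ∧ x * yc' P T ≠ 0 := by
  obtain ⟨T, hT, hx⟩ := exists_mul_yc_ne_zero hv h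
  by_contra hne
  push Not at hne
  apply hx
  obtain ⟨β, hβ⟩ := yc_eq_smul_yc' hT
  have h0 : ∀ a ∈ GP P, x * (a * yc' P T) = 0 := by
    refine GP_induction ?_ ?_ ?_ ?_
    · rw [zero_mul, mul_zero]
    · intro g hg
      rw [el_mul_yc' hg, ← mul_assoc, hne _ (hT.comp hg), zero_mul]
    · intro a b ha hb
      rw [add_mul, mul_add, ha, hb, add_zero]
    · intro c a ha
      rw [smul_mul_assoc, mul_smul_comm, ha, smul_zero]
  rw [hβ, mul_smul_comm, ← mul_assoc, h0 _ (psym_mem_GP P _), zero_mul, smul_zero]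
/-- every nonzero representation is not killed by some Young symmetriser -/
theorem exists_yc_rep {W : Type} [AddCommGroup W] [Module ℂ W] [Nontrivial W]
    (σ : Representation ℂ (Perm ι) W) :
    ∃ T l, IsTab univ T l ∧ σ.asAlgebraHom (yc univ T) ≠ 0 := by
  by_contra hne
  push Not at hne
  have h0 : ∀ μ, σ.asAlgebraHom (idem univ μ) = 0 := by
    intro μ
    refine Submodule.span_induction (p := fun a _ => σ.asAlgebraHom a = 0) ?_ ?_ ?_ ?_
      (idem_mem_Idl univ μ)
    · rintro a ⟨g, _, T, hT, rfl⟩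
      rw [map_mul, hne T μ hT, mul_zero]
    · rw [map_zero]
    · intro a b _ _ ha hb
      rw [map_add, ha, hb, add_zero]
    · intro c a _ ha
      rw [map_smul, ha, smul_zero]
  have h1 : σ.asAlgebraHom 1 = 0 := by
    rw [← sum_idem univ, map_sum]
    exact Finset.sum_eq_zero fun μ _ => h0 μ
  rw [map_one] at h1
  exact one_ne_zero h1

end Crest.Agent.R195
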