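/- Row 195, task GT0: Gelfand-Tsetlin vectors: existence and uniqueness. -/
import Crest.Agent.R195.Complete

set_option autoImplicit false

namespace Crest.Agent.R195

open Equiv Finset

variable {ι : Type} [Fintype ι] [DecidableEq ι]

omit [DecidableEq ι] in
theorem Std.exists_tab {τ : ι → ℤ} {T : ι → ℕ × ℕ} {κ : YoungDiagram} (h : Std τ T κ)
    {P : Finset ι} (hP : IsPre τ P) : ∃ μ, IsTab P T μ ∧ μ ≤ κ := by
  classical
  obtain ⟨_, hT, hmono⟩ := h
  refine ⟨⟨P.image T, ?_⟩, ?_, ?_⟩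
  · rintro c d hdc hc
    simp only [coe_image, Set.mem_image, mem_coe] at hc ⊢
    obtain ⟨i, hi, rfl⟩ := hc
    have hd : d ∈ κ := κ.isLowerSet hdc (hT.mem (mem_univ i))
    obtain ⟨j, -, rfl⟩ := hT.surj hd
    exact ⟨j, hP i hi j (hmono j i hdc), rfl⟩
  · refine isTab_of (fun i hi => ?_) (fun i _ j _ hij => hT.inj (mem_univ i) (mem_univ j) hij)
      (fun c hc => ?_)
    · exact mem_image_of_mem T hi
    · obtain ⟨i, hi, hc⟩ := mem_image.1 hc
      exact ⟨i, hi, hc⟩
  · intro c hc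
    obtain ⟨i, -, rfl⟩ := mem_image.1 hc
    exact hT.mem (mem_univ i)

theorem IsGT.zero (τ : ι → ℤ) (T : ι → ℕ × ℕ) (κ : YoungDiagram) : IsGT τ T κ 0 := by
  exact ⟨Submodule.zero_mem _, fun _ _ _ _ => Submodule.zero_mem _⟩
theorem IsGT.add {τ : ι → ℤ} {T : ι → ℕ × ℕ} {κ : YoungDiagram} {v w : WM ι} (hv : IsGT τ T κ v)
    (hw : IsGT τ T κ w) : IsGT τ T κ (v + w) := by
  exact ⟨Submodule.add_mem _ hv.1 hw.1, fun P μ hP hT =>
    Submodule.add_mem _ (hv.2 P μ hP hT) (hw.2 P μ hP hT)⟩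
theorem IsGT.smul {τ : ι → ℤ} {T : ι → ℕ × ℕ} {κ : YoungDiagram} {v : WM ι} (c : ℂ)
    (hv : IsGT τ T κ v) : IsGT τ T κ (c • v) := by
  exact ⟨Submodule.smul_mem _ c hv.1, fun P μ hP hT => Submodule.smul_mem _ c (hv.2 P μ hP hT)⟩

omit [Fintype ι] in
/-- induction over prefixes, adding the latest element -/
theorem GT0_pre_induction {τ : ι → ℤ} (hτ : Function.Injective τ) {M : Finset ι → Prop}
    (h0 : M ∅)
    (hs : ∀ (A : Finset ι) (p : ι), p ∉ A → IsPre τ A → IsPre τ (insert p A) →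
      (∀ i ∈ A, τ i < τ p) → M A → M (insert p A)) :
    ∀ A, IsPre τ A → M A := by
  intro A
  induction hn : A.card generalizing A with
  | zero => intro _; rw [card_eq_zero.1 hn]; exact h0
  | succ n ih =>
    intro hA
    have hne : A.Nonempty := card_pos.1 (by omega)
    obtain ⟨p, hp, hmax⟩ := exists_max_image A τ hne
    have hlt : ∀ i ∈ A.erase p, τ i < τ p := fun i hi =>
      lt_of_le_of_ne (hmax i (mem_of_mem_erase hi)) (fun h => ne_of_mem_erase hi (hτ h))
    have hA' : IsPre τ (A.erase p) := fun i hi j hj => by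
      refine mem_erase.2 ⟨?_, hA i (mem_of_mem_erase hi) j hj⟩
      rintro rfl
      exact absurd (hlt i hi) (not_lt.2 hj)
    have := hs (A.erase p) p (notMem_erase p A) hA' (by rw [insert_erase hp]; exact hA) hlt
      (ih _ (by rw [card_erase_of_mem hp]; omega) hA')
    rwa [insert_erase hp] at this

omit [Fintype ι] in
theorem GT0_pre_cases {τ : ι → ℤ} {A P : Finset ι} {p : ι} (hlt : ∀ i ∈ A, τ i < τ p)
    (hP : IsPre τ P) (hPA : P ⊆ insert p A) : P ⊆ A ∨ P = insert p A := by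
  by_cases hp : p ∈ P
  · right
    refine Subset.antisymm hPA (fun i hi => ?_)
    rcases mem_insert.1 hi with rfl | hi
    · exact hp
    · exact hP p hp i (hlt i hi).le
  · left
    intro i hi
    rcases mem_insert.1 (hPA hi) with rfl | h
    · exact absurd hi hp
    · exact h

omit [Fintype ι] [DecidableEq ι] in
theorem GT0_flt_act {A P : Finset ι} {p : ι} (hp : p ∉ A) (hP : P ⊆ A) (r : ℕ) {a : GA ι}
    (ha : a ∈ GP P) (v : WM ι) :
    flt (fun x => x p = r) (act a v) = act a (flt (fun x => x p = r) v) :=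
  flt_act (P := P) (fun g hg x => by
    simp only [Function.comp_apply]
    rw [mem_SP.1 hg p (fun h => hp (hP h))]) ha v

omit [DecidableEq ι] in
theorem GT0_bot {τ : ι → ℤ} {T : ι → ℕ × ℕ} {κ : YoungDiagram} (h : Std τ T κ) {A : Finset ι}
    {p : ι} (hlt : ∀ i ∈ A, τ i < τ p) :
    ∀ i ∈ A, colf T i = colf T p → rowf T i < rowf T p := by
  intro i hi hc
  by_contra hr
  have : T p ≤ T i := ⟨not_lt.1 hr, le_of_eq hc.symm⟩
  exact absurd (hlt i hi) (not_lt.2 (h.2.2 p i this))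

theorem GT0_exists {τ : ι → ℤ} {T : ι → ℕ × ℕ} {κ : YoungDiagram} (h : Std τ T κ) :
    ∀ A, IsPre τ A → ∃ x ∈ GP A, (∀ v P μ, IsPre τ P → P ⊆ A → IsTab P T μ → act x v ∈ Iso P μ) ∧
      act x (ptab A T) (rowf T) = 1 := by
  refine GT0_pre_induction h.1 ?_ ?_
  · refine ⟨1, one_mem _, fun v P μ _ hP hT => ?_, ?_⟩
    · rw [subset_empty.1 hP] at hT ⊢
      intro T' ν hT' hne
      exact absurd ((hT'.congr (fun i hi => absurd hi (notMem_empty i))).unique hT) hne
    · obtain ⟨μ, hμ, -⟩ := h.exists_tab (P := ∅) (fun i hi => absurd hi (notMem_empty i))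
      rw [map_one, Module.End.one_apply]
      exact ptab_apply_row hμ
  · rintro A p hp hA hA' hlt ⟨x, hx, hx1, hx2⟩
    obtain ⟨μ, hμ, -⟩ := h.exists_tab hA'
    have hx' : x ∈ GP (insert p A) := GP_mono (subset_insert p A) hx
    refine ⟨x * idem (insert p A) μ, mul_mem hx' (idem_mem_GP _ _), fun v P ν hP hPA hT => ?_, ?_⟩
    · rcases GT0_pre_cases hlt hP hPA with h1 | rfl
      · rw [act_mul_apply]
        exact hx1 _ P ν hP h1 hT
      · rw [idem_comm μ hx', act_mul_apply, hT.unique hμ]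
        exact act_idem_mem_Iso _ _ _
    · rw [act_mul_apply, act_idem_of_mem_Iso (Spec_le_Iso _ _ (ptab_mem_Spec hμ))]
      have h1 := (flt_ptab hp hμ (GT0_bot h hlt)).1
      have h2 := GT0_flt_act hp (Subset.refl A) (rowf T p) hx (ptab (insert p A) T)
      rw [h1] at h2
      have h3 := flt_apply (fun x => x p = rowf T p) (act x (ptab (insert p A) T)) (rowf T)
      rw [h2, hx2, if_pos rfl] at h3
      exact h3.symm

theorem GT0_unique {τ : ι → ℤ} {T : ι → ℕ × ℕ} {κ : YoungDiagram} (h : Std τ T κ) :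
    ∀ A, IsPre τ A → ∀ (v : WM ι) (μ : YoungDiagram), IsTab A T μ → v ∈ HW A μ →
      (∀ P ν, IsPre τ P → P ⊆ A → IsTab P T ν → v ∈ Iso P ν) →
      (∀ x, v x ≠ 0 → ∀ i, i ∉ A → x i = rowf T i) → v (rowf T) = 0 → v = 0 := by
  refine GT0_pre_induction h.1 ?_ ?_
  · intro v μ _ _ _ hs h0
    ext x
    by_contra hx
    have : x = rowf T := funext fun i => hs x hx i (notMem_empty i)
    exact hx (this ▸ h0)
  · intro A p hp hA hA' hlt ih v μ hμ hv hiso hs h0
    by_contra hne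
    obtain ⟨x₀, hx₀, hmax⟩ := exists_max_image v.support (fun x => x p)
      (Finsupp.support_nonempty_iff.2 hne)
    have hx₀' : v x₀ ≠ 0 := Finsupp.mem_support_iff.1 hx₀
    have hw0 : flt (fun x => x p = x₀ p) v ≠ 0 := by
      intro h'
      have := flt_apply (fun x => x p = x₀ p) v x₀
      rw [h', if_pos rfl] at this
      exact hx₀' this.symm
    obtain ⟨μ', hμ', hrow⟩ := top_component hp hv (x₀ p)
      (fun x hx => hmax x (Finsupp.mem_support_iff.2 hx)) hw0
    obtain ⟨ν, hν, -⟩ := h.exists_tab hA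
    have hiso' : ∀ P ν, IsPre τ P → P ⊆ A → IsTab P T ν →
        flt (fun x => x p = x₀ p) v ∈ Iso P ν := fun P ν hP hPA hT =>
      Iso_map _ (fun a ha w => GT0_flt_act hp hPA _ ha w)
        (hiso P ν hP (hPA.trans (subset_insert p A)) hT)
    have he : μ' = ν := eq_of_mem_Spec_of_mem_Iso (HW_le_Spec _ _ hμ')
      (hiso' A ν hA (Subset.refl A) hν) hw0
    subst he
    have hr : x₀ p = rowf T p := by
      have h1 := hrow (x₀ p)
      rw [if_pos rfl, ← hμ.wt_rowf, ← hν.wt_rowf] at h1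
      by_contra hr
      unfold wt at h1
      rw [filter_insert, if_neg (Ne.symm hr)] at h1
      omega
    refine hw0 (ih _ μ' hν hμ' hiso' (fun x hx i hi => ?_) ?_)
    · rw [flt_apply] at hx
      split_ifs at hx with hxp
      · by_cases hip : i = p
        · rw [hip, hxp, hr]
        · exact hs x hx i (fun h' => (mem_insert.1 h').elim hip hi)
      · exact absurd rfl hx
    · rw [flt_apply, h0, ite_self]

/-- Induction over prefixes `A`: there is `x ∈ GP A` (a product of `idem P (shape of T on P)` over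
the prefixes `P ⊆ A`) with `act x v ∈ Iso P μ` for all `v` and all prefixes `P ⊆ A`, and
`act x (ptab A T) (rowf T) = 1`.  Step `A = insert p A'` (`p` the latest element): `x = x' * idem A _`,
use `idem_comm`, `Spec_le_Iso`, `flt_act`, `flt_ptab`. -/
theorem exists_GT {τ : ι → ℤ} {T : ι → ℕ × ℕ} {κ : YoungDiagram} (h : Std τ T κ) :
    ∃ v, IsGT τ T κ v ∧ v (rowf T) = 1 := by
  obtain ⟨x, hx, hx1, hx2⟩ := GT0_exists h univ (fun _ _ j _ => mem_univ j)
  exact ⟨act x (ptab univ T), ⟨Spec_act (Or.inl (Subset.refl _)) hx (ptab_mem_Spec h.2.1),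
    fun P μ hP hT => hx1 _ P μ hP (subset_univ P) hT⟩, hx2⟩

/-- Induction over prefixes `A` of: `v ∈ HW A μ_A`, `v ∈ Iso P μ_P` for all prefixes `P ⊆ A`, all
words in the support of `v` agree with `rowf T` off `A`, `v (rowf T) = 0` imply `v = 0`.
Use `top_component`, `eq_of_mem_Spec_of_mem_Iso`. -/
theorem GT_unique {τ : ι → ℤ} {T : ι → ℕ × ℕ} {κ : YoungDiagram} (h : Std τ T κ) {v : WM ι}
    (hv : IsGT τ T κ v) (h0 : v (rowf T) = 0) : v = 0 := by
  exact GT0_unique h univ (fun _ _ j _ => mem_univ j) v κ h.2.1 (Spec_le_HW _ _ hv.1)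
    (fun P ν hP _ hT => hv.2 P ν hP hT) (fun _ _ i hi => absurd (mem_univ i) hi) h0

theorem GT_eq_smul {τ : ι → ℤ} {T : ι → ℕ × ℕ} {κ : YoungDiagram} (h : Std τ T κ) {v w : WM ι}
    (hv : IsGT τ T κ v) (hw : IsGT τ T κ w) (h1 : w (rowf T) = 1) : v = v (rowf T) • w := by
  have := GT_unique h (hv.add (hw.smul (-(v (rowf T))))) (by simp [h1])
  rw [neg_smul, ← sub_eq_add_neg, sub_eq_zero] at this
  exact this

end Crest.Agent.R195
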