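/- Row 195, task GT: Gelfand-Tsetlin vectors span; killing criteria. -/
import Crest.Agent.R195.GT0

set_option autoImplicit false

namespace Crest.Agent.R195

open Equiv Finset

variable {ι : Type} [Fintype ι] [DecidableEq ι]

omit [Fintype ι] in
theorem GT_erase_pre {τ : ι → ℤ} (hτ : Function.Injective τ) {A : Finset ι} (hA : IsPre τ A)
    {p : ι} (hp : ∀ i ∈ A, τ i ≤ τ p) : IsPre τ (A.erase p) := by
  intro i hi j hj
  rw [mem_erase] at hi ⊢
  refine ⟨?_, hA i hi.2 j hj⟩
  rintro rfl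
  exact hi.1 (hτ (le_antisymm (hp i hi.2) hj))

theorem GT_chain_aux {τ : ι → ℤ} (hτ : Function.Injective τ) (ρ : Finset ι → YoungDiagram)
    (n : ℕ) : ∀ (A : Finset ι), A.card = n → IsPre τ A → ∀ (μ : YoungDiagram) (y : WM ι),
      y ∈ HW A μ → y ≠ 0 → (∀ P, IsPre τ P → P ⊆ A → y ∈ Iso P (ρ P)) →
      ∃ T : ι → ℕ × ℕ, (∀ i ∈ A, ∀ j ∈ A, T i ≤ T j → τ i ≤ τ j) ∧
        ∀ P, IsPre τ P → P ⊆ A → IsTab P T (ρ P) := by
  induction n with
  | zero =>
    intro A hA _ μ y _ h0 hρ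
    have hA0 : A = ∅ := card_eq_zero.mp hA
    subst hA0
    refine ⟨fun _ => (0, 0), by simp, fun P hP hPA => ?_⟩
    have hP0 : P = ∅ := subset_empty.mp hPA
    subst hP0
    have hc := card_eq_of_mem_Iso (hρ ∅ hP hPA) h0
    exact isTab_of_card (by simp) (by simp) hc.ge
  | succ n ih =>
    intro A hA hpre μ y hy h0 hρ
    have hne : A.Nonempty := card_pos.mp (by omega)
    obtain ⟨p, hpA, hp⟩ := exists_max_image A τ hne
    have hsupp : y.support.Nonempty := Finsupp.support_nonempty_iff.mpr h0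
    obtain ⟨x0, hx0, hx0max⟩ := exists_max_image y.support (fun x => x p) hsupp
    have hins : insert p (A.erase p) = A := insert_erase hpA
    have hpn : p ∉ A.erase p := notMem_erase p A
    have hfl0 : flt (fun x => x p = x0 p) y ≠ 0 := by
      intro h
      have h1 := flt_apply (fun x => x p = x0 p) y x0
      rw [h] at h1
      simp only [Finsupp.coe_zero, Pi.zero_apply, if_true] at h1
      exact (Finsupp.mem_support_iff.mp hx0) h1.symm
    obtain ⟨μ', hμ'1, hμ'2⟩ := top_component hpn (μ := μ) (v := y) (by rw [hins]; exact hy) (x0 p)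
      (fun x hx => hx0max x (Finsupp.mem_support_iff.mpr hx)) hfl0
    have hpre' : IsPre τ (A.erase p) := GT_erase_pre hτ hpre hp
    have hρ' : ∀ P, IsPre τ P → P ⊆ A.erase p →
        flt (fun x => x p = x0 p) y ∈ Iso P (ρ P) := by
      intro P hP hPA
      refine Iso_map _ (fun a ha v => flt_act (P := P) ?_ ha v)
        (hρ P hP (hPA.trans (erase_subset p A)))
      intro g hg x
      have : g p = p := (mem_SP.mp hg) p (fun h => hpn (hPA h))
      simp [this]
    obtain ⟨T', hT'1, hT'2⟩ := ih (A.erase p) (by rw [card_erase_of_mem hpA]; omega) hpre' μ' _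
      hμ'1 hfl0 hρ'
    have hμρ' : μ' = ρ (A.erase p) :=
      eq_of_mem_Spec_of_mem_Iso (HW_le_Spec _ _ hμ'1) (hρ' _ hpre' subset_rfl) hfl0
    have hμρ : μ = ρ A :=
      eq_of_mem_Spec_of_mem_Iso (HW_le_Spec _ _ hy) (hρ _ hpre subset_rfl) h0
    have hT'A : IsTab (A.erase p) T' μ' := by rw [hμρ']; exact hT'2 _ hpre' subset_rfl
    refine ⟨Function.update T' p (x0 p, μ'.rowLen (x0 p)), ?_, ?_⟩
    · intro i hi j hj hij
      by_cases hjp : j = p
      · subst hjp; exact hp i hi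
      by_cases hip : i = p
      · subst hip
        exfalso
        rw [Function.update_self, Function.update_of_ne hjp] at hij
        have h1 : T' j ∈ μ' := hT'A.mem (mem_erase.mpr ⟨hjp, hj⟩)
        have h2 : (x0 i, μ'.rowLen (x0 i)) ∈ μ' := μ'.isLowerSet hij h1
        rw [YoungDiagram.mem_iff_lt_rowLen] at h2
        exact lt_irrefl _ h2
      · rw [Function.update_of_ne hjp, Function.update_of_ne hip] at hij
        exact hT'1 i (mem_erase.mpr ⟨hip, hi⟩) j (mem_erase.mpr ⟨hjp, hj⟩) hij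
    · intro P hP hPA
      by_cases hpP : p ∈ P
      · have hPA' : P = A := subset_antisymm hPA (fun j hj => hP p hpP j (hp j hj))
        subst hPA'
        have := isTab_insert hpn hT'A hμ'2
        rw [hins, hμρ] at this
        exact this
      · have hPA' : P ⊆ A.erase p := fun j hj =>
          mem_erase.mpr ⟨fun h => hpP (h ▸ hj), hPA hj⟩
        refine (hT'2 P hP hPA').congr (fun i hi => ?_)
        have hip : i ≠ p := fun h => hpP (h ▸ hi)
        rw [Function.update_of_ne hip]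

/-- a nonzero vector of the Specht module that is isotypic for every prefix belongs to a standard
tableau (induction over prefixes with `top_component`, `isTab_insert`) -/
theorem exists_std_of_chain {τ : ι → ℤ} (hτ : Function.Injective τ) {κ : YoungDiagram} {y : WM ι}
    (hy : y ∈ Spec univ κ) (h0 : y ≠ 0) (ρ : Finset ι → YoungDiagram)
    (hρ : ∀ P, IsPre τ P → y ∈ Iso P (ρ P)) :
    ∃ T, Std τ T κ ∧ ∀ P, IsPre τ P → IsTab P T (ρ P) := by
  have hu : IsPre τ (univ : Finset ι) := fun _ _ j _ => mem_univ j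
  obtain ⟨T, hT1, hT2⟩ := GT_chain_aux hτ ρ _ univ rfl hu κ y (Spec_le_HW _ _ hy) h0
    (fun P hP _ => hρ P hP)
  have hκ : κ = ρ univ := eq_of_mem_Spec_of_mem_Iso hy (hρ _ hu) h0
  refine ⟨T, ⟨hτ, ?_, fun i j hij => hT1 i (mem_univ i) j (mem_univ j) hij⟩,
    fun P hP => hT2 P hP (subset_univ P)⟩
  rw [hκ]
  exact hT2 _ hu subset_rfl

theorem GT_yc_act {P : Finset ι} {ρ : YoungDiagram} {w : WM ι}
    (H : ∀ T', IsTab P T' ρ → act (yc P T') w = 0) {a : GA ι} (ha : a ∈ GP P) :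
    ∀ T', IsTab P T' ρ → act (yc P T') (act a w) = 0 := by
  refine GP_induction (P := P) (p := fun a => ∀ T', IsTab P T' ρ → act (yc P T') (act a w) = 0)
    ?_ ?_ ?_ ?_ a ha
  · intro T' _
    simp
  · intro g hg T' hT'
    have hg' : g⁻¹ ∈ SP P := (SP P).inv_mem hg
    have h1 := el_mul_yc hg (T' ∘ (g⁻¹).symm)
    have h2 : (T' ∘ (g⁻¹).symm) ∘ g.symm = T' := by
      funext i
      simp [Perm.inv_def]
    rw [h2] at h1
    rw [← act_mul_apply, ← h1, act_mul_apply, H _ (hT'.comp hg'), map_zero]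
  · intro a b ha hb T' hT'
    rw [map_add, LinearMap.add_apply, map_add, ha T' hT', hb T' hT', add_zero]
  · intro c a ha T' hT'
    rw [map_smul, LinearMap.smul_apply, map_smul, ha T' hT', smul_zero]

theorem GT_span_aux {τ : ι → ℤ} {κ : YoungDiagram}
    (ok : Finset ι → YoungDiagram → Prop) {v : WM ι} (hv : v ∈ Spec univ κ)
    (H : ∀ P ρ T', IsPre τ P → IsTab P T' ρ → ¬ ok P ρ → act (yc P T') v = 0)
    (S : Finset (Finset ι)) (hS : ∀ P ∈ S, IsPre τ P) :
    v ∈ Submodule.span ℂ {w | w ∈ Spec univ κ ∧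
      (∀ P ρ T', IsPre τ P → IsTab P T' ρ → ¬ ok P ρ → act (yc P T') w = 0) ∧
      ∀ P ∈ S, ∃ ρ, w ∈ Iso P ρ} := by
  induction S using Finset.induction_on with
  | empty => exact Submodule.subset_span ⟨hv, H, by simp⟩
  | insert P S _ ih =>
    have hP : IsPre τ P := hS P (mem_insert_self P S)
    refine (Submodule.span_le.mpr ?_) (ih (fun Q hQ => hS Q (mem_insert_of_mem hQ)))
    rintro w ⟨hw1, hw2, hw3⟩
    rw [SetLike.mem_coe, ← sum_act_idem P w]
    refine Submodule.sum_mem _ (fun μ _ => Submodule.subset_span ⟨?_, ?_, ?_⟩)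
    · exact Spec_act (Or.inl (subset_univ P)) (idem_mem_GP P μ) hw1
    · intro P' ρ T' hP' hT' hok
      rcases hP.subset_or_subset hP' with h | h
      · exact GT_yc_act (fun T'' hT'' => hw2 P' ρ T'' hP' hT'' hok)
          (GP_mono h (idem_mem_GP P μ)) T' hT'
      · rw [← act_mul_apply, idem_comm μ (GP_mono h (yc_mem_GP P' T')), act_mul_apply,
          hw2 P' ρ T' hP' hT' hok, map_zero]
    · intro Q hQ
      rcases mem_insert.mp hQ with rfl | hQ
      · exact ⟨μ, act_idem_mem_Iso _ μ w⟩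
      · obtain ⟨ρ, hρ⟩ := hw3 Q hQ
        refine ⟨ρ, ?_⟩
        rcases hP.subset_or_subset (hS Q (mem_insert_of_mem hQ)) with h | h
        · exact Iso_act (Or.inl h) (idem_mem_GP P μ) hρ
        · refine Iso_map (act (idem P μ)) (fun a ha u => ?_) hρ
          rw [← act_mul_apply, ← act_mul_apply, idem_comm μ (GP_mono h ha)]

/-- Expand `v` with `sum_act_idem` successively for all prefixes (they form a chain, so the
hypothesis `H` and the conditions `∈ Iso P _` are preserved by `act (idem P' _)`), then use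
`exists_std_of_chain` and `eq_zero_of_forall_yc`. -/
theorem GT_span {τ : ι → ℤ} (hτ : Function.Injective τ) {κ : YoungDiagram}
    (ok : Finset ι → YoungDiagram → Prop) {v : WM ι} (hv : v ∈ Spec univ κ)
    (H : ∀ P ρ T', IsPre τ P → IsTab P T' ρ → ¬ ok P ρ → act (yc P T') v = 0) :
    v ∈ Submodule.span ℂ {w | ∃ T, Std τ T κ ∧ IsGT τ T κ w ∧
      ∀ P ρ, IsPre τ P → IsTab P T ρ → ok P ρ} := by
  classical
  refine (Submodule.span_le.mpr ?_)
    (GT_span_aux ok hv H (univ.filter fun P => IsPre τ P) (fun P hP => (mem_filter.mp hP).2))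
  rintro w ⟨hw1, hw2, hw3⟩
  by_cases h0 : w = 0
  · subst h0
    exact Submodule.zero_mem _
  have hex : ∀ P : Finset ι, ∃ ρ, IsPre τ P → w ∈ Iso P ρ := by
    intro P
    by_cases hP : IsPre τ P
    · obtain ⟨ρ, hρ⟩ := hw3 P (mem_filter.mpr ⟨mem_univ P, hP⟩)
      exact ⟨ρ, fun _ => hρ⟩
    · exact ⟨⊥, fun h => absurd h hP⟩
  choose ρ hρ using hex
  obtain ⟨T, hT1, hT2⟩ := exists_std_of_chain hτ hw1 h0 ρ hρ
  refine Submodule.subset_span ⟨T, hT1, ⟨hw1, fun P μ hP hT => ?_⟩, fun P μ hP hT => ?_⟩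
  · rw [hT.unique (hT2 P hP)]
    exact hρ P hP
  · by_contra hok
    refine h0 (eq_zero_of_forall_yc (P := P) (fun T' ν hT' => ?_))
    by_cases hν : ν = μ
    · subst hν
      exact hw2 P ν T' hP hT' hok
    · refine hρ P hP T' ν hT' ?_
      rw [← hT.unique (hT2 P hP)]
      exact hν

theorem GT_exists_time (P : Finset ι) : ∃ τ : ι → ℤ, Function.Injective τ ∧ IsPre τ P := by
  let e := Fintype.equivFin ι
  refine ⟨fun i => ((e i : ℕ) : ℤ) + if i ∈ P then 0 else (Fintype.card ι : ℤ), ?_, ?_⟩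
  · intro i j hij
    have hi := (e i).2
    have hj := (e j).2
    apply e.injective
    apply Fin.ext
    simp only at hij
    split_ifs at hij <;> omega
  · intro i hi j hj
    by_contra hjP
    have hi' := (e i).2
    simp only [hi, hjP, if_true, if_false] at hj
    omega

/-- restriction of a Specht module only contains subdiagrams (choose a time function for which `P`
is a prefix and use `GT_span` with `ok = True`) -/
theorem yc_kill_of_not_le {κ ρ : YoungDiagram} {v : WM ι} (hv : v ∈ Spec univ κ) {P : Finset ι}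
    {T' : ι → ℕ × ℕ} (hT' : IsTab P T' ρ) (h : ¬ ρ ≤ κ) : act (yc P T') v = 0 := by
  obtain ⟨τ, hτ, hP⟩ := GT_exists_time P
  have h1 := GT_span hτ (fun _ _ => True) hv (fun _ _ _ _ _ h => absurd trivial h)
  refine (Submodule.span_le (p := LinearMap.ker (act (yc P T')))).mpr ?_ h1
  rintro w ⟨T, hT, hw, -⟩
  obtain ⟨μ, hμ1, hμ2⟩ := hT.exists_tab hP
  exact hw.2 P μ hP hμ1 T' ρ hT' (fun e => h (e ▸ hμ2))

theorem isGT_of_le {τ : ι → ℤ} {T : ι → ℕ × ℕ} {κ : YoungDiagram} {v : WM ι}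
    (hv : v ∈ Spec univ κ)
    (h : ∀ P μ ρ T', IsPre τ P → IsTab P T μ → IsTab P T' ρ → ρ ≤ κ → ρ ≠ μ →
      act (yc P T') v = 0) : IsGT τ T κ v := by
  refine ⟨hv, fun P μ hP hT T' ν hT' hne => ?_⟩
  by_cases hν : ν ≤ κ
  · exact h P μ ν T' hP hT hT' hν hne
  · exact yc_kill_of_not_le hv hT' hν

theorem GT_exists_sub {P : Finset ι} {f : ι → ℕ} {J : ℕ} (h : J < wt P f 0) :
    ∃ S ⊆ P, S.card = J + 1 ∧ stab S (fun _ => 0) ⊆ stab P f := by
  obtain ⟨S, hS1, hS2⟩ := exists_subset_card_eq (s := P.filter fun p => f p = 0) (n := J + 1) h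
  have hSP : S ⊆ P := hS1.trans (filter_subset _ _)
  refine ⟨S, hSP, hS2, fun g hg => ?_⟩
  have hg' : g ∈ SP S := mem_stab_zero.mp hg
  refine mem_stab.mpr ⟨fun i hi => mem_SP.mp hg' i (fun h => hi (hSP h)), fun i => ?_⟩
  by_cases hi : i ∈ S
  · have h1 := (mem_filter.mp (hS1 hi)).2
    have h2 := (mem_filter.mp (hS1 ((SP_apply_mem_iff hg' i).mpr hi))).2
    rw [h1, h2]
  · rw [mem_SP.mp hg' i hi]

theorem GT_psym_kill {P : Finset ι} {v : WM ι} {J : ℕ}
    (hS : ∀ S ⊆ P, S.card = J + 1 → act (sym S) v = 0) {f : ι → ℕ} (h : J < wt P f 0) :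
    act (psym P f) v = 0 := by
  obtain ⟨S, hS1, hS2, hS3⟩ := GT_exists_sub h
  have h1 := congrArg (fun a => act a v) (psym_mul_psym hS3)
  simp only [act_mul_apply, map_smul, LinearMap.smul_apply] at h1
  have h2 : act (psym S fun _ => 0) v = 0 := hS S hS1 hS2
  rw [h2, map_zero] at h1
  exact (smul_eq_zero.mp h1.symm).resolve_left (card_stab_ne_zero S _)

theorem GT_palt_kill {P : Finset ι} {v : WM ι} {J : ℕ}
    (hS : ∀ S ⊆ P, S.card = J + 1 → act (alt S) v = 0) {f : ι → ℕ} (h : J < wt P f 0) :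
    act (palt P f) v = 0 := by
  obtain ⟨S, hS1, hS2, hS3⟩ := GT_exists_sub h
  have h1 := congrArg (fun a => act a v) (palt_mul_palt hS3)
  simp only [act_mul_apply, map_smul, LinearMap.smul_apply] at h1
  have h2 : act (palt S fun _ => 0) v = 0 := hS S hS1 hS2
  rw [h2, map_zero] at h1
  exact (smul_eq_zero.mp h1.symm).resolve_left (card_stab_ne_zero S _)

/-- expand `palt`, conjugate, and use `psym_mul_psym` with `S ⊆` first row -/
theorem yc_kill_of_sym {P : Finset ι} {v : WM ι} {J : ℕ}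
    (hS : ∀ S ⊆ P, S.card = J + 1 → act (sym S) v = 0) {T' : ι → ℕ × ℕ} {ρ : YoungDiagram}
    (hT' : IsTab P T' ρ) (h : J < ρ.rowLen 0) : act (yc P T') v = 0 := by
  rw [yc, act_mul_apply, act_palt_eq, map_sum]
  refine sum_eq_zero (fun σ hσ => ?_)
  have hσ' : σ ∈ SP P := mem_SP_of_mem_stab hσ
  have h1 := el_mul_psym_conj σ P (rowf T' ∘ σ)
  have h2 : (rowf T' ∘ σ) ∘ σ.symm = rowf T' := by
    funext i
    simp
  rw [map_eq_of_mem_SP hσ', h2] at h1
  have h3 : J < wt P (rowf T' ∘ σ) 0 := by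
    rw [wt_comp (SP_apply_mem_iff hσ'), hT'.wt_rowf]
    exact h
  rw [map_smul, ← act_el, ← act_mul_apply, ← h1, act_mul_apply, GT_psym_kill hS h3, map_zero,
    smul_zero]

theorem yc_kill_of_alt {P : Finset ι} {v : WM ι} {I : ℕ}
    (hS : ∀ S ⊆ P, S.card = I + 1 → act (alt S) v = 0) {T' : ι → ℕ × ℕ} {ρ : YoungDiagram}
    (hT' : IsTab P T' ρ) (h : I < ρ.colLen 0) : act (yc P T') v = 0 := by
  have h3 : I < wt P (colf T') 0 := by
    rw [hT'.wt_colf]
    exact h
  rw [yc, act_mul_apply, GT_palt_kill hS h3, map_zero]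

end Crest.Agent.R195
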