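/- Row 195, task GoodVec: criteria for `GoodVec` and the passage to `Good`. -/
import Crest.Agent.R195.GT

set_option autoImplicit false

namespace Crest.Agent.R195

open Equiv Finset

variable {ι : Type} [Fintype ι] [DecidableEq ι]

theorem coeff_Aelt_mul (α β : Perm ι → ℂ) (c : GA ι) (g : Perm ι) :
    (Aelt α β * c).coeff g⁻¹ = ∑ k : Perm ι, c.coeff k * (α (k * g) * β (k * g)) := by
  have h : Aelt α β * c =
      ∑ m : Perm ι, (∑ k : Perm ι, c.coeff k * (α (k * m⁻¹) * β (k * m⁻¹))) • el m := by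
    conv_lhs => rw [eq_sum_el c]
    rw [Finset.mul_sum]
    simp only [Finset.sum_smul]
    rw [Finset.sum_comm]
    refine Finset.sum_congr rfl fun k _ => ?_
    rw [Aelt, Finset.sum_mul]
    symm
    refine Fintype.sum_equiv ((Equiv.inv (Perm ι)).trans (Equiv.mulLeft k)) _ _ fun m => ?_
    simp only [Equiv.trans_apply, Equiv.inv_apply, Equiv.coe_mulLeft]
    rw [smul_mul_smul_comm, ← el_mul, mul_comm (c.coeff k)]
    congr 2
    group
  rw [h, coeff_sum_el, inv_inv]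

theorem goodVec_iff {u w : WM ι} {l : YoungDiagram} : GoodVec u w l ↔
    ∃ (φ ψ : Module.Dual ℂ (WM ι)) (T : ι → ℕ × ℕ) (g : Perm ι), IsTab univ T l ∧
      ∑ k : Perm ι, (yc univ T).coeff k * (φ (wrep ι (k * g) u) * ψ (wrep ι (k * g) w)) ≠ 0 := by
  constructor
  · rintro ⟨φ, ψ, T, hT, h⟩
    by_contra hne
    push Not at hne
    apply h
    ext g
    have := coeff_Aelt_mul (fun g => φ (wrep ι g u)) (fun g => ψ (wrep ι g w)) (yc univ T) g⁻¹
    rw [inv_inv, hne φ ψ T g⁻¹ hT] at this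
    exact this
  · rintro ⟨φ, ψ, T, g, hT, h⟩
    refine ⟨φ, ψ, T, hT, fun h0 => h ?_⟩
    rw [← coeff_Aelt_mul (fun g => φ (wrep ι g u)) (fun g => ψ (wrep ι g w)), h0]
    rfl

/-- pairing of a group algebra element with a function -/
noncomputable def goodVec_pair (F : Perm ι → ℂ) : GA ι →ₗ[ℂ] ℂ where
  toFun a := ∑ k : Perm ι, a.coeff k * F k
  map_add' a b := by
    simp only [MonoidAlgebra.coeff_add, Finsupp.add_apply, add_mul, Finset.sum_add_distrib]
  map_smul' c a := by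
    simp only [MonoidAlgebra.coeff_smul, Finsupp.smul_apply, smul_eq_mul, RingHom.id_apply,
      Finset.mul_sum, mul_assoc]

theorem goodVec_pair_el (F : Perm ι → ℂ) (g : Perm ι) : goodVec_pair F (el g) = F g := by
  simp [goodVec_pair, el, Finsupp.single_apply]

theorem goodVec_sum_coeff_yc (P : Finset ι) (T : ι → ℕ × ℕ) (F : Perm ι → ℂ) :
    ∑ k : Perm ι, (yc P T).coeff k * F k =
      ∑ r ∈ stab P (rowf T), ∑ c ∈ stab P (colf T), sg c * F (r * c) := by
  change goodVec_pair F (yc P T) = _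
  rw [yc, psym, palt, Finset.sum_mul_sum, map_sum]
  refine Finset.sum_congr rfl fun r _ => ?_
  rw [map_sum]
  refine Finset.sum_congr rfl fun c _ => ?_
  rw [mul_smul_comm, ← el_mul, map_smul, goodVec_pair_el, smul_eq_mul]

theorem goodVec_ptab_eq (P : Finset ι) (U : ι → ℕ × ℕ) :
    ptab P U = ∑ c ∈ stab P (colf U), sg c • Finsupp.single (rowf U ∘ c) (1 : ℂ) := by
  rw [ptab, act_palt_eq]
  refine Finset.sum_equiv (Equiv.inv (Perm ι)) (fun c => ⟨inv_mem_stab, fun h => ?_⟩) fun c _ => ?_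
  · simpa using inv_mem_stab h
  · rw [wrep_single, Equiv.inv_apply, sg_inv]
    rfl

/-- test with a row-invariant bilinear form -/
theorem goodVec_of_bilin {T : ι → ℕ × ℕ} {l : YoungDiagram} (hT : IsTab univ T l)
    (B : WM ι →ₗ[ℂ] WM ι →ₗ[ℂ] ℂ)
    (hB : ∀ r ∈ stab univ (rowf T), ∀ u w, B (wrep ι r u) (wrep ι r w) = B u w) {u w : WM ι}
    (g : Perm ι)
    (h : ∑ c ∈ stab univ (colf T), sg c * B (wrep ι (c * g) u) (wrep ι (c * g) w) ≠ 0) :
    GoodVec u w l := by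
  classical
  by_contra hne
  rw [goodVec_iff] at hne
  push Not at hne
  set S : Finset (ι → ℕ) := univ.biUnion fun k : Perm ι => (wrep ι k u).support with hS
  have hB' : ∀ k : Perm ι, ∀ b, B (wrep ι k u) b =
      ∑ x ∈ S, wrep ι k u x * B (Finsupp.single x 1) b := by
    intro k b
    have h1 : wrep ι k u = ∑ x ∈ S, wrep ι k u x • Finsupp.single x (1 : ℂ) := by
      conv_lhs => rw [← Finsupp.sum_single (wrep ι k u)]
      rw [Finsupp.sum_of_support_subset _ (s := S)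
        (Finset.subset_biUnion_of_mem (fun k : Perm ι => (wrep ι k u).support) (mem_univ k))
        _ (fun x _ => Finsupp.single_zero x)]
      simp only [Finsupp.smul_single, smul_eq_mul, mul_one]
    conv_lhs => rw [h1]
    rw [map_sum, LinearMap.sum_apply]
    simp only [map_smul, LinearMap.smul_apply, smul_eq_mul]
  have h0 : ∑ k : Perm ι, (yc univ T).coeff k *
      B (wrep ι (k * g) u) (wrep ι (k * g) w) = 0 := by
    simp only [hB', Finset.mul_sum]
    rw [Finset.sum_comm]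
    exact Finset.sum_eq_zero fun x _ => hne (Finsupp.lapply x) (B (Finsupp.single x 1)) T g hT
  rw [goodVec_sum_coeff_yc] at h0
  have h1 : ∀ r ∈ stab univ (rowf T), ∑ c ∈ stab univ (colf T),
      sg c * B (wrep ι (r * c * g) u) (wrep ι (r * c * g) w) =
      ∑ c ∈ stab univ (colf T), sg c * B (wrep ι (c * g) u) (wrep ι (c * g) w) := by
    intro r hr
    refine Finset.sum_congr rfl fun c _ => ?_
    rw [mul_assoc r, map_mul (wrep ι) r, Module.End.mul_apply, Module.End.mul_apply, hB r hr]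
  rw [Finset.sum_congr rfl h1, Finset.sum_const, nsmul_eq_mul] at h0
  exact h ((mul_eq_zero.1 h0).resolve_left (card_stab_ne_zero _ _))

/-- the bilinear form attached to a tensor `X` and a row assignment `r` -/
noncomputable def tens (X : ℕ → ℕ → ℕ → ℂ) (r : ι → ℕ) : WM ι →ₗ[ℂ] WM ι →ₗ[ℂ] ℂ :=
  Finsupp.linearCombination ℂ fun x : ι → ℕ =>
    (Finsupp.linearCombination ℂ fun y : ι → ℕ => ∏ i, X (r i) (x i) (y i) : WM ι →ₗ[ℂ] ℂ)

omit [DecidableEq ι] in
theorem tens_single (X : ℕ → ℕ → ℕ → ℂ) (r x y : ι → ℕ) :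
    tens X r (Finsupp.single x 1) (Finsupp.single y 1) = ∏ i, X (r i) (x i) (y i) := by
  simp [tens]

omit [DecidableEq ι] in
theorem tens_wrep (X : ℕ → ℕ → ℕ → ℂ) (r : ι → ℕ) (g : Perm ι) (u w : WM ι) :
    tens X r (wrep ι g u) (wrep ι g w) = tens X (r ∘ g) u w := by
  induction u using Finsupp.induction_linear with
  | zero => simp
  | add u u' hu hu' => simp only [map_add, LinearMap.add_apply, hu, hu']
  | single x a =>
    induction w using Finsupp.induction_linear with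
    | zero => simp
    | add w w' hw hw' => simp only [map_add, hw, hw']
    | single y b =>
      rw [wrep_single, wrep_single]
      simp only [tens, Finsupp.linearCombination_single, LinearMap.smul_apply, smul_eq_mul]
      congr 2
      symm
      refine Fintype.prod_equiv g _ _ fun i => ?_
      simp

theorem goodVec_of_tens {T : ι → ℕ × ℕ} {l : YoungDiagram} (hT : IsTab univ T l)
    (X : ℕ → ℕ → ℕ → ℂ) {u w : WM ι} (g : Perm ι)
    (h : ∑ c ∈ stab univ (colf T), sg c * tens X (rowf T ∘ c ∘ g) u w ≠ 0) : GoodVec u w l := by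
  refine goodVec_of_bilin hT (tens X (rowf T)) (fun r hr u w => ?_) g ?_
  · rw [tens_wrep]
    have : rowf T ∘ r = rowf T := funext fun i => (mem_stab.1 hr).2 i
    rw [this]
  · simp only [tens_wrep]
    exact h

theorem tens_ptab (X : ℕ → ℕ → ℕ → ℂ) (r : ι → ℕ) (U W : ι → ℕ × ℕ) :
    tens X r (ptab univ U) (ptab univ W) = ∑ c ∈ stab univ (colf U), ∑ d ∈ stab univ (colf W),
      sg c * sg d * ∏ i, X (r i) (rowf U (c i)) (rowf W (d i)) := by
  rw [goodVec_ptab_eq, goodVec_ptab_eq, map_sum (tens X r), LinearMap.sum_apply]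
  refine Finset.sum_congr rfl fun c _ => ?_
  rw [map_sum]
  refine Finset.sum_congr rfl fun d _ => ?_
  rw [map_smul, map_smul, LinearMap.smul_apply, tens_single, smul_eq_mul, smul_eq_mul]
  simp only [Function.comp_apply]
  ring

theorem GoodVec.symm {u w : WM ι} {l : YoungDiagram} (h : GoodVec u w l) : GoodVec w u l := by
  rw [goodVec_iff] at h ⊢
  obtain ⟨φ, ψ, T, g, hT, h⟩ := h
  refine ⟨ψ, φ, T, g, hT, ?_⟩
  simpa only [mul_comm (φ _)] using h
theorem GoodVec.of_smul {u w : WM ι} {l : YoungDiagram} {c d : ℂ} (h : GoodVec (c • u) (d • w) l) :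
    GoodVec u w l := by
  rw [goodVec_iff] at h ⊢
  obtain ⟨φ, ψ, T, g, hT, h⟩ := h
  refine ⟨c • φ, d • ψ, T, g, hT, ?_⟩
  simpa only [map_smul, LinearMap.smul_apply] using h
theorem GoodVec.of_add {u u' w : WM ι} {l : YoungDiagram} (h : GoodVec (u + u') w l) :
    GoodVec u w l ∨ GoodVec u' w l := by
  by_contra hne
  rw [not_or, goodVec_iff, goodVec_iff] at hne
  obtain ⟨h1, h2⟩ := hne
  push Not at h1 h2
  rw [goodVec_iff] at h
  obtain ⟨φ, ψ, T, g, hT, h⟩ := h
  apply h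
  simp only [map_add, add_mul, mul_add, Finset.sum_add_distrib]
  rw [h1 φ ψ T g hT, h2 φ ψ T g hT, add_zero]
theorem not_goodVec_zero (w : WM ι) (l : YoungDiagram) : ¬ GoodVec 0 w l := by
  rw [goodVec_iff]
  rintro ⟨φ, ψ, T, g, -, h⟩
  simp at h
theorem GoodVec.of_wrep {u w : WM ι} {l : YoungDiagram} (g : Perm ι)
    (h : GoodVec (wrep ι g u) (wrep ι g w) l) : GoodVec u w l := by
  rw [goodVec_iff] at h ⊢
  obtain ⟨φ, ψ, T, g', hT, h⟩ := h
  refine ⟨φ, ψ, T, g' * g, hT, ?_⟩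
  simpa only [← mul_assoc, map_mul (wrep ι) _ g, Module.End.mul_apply] using h
/-- if `t` fixes the line of `w`, then `u` may be replaced by `u + c t u` -/
theorem GoodVec.of_add_wrep {u w : WM ι} {l : YoungDiagram} {t : Perm ι} {χ c : ℂ}
    (hw : wrep ι t w = χ • w) (h : GoodVec (u + c • wrep ι t u) w l) : GoodVec u w l := by
  rcases h.of_add with h | h
  · exact h
  by_cases hχ : χ = 0
  · have hw0 : w = 0 := by
      have h1 : wrep ι t⁻¹ (wrep ι t w) = w := by
        rw [← Module.End.mul_apply, ← map_mul, inv_mul_cancel, map_one, Module.End.one_apply]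
      rw [← h1, hw, hχ, zero_smul, map_zero]
    rw [hw0] at h
    exact absurd h.symm (not_goodVec_zero _ _)
  · have h1 : w = χ⁻¹ • wrep ι t w := by
      rw [hw, smul_smul, inv_mul_cancel₀ hχ, one_smul]
    rw [h1] at h
    exact GoodVec.of_wrep t h.of_smul
theorem GoodVec.of_span {u w : WM ι} {l : YoungDiagram} {s : Set (WM ι)}
    (hu : u ∈ Submodule.span ℂ s) (h : GoodVec u w l) : ∃ u' ∈ s, GoodVec u' w l := by
  by_contra hne
  push Not at hne
  refine Submodule.span_induction (p := fun u _ => ¬ GoodVec u w l) hne (not_goodVec_zero w l)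
    (fun a b _ _ ha hb hab => hab.of_add.elim ha hb) (fun c a _ ha hc => ha ?_) hu h
  rw [← one_smul ℂ w] at hc
  exact hc.of_smul

theorem good_of_GT {τ : ι → ℤ} {T1 T2 : ι → ℕ × ℕ} {κ1 κ2 l : YoungDiagram} {u w : WM ι}
    (hu : IsGT (-τ) T1 κ1 u) (hw : IsGT τ T2 κ2 w) (h : GoodVec u w l) :
    Good τ T1 T2 κ1 κ2 l := by
  obtain ⟨φ, ψ, T, hT, h⟩ := h
  exact ⟨_, ⟨u, φ, hu, fun _ => rfl⟩, _, ⟨w, ψ, hw, fun _ => rfl⟩, T, hT, h⟩

theorem good_of_GT_left {τ : ι → ℤ} (hτ : Function.Injective τ) {T1 : ι → ℕ × ℕ}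
    {κ1 κ2 l : YoungDiagram} {u w : WM ι} (hu : IsGT (-τ) T1 κ1 u) (hw : w ∈ Spec univ κ2)
    (ok : Finset ι → YoungDiagram → Prop)
    (H : ∀ P ρ T', IsPre τ P → IsTab P T' ρ → ¬ ok P ρ → act (yc P T') w = 0)
    (h : GoodVec u w l) :
    ∃ T2, Std τ T2 κ2 ∧ (∀ P ρ, IsPre τ P → IsTab P T2 ρ → ok P ρ) ∧ Good τ T1 T2 κ1 κ2 l := by
  obtain ⟨w', ⟨T2, hT2, hw', hok⟩, h'⟩ := h.symm.of_span (GT_span hτ ok hw H)
  exact ⟨T2, hT2, hok, good_of_GT hu hw' h'.symm⟩

theorem good_of_goodVec {τ : ι → ℤ} (hτ : Function.Injective τ) {κ1 κ2 l : YoungDiagram}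
    {u w : WM ι} (hu : u ∈ Spec univ κ1) (hw : w ∈ Spec univ κ2)
    (ok1 ok2 : Finset ι → YoungDiagram → Prop)
    (H1 : ∀ P ρ T', IsPre (-τ) P → IsTab P T' ρ → ¬ ok1 P ρ → act (yc P T') u = 0)
    (H2 : ∀ P ρ T', IsPre τ P → IsTab P T' ρ → ¬ ok2 P ρ → act (yc P T') w = 0)
    (h : GoodVec u w l) :
    ∃ T1 T2, Std (-τ) T1 κ1 ∧ Std τ T2 κ2 ∧ (∀ P ρ, IsPre (-τ) P → IsTab P T1 ρ → ok1 P ρ) ∧
      (∀ P ρ, IsPre τ P → IsTab P T2 ρ → ok2 P ρ) ∧ Good τ T1 T2 κ1 κ2 l := by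
  have hτ' : Function.Injective (-τ) := fun i j hij => hτ (neg_injective hij)
  obtain ⟨u', ⟨T1, hT1, hu', hok1⟩, h'⟩ := h.of_span (GT_span hτ' ok1 hu H1)
  obtain ⟨T2, hT2, hok2, hg⟩ := good_of_GT_left hτ hu' hw ok2 H2 h'
  exact ⟨T1, T2, hT1, hT2, hok1, hok2, hg⟩

theorem good_empty [IsEmpty ι] (τ : ι → ℤ) (T1 T2 : ι → ℕ × ℕ) : Good τ T1 T2 ⊥ ⊥ ⊥ := by
  have htab : ∀ T : ι → ℕ × ℕ, IsTab univ T ⊥ := fun T =>
    isTab_of (fun i => isEmptyElim i) (fun i => isEmptyElim i)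
      (fun c hc => absurd hc (YoungDiagram.notMem_bot c))
  have hGT : ∀ (τ : ι → ℤ) (T : ι → ℕ × ℕ), IsGT τ T ⊥ (ptab univ T) := by
    intro τ T
    refine ⟨ptab_mem_Spec (htab T), fun P μ _ hP => ?_⟩
    have hP' : P = univ := by
      ext i
      exact isEmptyElim i
    subst hP'
    exact Spec_le_Iso _ _ (ptab_mem_Spec hP)
  refine good_of_GT (hGT _ T1) (hGT _ T2) ?_
  rw [goodVec_iff]
  refine ⟨Finsupp.lapply (rowf T1), Finsupp.lapply (rowf T2), T1, 1, htab T1, ?_⟩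
  rw [Finset.sum_eq_single (1 : Perm ι) (fun k _ hk => absurd (Subsingleton.elim k 1) hk)
    (fun h => absurd (mem_univ _) h)]
  rw [mul_one, map_one (wrep ι), Module.End.one_apply, Module.End.one_apply, Finsupp.lapply_apply,
    Finsupp.lapply_apply, ptab_apply_row (htab T1), ptab_apply_row (htab T2),
    yc_coeff_one (htab T1)]
  norm_num

end Crest.Agent.R195
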