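/- Row 195: depth-first evaluation of a triple determinant network. -/
import Crest.Agent.R195.GoodVec

set_option autoImplicit false

namespace Crest.Agent.R195

open Equiv Finset

variable {ι : Type} [Fintype ι] [DecidableEq ι]

omit [Fintype ι] [DecidableEq ι]

/-- comparison sign -/
def cmpS (x y : ℕ) : ℤ := if x < y then 1 else if y < x then -1 else 0

/-- local sign of a new letter `x` in column `c` relative to the letters placed so far -/
def locS (c x : ℕ) : List (ℕ × ℕ) → ℤ
  | [] => 1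
  | p :: l => bif Nat.beq p.1 c then
      (bif Nat.blt p.2 x then locS c x l else bif Nat.blt x p.2 then -locS c x l else 0)
    else locS c x l

/-- local factor including the bound on the letter -/
def locB (c len x : ℕ) (l : List (ℕ × ℕ)) : ℤ := bif Nat.blt x len then locS c x l else 0

/-- entries of the tensor: three letters and a value -/
abbrev Ent := ℕ × ℕ × ℕ × ℤ
/-- column and column length in the three tableaux -/
abbrev Pos := (ℕ × ℕ) × (ℕ × ℕ) × (ℕ × ℕ)

/-- the search -/
def dfs (X : List Ent) : List Pos → List (ℕ × ℕ) → List (ℕ × ℕ) → List (ℕ × ℕ) → ℤ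
  | [], _, _, _ => 1
  | d :: D, p1, p2, p3 => (X.map fun e =>
      let s1 := locB d.1.1 d.1.2 e.1 p1
      bif s1 == 0 then 0 else
        let s2 := locB d.2.1.1 d.2.1.2 e.2.1 p2
        bif s2 == 0 then 0 else
          let s3 := locB d.2.2.1 d.2.2.2 e.2.2.1 p3
          bif s3 == 0 then 0 else
            s1 * s2 * s3 * e.2.2.2 *
              dfs X D ((d.1.1, e.1) :: p1) ((d.2.1.1, e.2.1) :: p2) ((d.2.2.1, e.2.2.1) :: p3)).sum

theorem locS_cons (c x : ℕ) (p : ℕ × ℕ) (l : List (ℕ × ℕ)) :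
    locS c x (p :: l) = (if p.1 = c then cmpS p.2 x else 1) * locS c x l := by
  simp only [locS, cmpS, cond_eq_ite, Nat.beq_eq, Nat.blt_eq]
  split_ifs <;> simp

/-- closed form of the product of local factors -/
def sgP {n : ℕ} (d : Fin n → ℕ × ℕ) (y : Fin n → ℕ) (p : List (ℕ × ℕ)) : ℤ :=
  ∏ i, ((if y i < (d i).2 then 1 else 0) * locS (d i).1 (y i) p *
    ∏ j, if j < i then (if (d j).1 = (d i).1 then cmpS (y j) (y i) else 1) else 1)

theorem sgP_cons {n : ℕ} (d : Fin (n + 1) → ℕ × ℕ) (x : ℕ) (y : Fin n → ℕ) (p : List (ℕ × ℕ)) :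
    sgP d (Fin.cons x y : Fin (n + 1) → ℕ) p =
      locB (d 0).1 (d 0).2 x p * sgP (fun i => d i.succ) y (((d 0).1, x) :: p) := by
  unfold sgP
  rw [Fin.prod_univ_succ]
  congr 1
  · simp only [Fin.cons_zero, locB, cond_eq_ite, Nat.blt_eq, Fin.not_lt_zero, if_false,
      Finset.prod_const_one, mul_one]
    split_ifs <;> simp
  · refine Finset.prod_congr rfl fun i _ => ?_
    rw [Fin.prod_univ_succ, locS_cons]
    simp only [Fin.cons_succ, Fin.cons_zero, Fin.succ_pos, if_true, Fin.succ_lt_succ_iff]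
    ring

theorem dfs_eq (X : List Ent) : ∀ (n : ℕ) (d : Fin n → Pos) (p1 p2 p3 : List (ℕ × ℕ)),
    dfs X (List.ofFn d) p1 p2 p3 = ∑ x : Fin n → Fin X.length,
      (∏ i, (X.get (x i)).2.2.2) * sgP (fun i => (d i).1) (fun i => (X.get (x i)).1) p1 *
        sgP (fun i => (d i).2.1) (fun i => (X.get (x i)).2.1) p2 *
        sgP (fun i => (d i).2.2) (fun i => (X.get (x i)).2.2.1) p3 := by
  intro n
  induction n with
  | zero => intro d p1 p2 p3; simp [dfs, sgP]
  | succ n ih =>
    intro d p1 p2 p3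
    rw [List.ofFn_succ, dfs, ← (Fin.consEquiv fun _ : Fin (n + 1) => Fin X.length).sum_comp,
      Fintype.sum_prod_type]
    conv_lhs => rw [← List.ofFn_get X, List.map_ofFn, List.sum_ofFn]
    refine Finset.sum_congr rfl fun e _ => ?_
    have h1 : ∀ (y : Fin n → Fin X.length) (f : Ent → ℕ),
        (fun i => f (X.get ((Fin.consEquiv fun _ : Fin (n + 1) => Fin X.length) (e, y) i))) =
          (Fin.cons (f (X.get e)) (fun i => f (X.get (y i))) : Fin (n + 1) → ℕ) := by
      intro y f
      funext i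
      refine Fin.cases ?_ (fun j => ?_) i <;> simp [Fin.consEquiv]
    have h2 : ∀ (y : Fin n → Fin X.length),
        ∏ i, (X.get ((Fin.consEquiv fun _ : Fin (n + 1) => Fin X.length) (e, y) i)).2.2.2 =
          (X.get e).2.2.2 * ∏ i, (X.get (y i)).2.2.2 := by
      intro y
      rw [Fin.prod_univ_succ]
      simp [Fin.consEquiv]
    have h3 : ∀ (s1 s2 s3 v t : ℤ), (bif s1 == 0 then 0 else bif s2 == 0 then 0 else
        bif s3 == 0 then 0 else s1 * s2 * s3 * v * t) = s1 * s2 * s3 * v * t := by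
      intro s1 s2 s3 v t
      simp only [cond_eq_ite, beq_iff_eq]
      split_ifs with a b c <;> simp [*]
    simp only [Function.comp_apply, List.ofFn_get]
    rw [h3, ih, Finset.mul_sum]
    refine Finset.sum_congr rfl fun y _ => ?_
    rw [h1 y (fun e => e.1), h1 y (fun e => e.2.1), h1 y (fun e => e.2.2.1), h2, sgP_cons, sgP_cons,
      sgP_cons]
    ring

/-- column and column length -/
def cl {n : ℕ} (T : Fin n → ℕ × ℕ) (μ : YoungDiagram) : Fin n → ℕ × ℕ :=
  fun i => ((T i).2, μ.colLen (T i).2)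

theorem cmpS_anti (x y : ℕ) : cmpS x y = -cmpS y x := by
  unfold cmpS; split_ifs <;> first | rfl | omega

theorem cmpS_sq {x y : ℕ} (h : x ≠ y) : cmpS x y * cmpS x y = 1 := by
  unfold cmpS; split_ifs <;> first | rfl | omega

theorem cmpS_ne_zero {x y : ℕ} (h : cmpS x y ≠ 0) : x ≠ y := by
  rintro rfl; simp [cmpS] at h

theorem sgP_nil {n : ℕ} (d : Fin n → ℕ × ℕ) (y : Fin n → ℕ) :
    sgP d y [] = (∏ i, if y i < (d i).2 then 1 else 0) *
      ∏ i, ∏ j ∈ Iio i, if (d j).1 = (d i).1 then cmpS (y j) (y i) else 1 := by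
  unfold sgP
  rw [← Finset.prod_mul_distrib]
  refine Finset.prod_congr rfl fun i _ => ?_
  rw [locS, mul_one, ← Finset.prod_filter]
  congr 2
  ext j; simp

theorem sgP_comp {n : ℕ} {T : Fin n → ℕ × ℕ} {μ : YoungDiagram} (hT : IsTab univ T μ)
    {c : Perm (Fin n)} (hc : c ∈ stab univ (colf T)) :
    sgP (cl T μ) (rowf T ∘ c) [] = (Perm.sign c : ℤ) * sgP (cl T μ) (rowf T) [] ∧
      sgP (cl T μ) (rowf T) [] * sgP (cl T μ) (rowf T) [] = 1 := by
  have hcol : ∀ i, (T (c i)).2 = (T i).2 := (mem_stab.1 hc).2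
  have hlt : ∀ i, (T i).1 < μ.colLen (T i).2 := fun i =>
    YoungDiagram.mem_iff_lt_colLen.1 (hT.mem (mem_univ i))
  have b1 : (∏ i, if (rowf T ∘ c) i < (cl T μ i).2 then (1 : ℤ) else 0) = 1 :=
    Finset.prod_eq_one fun i _ => if_pos (by
      have := hlt (c i); rw [hcol] at this; exact this)
  have b2 : (∏ i, if rowf T i < (cl T μ i).2 then (1 : ℤ) else 0) = 1 :=
    Finset.prod_eq_one fun i _ => if_pos (hlt i)
  rw [sgP_nil, sgP_nil, b1, b2, one_mul, one_mul]
  set f : Fin n → Fin n → ℤ := fun j i =>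
    if (T j).2 = (T i).2 then cmpS (T j).1 (T i).1 else cmpS (T j).2 (T i).2 with hf
  set g : Fin n → Fin n → ℤ := fun j i =>
    if (T j).2 = (T i).2 then 1 else cmpS (T j).2 (T i).2 with hg
  have hanti : ∀ i j, f i j = -f j i := by
    intro i j
    simp only [hf]
    by_cases h : (T i).2 = (T j).2
    · rw [if_pos h, if_pos h.symm, cmpS_anti]
    · rw [if_neg h, if_neg (Ne.symm h), cmpS_anti]
  have key := c.prod_Iio_comp_eq_sign_mul_prod (f := f) hanti
  have hG : (∏ i, ∏ j ∈ Iio i, g j i) * (∏ i, ∏ j ∈ Iio i, g j i) = 1 := by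
    rw [← Finset.prod_mul_distrib]
    refine Finset.prod_eq_one fun i _ => ?_
    rw [← Finset.prod_mul_distrib]
    refine Finset.prod_eq_one fun j _ => ?_
    simp only [hg]
    split_ifs with h
    · simp
    · exact cmpS_sq h
  have e1 : (∏ i, ∏ j ∈ Iio i, f (c j) (c i)) =
      (∏ i, ∏ j ∈ Iio i, if (cl T μ j).1 = (cl T μ i).1 then
        cmpS ((rowf T ∘ c) j) ((rowf T ∘ c) i) else 1) * ∏ i, ∏ j ∈ Iio i, g j i := by
    rw [← Finset.prod_mul_distrib]
    refine Finset.prod_congr rfl fun i _ => ?_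
    rw [← Finset.prod_mul_distrib]
    refine Finset.prod_congr rfl fun j _ => ?_
    simp only [hf, hg, hcol, cl, rowf, Function.comp_apply]
    split_ifs <;> simp
  have e2 : (∏ i, ∏ j ∈ Iio i, f j i) =
      (∏ i, ∏ j ∈ Iio i, if (cl T μ j).1 = (cl T μ i).1 then
        cmpS (rowf T j) (rowf T i) else 1) * ∏ i, ∏ j ∈ Iio i, g j i := by
    rw [← Finset.prod_mul_distrib]
    refine Finset.prod_congr rfl fun i _ => ?_
    rw [← Finset.prod_mul_distrib]
    refine Finset.prod_congr rfl fun j _ => ?_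
    simp only [hf, hg, cl, rowf]
    split_ifs <;> simp
  constructor
  · rw [e1, e2] at key
    have := congrArg (· * ∏ i, ∏ j ∈ Iio i, g j i) key
    simp only [mul_assoc, hG, mul_one] at this
    exact this
  · rw [← Finset.prod_mul_distrib]
    refine Finset.prod_eq_one fun i _ => ?_
    rw [← Finset.prod_mul_distrib]
    refine Finset.prod_eq_one fun j hj => ?_
    split_ifs with h
    · refine cmpS_sq fun h' => ?_
      have : j = i := hT.inj (mem_univ _) (mem_univ _) (Prod.ext h' h)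
      simp [this] at hj
    · simp

theorem exists_col_perm {n : ℕ} {T : Fin n → ℕ × ℕ} {μ : YoungDiagram} (hT : IsTab univ T μ)
    {y : Fin n → ℕ} (hy : sgP (cl T μ) y [] ≠ 0) : ∃ c ∈ stab univ (colf T), y = rowf T ∘ c := by
  rw [sgP_nil] at hy
  obtain ⟨h1, h2⟩ := mul_ne_zero_iff.1 hy
  have hlt : ∀ i, (y i, (T i).2) ∈ μ := fun i => by
    have := Finset.prod_ne_zero_iff.1 h1 i (mem_univ _)
    rw [YoungDiagram.mem_iff_lt_colLen]
    by_contra h
    exact this (if_neg h)
  have hinj : ∀ i j, j < i → (T j).2 = (T i).2 → y j ≠ y i := fun i j hji h => by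
    have := Finset.prod_ne_zero_iff.1 (Finset.prod_ne_zero_iff.1 h2 i (mem_univ _)) j
      (mem_Iio.2 hji)
    rw [if_pos (show (cl T μ j).1 = (cl T μ i).1 from h)] at this
    exact cmpS_ne_zero this
  choose f _ hf using fun i => hT.surj (hlt i)
  have finj : Function.Injective f := by
    intro i j hij
    have h := hf i
    rw [hij, hf j] at h
    obtain ⟨h3, h4⟩ := Prod.mk.inj h
    rcases lt_trichotomy i j with h5 | h5 | h5
    · exact absurd h3.symm (hinj j i h5 h4.symm)
    · exact h5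
    · exact absurd h3 (hinj i j h5 h4)
  refine ⟨Equiv.ofBijective f (Finite.injective_iff_bijective.1 finj), mem_stab.2 ⟨by simp, fun i => ?_⟩,
    funext fun i => ?_⟩
  · simp [colf, hf]
  · simp [rowf, hf]

/-- coefficient of a word in a polytabloid -/
theorem coef_eq {n : ℕ} {T : Fin n → ℕ × ℕ} {μ : YoungDiagram} (hT : IsTab univ T μ)
    (y : Fin n → ℕ) :
    (∑ c ∈ stab univ (colf T), if rowf T ∘ c = y then sg c else 0) =
      ((sgP (cl T μ) (rowf T) [] * sgP (cl T μ) y [] : ℤ) : ℂ) := by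
  by_cases h : ∃ c ∈ stab univ (colf T), y = rowf T ∘ c
  · obtain ⟨c, hc, rfl⟩ := h
    rw [Finset.sum_eq_single c]
    · obtain ⟨h1, h2⟩ := sgP_comp hT hc
      rw [if_pos rfl, h1, mul_left_comm, h2, mul_one]
      rfl
    · intro c' hc' hne
      rw [if_neg]
      intro h
      apply hne
      ext i : 1
      refine hT.inj (mem_univ _) (mem_univ _) (Prod.ext (congrFun h i) ?_)
      exact ((mem_stab.1 hc').2 i).trans ((mem_stab.1 hc).2 i).symm
    · intro h; exact absurd hc h
  · have h0 : sgP (cl T μ) y [] = 0 := by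
      by_contra h0
      exact h (exists_col_perm hT h0)
    rw [h0, mul_zero, Int.cast_zero]
    refine Finset.sum_eq_zero fun c hc => if_neg fun h' => h ⟨c, hc, h'.symm⟩

/-- the tensor given by a list of entries -/
noncomputable def tensOf (X : List Ent) : ℕ → ℕ → ℕ → ℂ := fun r a b =>
  ∑ e : Fin X.length, (if r = (X.get e).1 then 1 else 0) * (if a = (X.get e).2.1 then 1 else 0) *
    (if b = (X.get e).2.2.1 then 1 else 0) * ((X.get e).2.2.2 : ℂ)

theorem net_eq {n : ℕ} {T U W : Fin n → ℕ × ℕ} {l κ κ' : YoungDiagram} (hT : IsTab univ T l)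
    (hU : IsTab univ U κ) (hW : IsTab univ W κ') (X : List Ent) :
    ∑ c ∈ stab univ (colf T), sg c * tens (tensOf X) (rowf T ∘ c) (ptab univ U) (ptab univ W) =
      ((sgP (cl T l) (rowf T) [] * sgP (cl U κ) (rowf U) [] * sgP (cl W κ') (rowf W) [] *
        dfs X (List.ofFn fun i => (cl T l i, cl U κ i, cl W κ' i)) [] [] [] : ℤ) : ℂ) := by
  have hind : ∀ (f g : Fin n → ℕ), (∏ i, if f i = g i then (1 : ℂ) else 0) =
      if f = g then 1 else 0 := by
    intro f g
    rw [Finset.prod_boole]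
    simp [funext_iff]
  have h1 : ∀ c c1 c2 : Perm (Fin n),
      ∏ i, tensOf X ((rowf T ∘ c) i) (rowf U (c1 i)) (rowf W (c2 i)) =
        ∑ x : Fin n → Fin X.length, (∏ i, ((X.get (x i)).2.2.2 : ℂ)) *
          (if rowf T ∘ c = fun i => (X.get (x i)).1 then 1 else 0) *
          (if rowf U ∘ c1 = fun i => (X.get (x i)).2.1 then 1 else 0) *
          (if rowf W ∘ c2 = fun i => (X.get (x i)).2.2.1 then 1 else 0) := by
    intro c c1 c2
    unfold tensOf
    rw [Finset.prod_univ_sum, Fintype.piFinset_univ]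
    refine Finset.sum_congr rfl fun x _ => ?_
    rw [Finset.prod_mul_distrib, Finset.prod_mul_distrib, Finset.prod_mul_distrib, ← hind, ← hind,
      ← hind]
    simp only [Function.comp_apply]
    ring
  rw [dfs_eq]
  push_cast
  rw [Finset.mul_sum]
  simp only [tens_ptab, h1, Finset.mul_sum]
  have hs : ∀ (F : Perm (Fin n) → Perm (Fin n) → Perm (Fin n) → (Fin n → Fin X.length) → ℂ),
      ∑ c ∈ stab univ (colf T), ∑ c1 ∈ stab univ (colf U), ∑ c2 ∈ stab univ (colf W), ∑ x, F c c1 c2 x =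
        ∑ x, ∑ c ∈ stab univ (colf T), ∑ c1 ∈ stab univ (colf U), ∑ c2 ∈ stab univ (colf W),
          F c c1 c2 x := by
    intro F
    rw [Finset.sum_comm (t := stab univ (colf T))]
    refine Finset.sum_congr rfl fun c _ => ?_
    rw [Finset.sum_comm (t := stab univ (colf U))]
    refine Finset.sum_congr rfl fun c1 _ => ?_
    rw [Finset.sum_comm]
  rw [hs]
  refine Finset.sum_congr rfl fun x _ => ?_
  have e1 := coef_eq hT fun i => (X.get (x i)).1
  have e2 := coef_eq hU fun i => (X.get (x i)).2.1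
  have e3 := coef_eq hW fun i => (X.get (x i)).2.2.1
  push_cast at e1 e2 e3
  calc _ = (∏ i, ((X.get (x i)).2.2.2 : ℂ)) *
        (∑ c ∈ stab univ (colf T), if rowf T ∘ c = fun i => (X.get (x i)).1 then sg c else 0) *
        (∑ c ∈ stab univ (colf U), if rowf U ∘ c = fun i => (X.get (x i)).2.1 then sg c else 0) *
        (∑ c ∈ stab univ (colf W), if rowf W ∘ c = fun i => (X.get (x i)).2.2.1 then sg c else 0) := by
        rw [Finset.mul_sum (stab univ (colf T)), Finset.sum_mul, Finset.sum_mul]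
        refine Finset.sum_congr rfl fun c _ => ?_
        rw [Finset.mul_sum (stab univ (colf U)), Finset.sum_mul]
        refine Finset.sum_congr rfl fun c1 _ => ?_
        rw [Finset.mul_sum]
        refine Finset.sum_congr rfl fun c2 _ => ?_
        split_ifs <;> ring
    _ = _ := by
        rw [e1, e2, e3]
        ring

end Crest.Agent.R195
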