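/- Row 195, task Twist: irreducibility of Specht modules and the sign twist. -/
import Crest.Agent.R195.GT

set_option autoImplicit false

namespace Crest.Agent.R195

open Equiv Finset

variable {ι : Type} [Fintype ι] [DecidableEq ι]

/-- irreducibility (James): `exists_palt_apply_ne_zero`, `act_palt_eq_smul_ptab`, `wrep_ptab` -/
theorem Spec_irred {κ : YoungDiagram} {v w : WM ι} (hv : v ∈ Spec univ κ) (h0 : v ≠ 0)
    (hw : w ∈ Spec univ κ) : ∃ a : GA ι, act a v = w := by
  obtain ⟨T, hT, hc⟩ := exists_palt_apply_ne_zero hv h0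
  have hw1 := act_palt_eq_smul_ptab hT (Spec_le_HW _ _ hv).1
  set c := act (palt univ (colf T)) v (rowf T) with hcdef
  refine Submodule.span_induction (p := fun w _ => ∃ a : GA ι, act a v = w) ?_ ?_ ?_ ?_ hw
  · rintro _ ⟨T', hT', rfl⟩
    obtain ⟨g, hg, hgT⟩ := hT.exists_perm hT'
    have hT'' : T' = T ∘ g.symm := funext fun i => hgT i (mem_univ i)
    refine ⟨el g * (c⁻¹ • palt univ (colf T)), ?_⟩
    rw [act_mul_apply, map_smul, LinearMap.smul_apply, hw1, smul_smul, inv_mul_cancel₀ hc,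
      one_smul, act_el, wrep_ptab hg, hT'']
  · exact ⟨0, by simp⟩
  · rintro x y _ _ ⟨a, rfl⟩ ⟨b, rfl⟩
    exact ⟨a + b, by simp⟩
  · rintro r x _ ⟨a, rfl⟩
    exact ⟨r • a, by simp⟩

/-- the twisting map attached to a word `x` and a vector `s` -/
noncomputable def Twist_J (x : ι → ℕ) (s : WM ι) : WM ι →ₗ[ℂ] WM ι :=
  ∑ g : Perm ι, sg g • LinearMap.smulRight (Finsupp.lapply (x ∘ g.symm)) (wrep ι g s)

theorem Twist_J_apply (x : ι → ℕ) (s v : WM ι) :
    Twist_J x s v = ∑ g : Perm ι, (sg g * v (x ∘ g.symm)) • wrep ι g s := by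
  simp [Twist_J, LinearMap.sum_apply, smul_smul]

theorem Twist_J_wrep (x : ι → ℕ) (s v : WM ι) (h : Perm ι) :
    Twist_J x s (wrep ι h v) = sg h • wrep ι h (Twist_J x s v) := by
  rw [Twist_J_apply, Twist_J_apply, map_sum, Finset.smul_sum]
  rw [← Equiv.sum_comp (Equiv.mulLeft h)]
  refine Finset.sum_congr rfl fun g _ => ?_
  have h1 : (x ∘ (h * g).symm) ∘ h = x ∘ g.symm := by
    funext i
    simp [Perm.mul_def]
  simp only [Equiv.coe_mulLeft]
  rw [wrep_apply, h1, map_smul, smul_smul, sg_mul, map_mul, Module.End.mul_apply, mul_assoc]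

theorem Twist_J_act (x : ι → ℕ) (s : WM ι) (a : GA ι) (v : WM ι) :
    Twist_J x s (act a v) = act (omega a) (Twist_J x s v) := by
  refine GP_induction (P := univ)
    (p := fun a => Twist_J x s (act a v) = act (omega a) (Twist_J x s v)) ?_ ?_ ?_ ?_ a
    (mem_GP_univ a)
  · simp
  · intro g _
    rw [act_el, omega_el, map_smul, LinearMap.smul_apply, act_el, Twist_J_wrep]
  · intro a b ha hb
    simp only [map_add, LinearMap.add_apply, ha, hb]
  · intro c a ha
    simp only [map_smul, LinearMap.smul_apply, ha]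

theorem Twist_J_single (x : ι → ℕ) (s : WM ι) :
    Twist_J x s (Finsupp.single x 1) = act (palt univ x) s := by
  rw [Twist_J_apply, act_palt_eq, stab, Finset.sum_filter]
  refine Finset.sum_congr rfl fun g _ => ?_
  by_cases hg : (∀ i, i ∉ (univ : Finset ι) → g i = i) ∧ ∀ i, x (g i) = x i
  · rw [if_pos hg]
    have : x ∘ g.symm = x := by
      funext i
      have := hg.2 (g.symm i)
      simpa using this.symm
    rw [this, Finsupp.single_eq_same, mul_one]
  · rw [if_neg hg]
    have : x ∘ g.symm ≠ x := by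
      intro h
      refine hg ⟨fun i hi => absurd (mem_univ i) hi, fun i => ?_⟩
      have := congrFun h (g i)
      simpa using this.symm
    rw [Finsupp.single_eq_of_ne this, mul_zero, zero_smul]

theorem Twist_psym_apply_self (x : ι → ℕ) (v : WM ι) :
    act (psym univ x) v x = ((stab univ x).card : ℂ) * v x := by
  rw [act_psym_apply, ← nsmul_eq_mul, ← Finset.sum_const]
  refine Finset.sum_congr rfl fun σ hσ => ?_
  have : x ∘ σ = x := funext fun i => (mem_stab.1 hσ).2 i
  rw [this]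

/-- `J (single x 1) = ∑ g with wact g (rowf T) = x, sg g • wrep g (single (colf T) 1)`.
`J (ptab univ T) = act (psym univ (colf T)) (ptab univ (Prod.swap ∘ T))` has coefficient
`|stab univ (colf T)|` at `colf T`; injectivity on the Specht module by `Spec_irred`. -/
theorem exists_J {T : ι → ℕ × ℕ} {κ : YoungDiagram} (hT : IsTab univ T κ) :
    ∃ J : WM ι →ₗ[ℂ] WM ι, (∀ a v, J (act a v) = act (omega a) (J v)) ∧
      (∀ v, J v ∈ Spec univ κ.transpose) ∧ ∀ v ∈ Spec univ κ, J v = 0 → v = 0 := by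
  refine ⟨Twist_J (rowf T) (ptab univ (Prod.swap ∘ T)), Twist_J_act _ _, fun v => ?_, ?_⟩
  · rw [Twist_J_apply]
    refine Submodule.sum_mem _ fun g _ => Submodule.smul_mem _ _ ?_
    rw [wrep_ptab (mem_SP_univ g)]
    exact ptab_mem_Spec (hT.swap.comp (mem_SP_univ g))
  · intro v hv hJ
    by_contra h0
    obtain ⟨a, ha⟩ := Spec_irred hv h0 (ptab_mem_Spec hT)
    have h1 : Twist_J (rowf T) (ptab univ (Prod.swap ∘ T)) (ptab univ T) = 0 := by
      rw [← ha, Twist_J_act, hJ, map_zero]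
    have h2 : act (palt univ (rowf T)) (ptab univ (Prod.swap ∘ T)) =
        ((stab univ (rowf T)).card : ℂ) • ptab univ (Prod.swap ∘ T) := by
      have hc : colf (Prod.swap ∘ T) = rowf T := rfl
      rw [ptab, hc, ← act_mul_apply, palt_mul_palt (Finset.Subset.refl _), map_smul,
        LinearMap.smul_apply]
    have h3 : Twist_J (rowf T) (ptab univ (Prod.swap ∘ T)) (ptab univ T) =
        act (psym univ (colf T))
          (((stab univ (rowf T)).card : ℂ) • ptab univ (Prod.swap ∘ T)) := by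
      conv_lhs => rw [ptab.eq_1 univ T]
      rw [Twist_J_act, omega_palt, Twist_J_single, h2]
    rw [h3] at h1
    have h4 := congrArg (fun w : WM ι => w (colf T)) h1
    simp only [Twist_psym_apply_self, Finsupp.smul_apply, smul_eq_mul, Finsupp.zero_apply] at h4
    have h5 : ptab univ (Prod.swap ∘ T) (colf T) = 1 := ptab_apply_row hT.swap
    rw [h5, mul_one] at h4
    exact mul_ne_zero (card_stab_ne_zero _ _) (card_stab_ne_zero _ _) h4

theorem IsGT.twist {τ : ι → ℤ} {T : ι → ℕ × ℕ} {κ : YoungDiagram} {v : WM ι}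
    {J : WM ι →ₗ[ℂ] WM ι} (h1 : ∀ a v, J (act a v) = act (omega a) (J v))
    (h2 : ∀ v, J v ∈ Spec univ κ.transpose) (hv : IsGT τ T κ v) :
    IsGT τ (Prod.swap ∘ T) κ.transpose (J v) := by
  refine ⟨h2 v, fun P μ hP hμ => ?_⟩
  have hμ' : IsTab P T μ.transpose := hμ.swap
  have hiso := hv.2 P _ hP hμ'
  intro T' ν hT' hne
  have hne' : ν.transpose ≠ μ.transpose := fun h => hne (YoungDiagram.transpose_eq_iff.1 h)
  rw [← omega_omega (yc P T'), ← h1,
    act_Idl_eq_zero hne' (omega_mem_Idl (yc_mem_Idl hT')) hiso, map_zero]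

/-- extend `φ ∘ J⁻¹` from the image of the Specht module -/
theorem twist_mcs {τ : ι → ℤ} {T : ι → ℕ × ℕ} {κ : YoungDiagram} (hT : IsTab univ T κ)
    {α : Perm ι → ℂ} (hα : α ∈ mcs τ T κ) :
    (fun g => sg g * α g) ∈ mcs τ (Prod.swap ∘ T) κ.transpose := by
  obtain ⟨v, φ, hv, hα⟩ := hα
  obtain ⟨J, h1, h2, h3⟩ := exists_J hT
  have hker : LinearMap.ker (J ∘ₗ (Spec univ κ).subtype) = ⊥ := by
    rw [LinearMap.ker_eq_bot']
    intro w hw
    exact Subtype.ext (h3 w.1 w.2 hw)
  obtain ⟨K, hK⟩ := LinearMap.exists_leftInverse_of_injective (K := ℂ)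
    (V := Spec (univ : Finset ι) κ) (V' := WM ι) (J ∘ₗ (Spec univ κ).subtype) hker
  refine ⟨J v, φ ∘ₗ (Spec univ κ).subtype ∘ₗ K, hv.twist h1 h2, fun g => ?_⟩
  have hmem : wrep ι g v ∈ Spec univ κ := by
    rw [← act_el]
    exact Spec_act (Or.inl (Finset.Subset.refl _)) (el_mem_GP (mem_SP_univ g)) hv.1
  have h4 : wrep ι g (J v) = sg g • J (wrep ι g v) := by
    rw [← act_el g v, h1, omega_el, map_smul, LinearMap.smul_apply, act_el, smul_smul,
      sg_mul_self, one_smul]
  have h5 : K (J (wrep ι g v)) = ⟨wrep ι g v, hmem⟩ :=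
    LinearMap.congr_fun hK ⟨wrep ι g v, hmem⟩
  simp only [h4, map_smul, LinearMap.comp_apply, h5, Submodule.subtype_apply, smul_eq_mul, hα g]

theorem good_twist {τ : ι → ℤ} {T1 T2 : ι → ℕ × ℕ} {κ1 κ2 l : YoungDiagram}
    (hT : IsTab univ T2 κ2) (h : Good τ T1 T2 κ1 κ2 l) :
    Good τ T1 (Prod.swap ∘ T2) κ1 κ2.transpose l.transpose := by
  obtain ⟨α, hα, β, hβ, T, hTl, hne⟩ := h
  refine ⟨α, hα, _, twist_mcs hT hβ, ?_⟩
  have h1 : Aelt α (fun g => sg g * β g) = omega (Aelt α β) := by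
    rw [Aelt, Aelt, map_sum]
    refine Finset.sum_congr rfl fun g _ => ?_
    rw [map_smul, omega_el, smul_smul, sg_inv]
    congr 1
    ring
  have h2 : omega (Aelt α β) * omega (yc univ T) ≠ 0 := by
    rw [← map_mul]
    intro h0
    apply hne
    rw [← omega_omega (Aelt α β * yc univ T), h0, map_zero]
  rw [h1]
  exact exists_tab_of_mul_Idl (omega_mem_Idl (yc_mem_Idl hTl)) h2

/-- `J v` is a nonzero GT vector of the transposed tableau, so its coefficient at `colf T` is
nonzero (`GT_unique`), so `act (psym univ (colf T)) (J v) ≠ 0`. -/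
theorem GT_palt_ne_zero {τ : ι → ℤ} {T : ι → ℕ × ℕ} {κ : YoungDiagram} (h : Std τ T κ)
    {v : WM ι} (hv : IsGT τ T κ v) (h0 : v ≠ 0) : act (palt univ (colf T)) v ≠ 0 := by
  obtain ⟨J, h1, h2, h3⟩ := exists_J h.2.1
  have hJ := hv.twist h1 h2
  have hJ0 : J v ≠ 0 := fun h' => h0 (h3 v hv.1 h')
  have hc : J v (colf T) ≠ 0 := fun h' => hJ0 (GT_unique h.swap hJ h')
  intro hz
  have h4 : act (psym univ (colf T)) (J v) = 0 := by
    rw [← omega_palt, ← h1, hz, map_zero]
  have h5 := congrArg (fun w : WM ι => w (colf T)) h4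
  simp only [Twist_psym_apply_self, Finsupp.zero_apply] at h5
  exact mul_ne_zero (card_stab_ne_zero _ _) hc h5

end Crest.Agent.R195
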