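/- Row 195: certificate checker for the base cases and its soundness. -/
import Crest.Agent.R195.Dfs
import Crest.Agent.R195.Twist
import Crest.Agent.R195.Cover

set_option autoImplicit false

namespace Crest.Agent.R195

open Equiv Finset

variable {ι : Type} [Fintype ι] [DecidableEq ι]

omit [Fintype ι] [DecidableEq ι]

/-- entry of a list -/
def gt (L : List (ℕ × ℕ)) (i : ℕ) : ℕ × ℕ := L.getD i (0, 0)
/-- a list as a filling -/
def toF (n : ℕ) (L : List (ℕ × ℕ)) : Fin n → ℕ × ℕ := fun i => gt L i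
/-- transposition of natural numbers -/
def swapN (p q i : ℕ) : ℕ := if i = p then q else if i = q then p else i
/-- swap two entries -/
def swapL (n : ℕ) (pq : ℕ × ℕ) (L : List (ℕ × ℕ)) : List (ℕ × ℕ) :=
  (List.range n).map fun i => gt L (swapN pq.1 pq.2 i)
/-- all terms of the symmetrised polytabloid -/
def terms (n : ℕ) : List (ℕ × ℕ) → List (ℕ × ℕ) → List (List (ℕ × ℕ))
  | [], L => [L]
  | pq :: ps, L => terms n ps L ++ (terms n ps L).map (swapL n pq)
/-- transposition of `Fin n` -/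
def sw (n : ℕ) (pq : ℕ × ℕ) : Perm (Fin n) :=
  if h : pq.1 < n ∧ pq.2 < n then swap ⟨pq.1, h.1⟩ ⟨pq.2, h.2⟩ else 1
/-- sum of polytabloids -/
noncomputable def vecL (n : ℕ) (ts : List (List (ℕ × ℕ))) : WM (Fin n) :=
  (ts.map fun M => ptab univ (toF n M)).sum
/-- column length -/
def lenOf (n : ℕ) (M : List (ℕ × ℕ)) (c : ℕ) : ℕ :=
  ((List.range n).filter fun i => (gt M i).2 == c).length
/-- column and column length -/
def clN (n : ℕ) (M : List (ℕ × ℕ)) (i : ℕ) : ℕ × ℕ := ((gt M i).2, lenOf n M (gt M i).2)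
/-- product of local factors along a list -/
def sgL : List ((ℕ × ℕ) × ℕ) → List (ℕ × ℕ) → ℤ
  | [], _ => 1
  | d :: D, p => locB d.1.1 d.1.2 d.2 p * sgL D ((d.1.1, d.2) :: p)
/-- global sign of a filling -/
def gs (n : ℕ) (M : List (ℕ × ℕ)) : ℤ := sgL ((List.range n).map fun i => (clN n M i, (gt M i).1)) []
/-- value of the network -/
def netV (n : ℕ) (X : List Ent) (T U W : List (ℕ × ℕ)) : ℤ :=
  gs n T * gs n U * gs n W *
    dfs X ((List.range n).map fun i => (clN n T i, clN n U i, clN n W i)) [] [] []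
/-- total value -/
def totV (n : ℕ) (X : List Ent) (T : List (ℕ × ℕ)) (us ws : List (List (ℕ × ℕ))) : ℤ :=
  (us.map fun U => (ws.map fun W => netV n X T U W).sum).sum

theorem ofFn_eq_map_range {α : Type} (n : ℕ) (f : ℕ → α) :
    List.ofFn (fun i : Fin n => f i) = (List.range n).map f := by
  apply List.ext_getElem <;> simp

theorem card_filter_fin (n : ℕ) (q : ℕ → Bool) :
    (univ.filter fun i : Fin n => q i = true).card = ((List.range n).filter q).length := by
  have h1 : (univ.filter fun i : Fin n => q i = true).card =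
      ((range n).filter fun i => q i = true).card := by
    refine Finset.card_bij (fun i _ => (i : ℕ)) ?_ ?_ ?_
    · intro i hi; simpa using hi
    · intro i _ j _ h; exact Fin.ext h
    · intro j hj
      obtain ⟨h1, h2⟩ := mem_filter.1 hj
      exact ⟨⟨j, mem_range.1 h1⟩, by simpa using h2, rfl⟩
  rw [h1, Finset.card_def, Finset.filter_val]
  change Multiset.card (Multiset.filter _ ((List.range n : List ℕ) : Multiset ℕ)) = _
  rw [Multiset.filter_coe, Multiset.coe_card]
  simp

theorem colLen_eq_lenOf {n : ℕ} {M : List (ℕ × ℕ)} {μ : YoungDiagram} (h : IsTab univ (toF n M) μ)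
    (c : ℕ) : μ.colLen c = lenOf n M c := by
  rw [← h.wt_colf c, lenOf, ← card_filter_fin n fun i => (gt M i).2 == c]
  simp [wt, colf, toF]

theorem cl_eq {n : ℕ} {M : List (ℕ × ℕ)} {μ : YoungDiagram} (h : IsTab univ (toF n M) μ) :
    cl (toF n M) μ = fun i : Fin n => clN n M i := by
  funext i
  simp only [cl, clN, colLen_eq_lenOf h, toF]

theorem sgL_eq : ∀ (n : ℕ) (d : Fin n → ℕ × ℕ) (y : Fin n → ℕ) (p : List (ℕ × ℕ)),
    sgL (List.ofFn fun i => (d i, y i)) p = sgP d y p := by
  intro n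
  induction n with
  | zero => intro d y p; simp [sgL, sgP]
  | succ n ih =>
    intro d y p
    rw [List.ofFn_succ, sgL, ih]
    conv_rhs => rw [← Fin.cons_self_tail y, sgP_cons]
    rfl

theorem gs_eq {n : ℕ} {M : List (ℕ × ℕ)} {μ : YoungDiagram} (h : IsTab univ (toF n M) μ) :
    sgP (cl (toF n M) μ) (rowf (toF n M)) [] = gs n M := by
  rw [← sgL_eq, cl_eq h, gs, ← ofFn_eq_map_range]
  rfl

theorem net_eq' {n : ℕ} {T U W : List (ℕ × ℕ)} {l κ κ' : YoungDiagram}
    (hT : IsTab univ (toF n T) l) (hU : IsTab univ (toF n U) κ) (hW : IsTab univ (toF n W) κ')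
    (X : List Ent) :
    ∑ c ∈ stab univ (colf (toF n T)), sg c * tens (tensOf X) (rowf (toF n T) ∘ c)
      (ptab univ (toF n U)) (ptab univ (toF n W)) = (netV n X T U W : ℂ) := by
  rw [net_eq hT hU hW, gs_eq hT, gs_eq hU, gs_eq hW, cl_eq hT, cl_eq hU, cl_eq hW, netV,
    ← ofFn_eq_map_range]

theorem tot_eq {n : ℕ} {T : List (ℕ × ℕ)} {l κ κ' : YoungDiagram} (hT : IsTab univ (toF n T) l)
    (X : List Ent) (us ws : List (List (ℕ × ℕ))) (hU : ∀ U ∈ us, IsTab univ (toF n U) κ)
    (hW : ∀ W ∈ ws, IsTab univ (toF n W) κ') :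
    ∑ c ∈ stab univ (colf (toF n T)), sg c * tens (tensOf X) (rowf (toF n T) ∘ c)
      (vecL n us) (vecL n ws) = (totV n X T us ws : ℂ) := by
  induction us with
  | nil => simp [vecL, totV]
  | cons U us ih =>
    have h1 : ∀ ws : List (List (ℕ × ℕ)), (∀ W ∈ ws, IsTab univ (toF n W) κ') →
        ∑ c ∈ stab univ (colf (toF n T)), sg c * tens (tensOf X) (rowf (toF n T) ∘ c)
          (ptab univ (toF n U)) (vecL n ws) = (((ws.map fun W => netV n X T U W).sum : ℤ) : ℂ) := by
      intro ws hW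
      induction ws with
      | nil => simp [vecL]
      | cons W ws ih' =>
        have := ih' fun W' h => hW W' (List.mem_cons_of_mem _ h)
        simp only [vecL, List.map_cons, List.sum_cons, map_add, mul_add, Finset.sum_add_distrib,
          Int.cast_add] at this ⊢
        rw [this, net_eq' hT (hU U List.mem_cons_self) (hW W List.mem_cons_self)]
    have h2 := ih fun U' h => hU U' (List.mem_cons_of_mem _ h)
    have h3 := h1 ws hW
    simp only [vecL, totV, List.map_cons, List.sum_cons, map_add, LinearMap.add_apply, mul_add,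
      Finset.sum_add_distrib, Int.cast_add] at h2 h3 ⊢
    rw [h2, h3]

theorem sw_val {n : ℕ} {pq : ℕ × ℕ} (h : pq.1 < n ∧ pq.2 < n) (i : Fin n) :
    ((sw n pq i : Fin n) : ℕ) = swapN pq.1 pq.2 i := by
  simp only [sw, dif_pos h, swapN, swap_apply_def, Fin.ext_iff]
  split_ifs <;> rfl

theorem sw_symm (n : ℕ) (pq : ℕ × ℕ) : (sw n pq).symm = sw n pq := by
  unfold sw; split_ifs
  · exact symm_swap _ _
  · rfl

theorem sw_mul_self (n : ℕ) (pq : ℕ × ℕ) : sw n pq * sw n pq = 1 := by
  unfold sw; split_ifs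
  · exact swap_mul_self _ _
  · rfl

theorem toF_swapL {n : ℕ} {pq : ℕ × ℕ} (h : pq.1 < n ∧ pq.2 < n) (L : List (ℕ × ℕ)) :
    toF n (swapL n pq L) = toF n L ∘ (sw n pq).symm := by
  funext i
  rw [sw_symm]
  simp only [toF, Function.comp_apply, sw_val h]
  simp [gt, swapL]

theorem vecL_terms_cons {n : ℕ} {pq : ℕ × ℕ} (h : pq.1 < n ∧ pq.2 < n) (ps L : List (ℕ × ℕ)) :
    vecL n (terms n (pq :: ps) L) =
      vecL n (terms n ps L) + wrep _ (sw n pq) (vecL n (terms n ps L)) := by
  simp only [vecL, terms, List.map_append, List.sum_append, List.map_map, map_list_sum]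
  congr 2
  refine List.map_congr_left fun M _ => ?_
  simp only [Function.comp_apply]
  rw [wrep_ptab (mem_SP_univ _), toF_swapL h]

theorem isTab_terms {n : ℕ} {κ : YoungDiagram} {L : List (ℕ × ℕ)} (hL : IsTab univ (toF n L) κ) :
    ∀ ps : List (ℕ × ℕ), (∀ pq ∈ ps, pq.1 < n ∧ pq.2 < n) →
      ∀ M ∈ terms n ps L, IsTab univ (toF n M) κ := by
  intro ps
  induction ps with
  | nil => intro _ M hM; simp only [terms, List.mem_singleton] at hM; rw [hM]; exact hL
  | cons pq ps ih =>
    intro h M hM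
    have ih' := ih fun x hx => h x (List.mem_cons_of_mem _ hx)
    simp only [terms, List.mem_append, List.mem_map] at hM
    rcases hM with hM | ⟨M', hM', rfl⟩
    · exact ih' M hM
    · rw [toF_swapL (h pq List.mem_cons_self)]
      exact (ih' M' hM').comp (mem_SP_univ _)

theorem vecL_mem_Spec {n : ℕ} {κ : YoungDiagram} {ts : List (List (ℕ × ℕ))}
    (h : ∀ M ∈ ts, IsTab univ (toF n M) κ) : vecL n ts ∈ Spec univ κ := by
  refine list_sum_mem fun x hx => ?_
  obtain ⟨M, hM, rfl⟩ := List.mem_map.1 hx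
  exact ptab_mem_Spec (h M hM)

/-- disjoint pairs -/
def disj (x y : ℕ × ℕ) : Bool := x.1 != y.1 && x.1 != y.2 && x.2 != y.1 && x.2 != y.2
/-- the pairs are in range and pairwise disjoint -/
def psOK (n : ℕ) : List (ℕ × ℕ) → Bool
  | [] => true
  | x :: ps => decide (x.1 < n) && decide (x.2 < n) && ps.all (disj x) && psOK n ps

theorem psOK_lt {n : ℕ} : ∀ {ps : List (ℕ × ℕ)}, psOK n ps = true → ∀ pq ∈ ps, pq.1 < n ∧ pq.2 < n
  | [], _, _, h => by simp at h
  | x :: ps, h, pq, hpq => by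
    simp only [psOK, Bool.and_eq_true, decide_eq_true_eq] at h
    rcases List.mem_cons.1 hpq with rfl | h'
    · exact h.1.1
    · exact psOK_lt h.2 pq h'

theorem sw_comm {n : ℕ} {x y : ℕ × ℕ} (hx : x.1 < n ∧ x.2 < n) (hy : y.1 < n ∧ y.2 < n)
    (h : disj x y = true) : sw n x * sw n y = sw n y * sw n x := by
  simp only [disj, Bool.and_eq_true, bne_iff_ne] at h
  ext i
  simp only [Perm.mul_apply, sw_val hx, sw_val hy, swapN]
  split_ifs <;> omega

theorem vecL_inv {n : ℕ} (L : List (ℕ × ℕ)) : ∀ ps : List (ℕ × ℕ), psOK n ps = true →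
    ∀ pq ∈ ps, wrep _ (sw n pq) (vecL n (terms n ps L)) = vecL n (terms n ps L) := by
  intro ps
  induction ps with
  | nil => intro _ pq h; simp at h
  | cons x ps ih =>
    intro h pq hpq
    have hlt := psOK_lt h
    simp only [psOK, Bool.and_eq_true, decide_eq_true_eq, List.all_eq_true] at h
    rw [vecL_terms_cons (hlt x List.mem_cons_self), map_add]
    rcases List.mem_cons.1 hpq with rfl | h'
    · rw [← Module.End.mul_apply, ← map_mul, sw_mul_self, map_one, Module.End.one_apply, add_comm]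
    · rw [← Module.End.mul_apply, ← map_mul,
        ← sw_comm (hlt x List.mem_cons_self) (hlt pq hpq) (h.1.2 pq h'), map_mul,
        Module.End.mul_apply, ih h.2 pq h']

/-- maximum of a list -/
def mx (l : List ℕ) : ℕ := l.foldr max 0

theorem le_mx {l : List ℕ} {x : ℕ} (h : x ∈ l) : x ≤ mx l := by
  induction l with
  | nil => simp at h
  | cons y l ih =>
    simp only [mx, List.foldr_cons]
    rcases List.mem_cons.1 h with rfl | h'
    · exact le_max_left _ _
    · exact (ih h').trans (le_max_right _ _)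

/-- number of values of `f` on the positions satisfying `q` -/
def nVal (n : ℕ) (q : ℕ → Bool) (f : ℕ → ℕ) : ℕ := (((List.range n).filter q).map f).dedup.length

theorem pigeon {n : ℕ} {q : ℕ → Bool} (f : ℕ → ℕ) {S : Finset (Fin n)} (hS : ∀ i ∈ S, q i = true)
    (h : nVal n q f < S.card) : ∃ i ∈ S, ∃ j ∈ S, i ≠ j ∧ f i = f j := by
  refine Finset.exists_ne_map_eq_of_card_lt_of_maps_to
    (t := (((List.range n).filter q).map f).toFinset) (f := fun i : Fin n => f i) ?_ ?_
  · rw [List.card_toFinset]; exact h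
  · intro i hi
    exact Finset.mem_coe.2 (List.mem_toFinset.2 (List.mem_map.2
      ⟨i, List.mem_filter.2 ⟨List.mem_range.2 i.2, hS i hi⟩, rfl⟩))

/-- bound for the number of columns -/
def nJ (n : ℕ) (ts : List (List (ℕ × ℕ))) (q : ℕ → Bool) : ℕ :=
  mx (ts.map fun M => nVal n q fun i => (gt M i).2)
/-- bound for the letters -/
def nL (n : ℕ) (ts : List (List (ℕ × ℕ))) (q : ℕ → Bool) : ℕ :=
  mx (ts.map fun M => mx (((List.range n).filter q).map fun i => lenOf n M (gt M i).2))
/-- blocks of the symmetrisation -/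
def blk (ps : List (ℕ × ℕ)) (i : ℕ) : ℕ :=
  match ps.find? (fun pq => pq.2 == i) with
  | some pq => pq.1
  | none => i
/-- the blocks are the pairs -/
def blkOK (n : ℕ) (ps : List (ℕ × ℕ)) : Bool :=
  (List.range n).all fun i => (List.range n).all fun j =>
    i == j || blk ps i != blk ps j || ps.contains (i, j) || ps.contains (j, i)
/-- bound for the number of rows -/
def nI (n : ℕ) (ps : List (ℕ × ℕ)) (ts : List (List (ℕ × ℕ))) (q : ℕ → Bool) : ℕ :=
  min (nL n ts q) (nVal n q (blk ps))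

theorem act_vecL_eq_zero {n : ℕ} {a : GA (Fin n)} {ts : List (List (ℕ × ℕ))}
    (h : ∀ M ∈ ts, act a (ptab univ (toF n M)) = 0) : act a (vecL n ts) = 0 := by
  rw [vecL, map_list_sum, List.map_map]
  refine List.sum_eq_zero fun x hx => ?_
  obtain ⟨M, hM, rfl⟩ := List.mem_map.1 hx
  exact h M hM

theorem sym_vecL {n : ℕ} (ts : List (List (ℕ × ℕ))) {q : ℕ → Bool} {S : Finset (Fin n)}
    (hS : ∀ i ∈ S, q i = true) (hc : S.card = nJ n ts q + 1) : act (sym S) (vecL n ts) = 0 := by
  refine act_vecL_eq_zero fun M hM => ?_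
  have h1 : nVal n q (fun i => (gt M i).2) ≤ nJ n ts q :=
    le_mx (List.mem_map.2 ⟨M, hM, rfl⟩)
  obtain ⟨i, hi, j, hj, hij, h⟩ := pigeon (fun i => (gt M i).2) hS (by omega)
  rw [ptab, ← act_mul_apply, sym,
    psym_mul_palt_eq_zero hij hi hj (mem_univ _) (mem_univ _) rfl h, map_zero, LinearMap.zero_apply]

theorem alt_vecL {n : ℕ} {κ : YoungDiagram} {ps L : List (ℕ × ℕ)} (hL : IsTab univ (toF n L) κ)
    (h1 : psOK n ps = true) (h2 : blkOK n ps = true) {q : ℕ → Bool} {S : Finset (Fin n)}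
    (hS : ∀ i ∈ S, q i = true) (hc : S.card = nI n ps (terms n ps L) q + 1) :
    act (alt S) (vecL n (terms n ps L)) = 0 := by
  rcases le_total (nL n (terms n ps L) q) (nVal n q (blk ps)) with h | h
  · rw [nI, min_eq_left h] at hc
    refine act_vecL_eq_zero fun M hM => ?_
    have hM' := isTab_terms hL ps (psOK_lt h1) M hM
    rw [← Finsupp.sum_single (ptab univ (toF n M)), Finsupp.sum, map_sum]
    refine Finset.sum_eq_zero fun x hx => ?_
    have hb : ∀ i ∈ S, x i ∈ range (nL n (terms n ps L) q) := fun i hi => by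
      have h3 := ptab_apply_lt hM' (Finsupp.mem_support_iff.1 hx) (mem_univ i)
      rw [colLen_eq_lenOf hM'] at h3
      refine mem_range.2 (h3.trans_le (le_trans ?_ (le_mx (List.mem_map.2 ⟨M, hM, rfl⟩))))
      refine le_mx (List.mem_map.2 ⟨i, ?_, rfl⟩)
      simp [hS i hi]
    obtain ⟨i, hi, j, hj, hij, h⟩ := Finset.exists_ne_map_eq_of_card_lt_of_maps_to
      (s := S) (t := range (nL n (terms n ps L) q)) (f := x) (by rw [card_range]; omega) hb
    exact act_palt_single_eq_zero hij hi hj rfl h _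
  · rw [nI, min_eq_right h] at hc
    obtain ⟨i, hi, j, hj, hij, h3⟩ := pigeon (blk ps) hS (by omega)
    simp only [blkOK, List.all_eq_true, List.mem_range, Bool.or_eq_true, beq_iff_eq, bne_iff_ne,
      List.contains_iff_mem] at h2
    have h4 := h2 i i.2 j j.2
    have hne : (i : ℕ) ≠ j := fun h => hij (Fin.ext h)
    refine act_palt_eq_zero_of_swap hij hi hj rfl ?_
    rcases h4 with ((h4 | h4) | h4) | h4
    · exact absurd h4 hne
    · exact absurd h3 h4
    · have := vecL_inv L ps h1 _ h4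
      rwa [sw, dif_pos ⟨i.2, j.2⟩] at this
    · have := vecL_inv L ps h1 _ h4
      rw [sw, dif_pos ⟨j.2, i.2⟩] at this
      rwa [swap_comm]

/-- the list is a tableau of the shape with row lengths `l` -/
def fits (n : ℕ) (l : List ℕ) (M : List (ℕ × ℕ)) : Bool :=
  ((List.range n).all fun i => decide ((gt M i).2 < l.getD (gt M i).1 0)) &&
    decide ((List.range n).map (gt M)).Nodup

theorem isTab_of_fits {n : ℕ} {μ : YoungDiagram} (hc : μ.card = n) {M : List (ℕ × ℕ)}
    (h : fits n μ.rowLens M = true) : IsTab univ (toF n M) μ := by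
  simp only [fits, Bool.and_eq_true, List.all_eq_true, List.mem_range, decide_eq_true_eq] at h
  refine isTab_of_card (fun i _ => ?_) (fun i _ j _ hij => ?_) (by simp [hc])
  · have := h.1 i i.2
    rw [← rowLen_eq_getD] at this
    exact YoungDiagram.mem_iff_lt_rowLen.2 this
  · exact Fin.ext (List.inj_on_of_nodup_map h.2 (List.mem_range.2 i.2) (List.mem_range.2 j.2) hij)

/-- a certificate -/
structure Cert where
  T : List (ℕ × ℕ)
  U : List (ℕ × ℕ)
  pu : List (ℕ × ℕ)
  W : List (ℕ × ℕ)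
  pw : List (ℕ × ℕ)
  X : List Ent

/-- the envelope check -/
def envOK (n a : ℕ) (c : Cert) : Bool :=
  (List.range n).all fun k => decide
    (max (nI n c.pw (terms n c.pw c.W) fun i => decide (i ≤ k))
        (nJ n (terms n c.pw c.W) fun i => decide (i ≤ k)) +
      max (nI n c.pu (terms n c.pu c.U) fun i => decide (k ≤ i))
        ((nJ n (terms n c.pu c.U) fun i => decide (k ≤ i)) + 1) ≤ a)

/-- the check -/
def check (n a : ℕ) (kl : List ℕ) (c : Cert) : Bool :=
  fits n kl c.U && fits n kl c.W && psOK n c.pu && psOK n c.pw && blkOK n c.pu && blkOK n c.pw &&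
    envOK n a c && totV n c.X c.T (terms n c.pu c.U) (terms n c.pw c.W) != 0

theorem cell_lt {P : Finset ι} {T : ι → ℕ × ℕ} {ρ : YoungDiagram} (h : IsTab P T ρ) {i : ι}
    (hi : i ∈ P) : (T i).1 < ρ.colLen 0 ∧ (T i).2 < ρ.rowLen 0 := by
  have := h.mem hi
  exact ⟨YoungDiagram.mem_iff_lt_colLen.1 (ρ.up_left_mem le_rfl (Nat.zero_le _) this),
    YoungDiagram.mem_iff_lt_rowLen.1 (ρ.up_left_mem (Nat.zero_le _) le_rfl this)⟩

theorem cert_sound {n a : ℕ} {κ : YoungDiagram} (hn : κ.card = n) {c : Cert}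
    (hc : check n a κ.rowLens c = true) {l : YoungDiagram} (hT : IsTab univ (toF n c.T) l) :
    ∃ T1 T2 : Fin n → ℕ × ℕ, Std (-fun i : Fin n => (i : ℤ)) T1 κ ∧
      Std (fun i : Fin n => (i : ℤ)) T2 κ ∧ Good (fun i : Fin n => (i : ℤ)) T1 T2 κ κ l ∧
      EnvH (fun i : Fin n => (i : ℤ)) T1 T2 a := by
  simp only [check, Bool.and_eq_true, bne_iff_ne] at hc
  obtain ⟨⟨⟨⟨⟨⟨⟨hU, hW⟩, hpu⟩, hpw⟩, hbu⟩, hbw⟩, henv⟩, hval⟩ := hc
  have hU' := isTab_of_fits hn hU
  have hW' := isTab_of_fits hn hW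
  have hUt := isTab_terms hU' c.pu (psOK_lt hpu)
  have hWt := isTab_terms hW' c.pw (psOK_lt hpw)
  have hτ : Function.Injective fun i : Fin n => (i : ℤ) := fun i j h => Fin.ext (by simpa using h)
  have hg : GoodVec (vecL n (terms n c.pu c.U)) (vecL n (terms n c.pw c.W)) l := by
    refine goodVec_of_tens hT (tensOf c.X) 1 ?_
    have := tot_eq hT c.X _ _ hUt hWt
    simp only [Perm.coe_one, Function.comp_id]
    rw [this]
    exact_mod_cast hval
  have H : ∀ (ps L : List (ℕ × ℕ)), IsTab univ (toF n L) κ → psOK n ps = true → blkOK n ps = true →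
      ∀ (Q : ℕ → ℕ → Bool) (P : Finset (Fin n)) (ρ : YoungDiagram) (T' : Fin n → ℕ × ℕ),
        IsTab P T' ρ → ¬ (∀ k, (∀ i ∈ P, Q k i = true) →
          ρ.rowLen 0 ≤ nJ n (terms n ps L) (Q k) ∧ ρ.colLen 0 ≤ nI n ps (terms n ps L) (Q k)) →
        act (yc P T') (vecL n (terms n ps L)) = 0 := by
    intro ps L hL h1 h2 Q P ρ T' hT' h
    push Not at h
    obtain ⟨k, hk, h⟩ := h
    by_cases h3 : ρ.rowLen 0 ≤ nJ n (terms n ps L) (Q k)
    · exact yc_kill_of_alt (fun S hS hc => alt_vecL hL h1 h2 (fun i hi => hk i (hS hi)) hc) hT' (h h3)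
    · exact yc_kill_of_sym (fun S hS hc => sym_vecL _ (fun i hi => hk i (hS hi)) hc) hT'
        (not_le.1 h3)
  obtain ⟨T1, T2, s1, s2, o1, o2, g⟩ := good_of_goodVec hτ (vecL_mem_Spec hUt) (vecL_mem_Spec hWt) _ _
    (fun P ρ T' _ h1 h2 => H c.pu c.U hU' hpu hbu (fun k i => decide (k ≤ i)) P ρ T' h1 h2)
    (fun P ρ T' _ h1 h2 => H c.pw c.W hW' hpw hbw (fun k i => decide (i ≤ k)) P ρ T' h1 h2) hg
  refine ⟨T1, T2, s1, s2, g, fun j k hjk => ?_⟩
  have hjk' : (j : ℕ) ≤ k := by simpa using hjk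
  simp only [envOK, List.all_eq_true, List.mem_range, decide_eq_true_eq] at henv
  have he := henv k k.2
  have p2 : IsPre (fun i : Fin n => (i : ℤ)) (univ.filter fun i : Fin n => (i : ℕ) ≤ k) := by
    intro i hi i' h
    simp only [mem_filter, mem_univ, true_and] at hi ⊢
    have : (i' : ℕ) ≤ i := by simpa using h
    omega
  have p1 : IsPre (-fun i : Fin n => (i : ℤ)) (univ.filter fun i : Fin n => (k : ℕ) ≤ i) := by
    intro i hi i' h
    simp only [mem_filter, mem_univ, true_and] at hi ⊢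
    have : (i : ℕ) ≤ i' := by simpa using h
    omega
  obtain ⟨ρ2, t2, -⟩ := s2.exists_tab p2
  obtain ⟨ρ1, t1, -⟩ := s1.exists_tab p1
  have b2 := o2 _ _ p2 t2 k (fun i hi => by simpa using hi)
  have b1 := o1 _ _ p1 t1 k (fun i hi => by simpa using hi)
  have c2 := cell_lt t2 (i := j) (by simpa using hjk')
  have c1 := cell_lt t1 (i := k) (by simp)
  omega

theorem core_of_certs {n a : ℕ} {κ : YoungDiagram} (hn : κ.card = n) (hsym : κ.transpose = κ)
    (hbox : ∀ c ∈ κ, c.1 < a ∧ c.2 < a) (certs : List Cert)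
    (h1 : certs.all (check n a κ.rowLens) = true)
    (h2 : ((allParts n).all fun l => certs.any fun c =>
      fits n l c.T || fits n l (c.T.map Prod.swap)) = true) : StateH n a (fun _ => True) := by
  refine ⟨κ, hn, hbox, fun l hl _ => ?_⟩
  have h3 := rowLens_mem_allParts l
  rw [hl] at h3
  simp only [List.all_eq_true, List.any_eq_true, Bool.or_eq_true] at h1 h2
  obtain ⟨c, hc, h4⟩ := h2 _ h3
  rcases h4 with h4 | h4
  · obtain ⟨T1, T2, h⟩ := cert_sound hn (h1 c hc) (isTab_of_fits hl h4)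
    exact ⟨_, T1, T2, h⟩
  · have h5 := (isTab_of_fits hl h4).swap
    have e : Prod.swap ∘ toF n (c.T.map Prod.swap) = toF n c.T := by
      funext i
      simp only [Function.comp_apply, toF, gt, List.getD_eq_getElem?_getD, List.getElem?_map]
      cases c.T[(i : ℕ)]? <;> simp
    rw [e] at h5
    obtain ⟨T1, T2, s1, s2, g, he⟩ := cert_sound hn (h1 c hc) h5
    have g' := good_twist s2.2.1 g
    have s2' := s2.swap
    rw [hsym] at s2'
    rw [hsym, YoungDiagram.transpose_transpose] at g'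
    refine ⟨_, T1, Prod.swap ∘ T2, s1, s2', g', fun j k hjk => ?_⟩
    have := he j k hjk
    simp only [Function.comp_apply, Prod.fst_swap, Prod.snd_swap]
    omega

end Crest.Agent.R195
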