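/- Row 195: base case n = 11, certificates found by a random computer search. -/
import Crest.Agent.R195.CertChk

set_option autoImplicit false

namespace Crest.Agent.R195

/-- certificates -/
def certs11 : List Cert := [
  ⟨[(0, 2), (0, 10), (0, 6), (0, 5), (0, 0), (0, 4), (0, 1), (0, 3), (0, 7), (0, 9), (0, 8)],
    [(0, 3), (0, 2), (0, 0), (0, 1), (1, 1), (2, 1), (1, 0), (1, 2), (2, 0), (2, 2), (3, 0)], [(7, 10), (8, 9)],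
    [(0, 1), (1, 1), (2, 1), (0, 0), (1, 0), (0, 3), (0, 2), (1, 2), (2, 0), (2, 2), (3, 0)], [(2, 5), (0, 4), (1, 3)],
    [(0, 3, 3, 1), (0, 2, 2, 1), (0, 1, 1, 1), (0, 0, 0, 1)]⟩,
  ⟨[(0, 0), (0, 3), (0, 4), (0, 7), (1, 0), (0, 6), (0, 5), (0, 1), (0, 8), (0, 2), (0, 9)],
    [(0, 3), (0, 0), (1, 0), (2, 0), (3, 0), (0, 1), (0, 2), (1, 2), (1, 1), (2, 2), (2, 1)], [],
    [(0, 0), (0, 1), (1, 1), (0, 2), (1, 2), (0, 3), (1, 0), (2, 1), (2, 0), (2, 2), (3, 0)], [(1, 4), (0, 3)],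
    [(0, 3, 3, 1), (0, 2, 1, 1), (0, 1, 0, 1), (0, 0, 2, 1), (1, 0, 0, 1)]⟩,
  ⟨[(0, 3), (0, 6), (0, 8), (0, 1), (1, 1), (0, 0), (0, 2), (0, 7), (1, 0), (0, 5), (0, 4)],
    [(0, 3), (0, 0), (0, 1), (0, 2), (1, 0), (2, 0), (3, 0), (1, 1), (1, 2), (2, 2), (2, 1)], [],
    [(0, 1), (0, 3), (1, 1), (0, 2), (1, 2), (2, 2), (2, 1), (0, 0), (1, 0), (2, 0), (3, 0)], [],
    [(0, 2, 1, 1), (1, 3, 0, 1), (0, 1, 0, 1), (1, 0, 3, 1), (0, 0, 2, 1)]⟩,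
  ⟨[(0, 8), (0, 0), (0, 1), (0, 6), (0, 3), (0, 2), (0, 4), (1, 0), (2, 0), (0, 5), (0, 7)],
    [(0, 3), (0, 0), (1, 0), (2, 0), (3, 0), (0, 1), (1, 1), (0, 2), (1, 2), (2, 1), (2, 2)], [],
    [(0, 1), (0, 2), (0, 3), (1, 2), (1, 1), (2, 1), (0, 0), (2, 2), (1, 0), (2, 0), (3, 0)], [],
    [(0, 1, 1, 1), (0, 0, 2, 1), (0, 3, 1, 1), (2, 0, 3, 1), (1, 1, 0, 1), (0, 2, 0, 1)]⟩,
  ⟨[(0, 3), (0, 1), (0, 4), (0, 5), (0, 0), (1, 0), (1, 1), (0, 2), (1, 2), (0, 6), (0, 7)],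
    [(0, 0), (0, 3), (1, 0), (2, 0), (3, 0), (0, 1), (1, 1), (0, 2), (2, 1), (1, 2), (2, 2)], [],
    [(0, 2), (1, 2), (0, 1), (1, 1), (2, 2), (0, 0), (1, 0), (0, 3), (2, 1), (2, 0), (3, 0)], [],
    [(1, 0, 0, 1), (0, 1, 2, 1), (1, 2, 2, 1), (0, 0, 1, 1), (1, 3, 0, 1), (0, 2, 0, 1), (0, 1, 3, 1)]⟩,
  ⟨[(0, 2), (0, 0), (0, 4), (0, 1), (1, 0), (0, 6), (0, 7), (2, 0), (0, 3), (0, 5), (1, 1)],
    [(0, 0), (0, 3), (1, 0), (2, 0), (3, 0), (0, 2), (0, 1), (1, 1), (1, 2), (2, 2), (2, 1)], [],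
    [(0, 2), (1, 2), (0, 3), (2, 2), (0, 1), (0, 0), (1, 0), (2, 0), (1, 1), (2, 1), (3, 0)], [],
    [(1, 2, 3, 1), (2, 3, 1, 1), (0, 2, 1, 1), (0, 1, 0, 1), (0, 0, 2, 1), (1, 0, 0, 1)]⟩,
  ⟨[(0, 5), (0, 0), (0, 1), (1, 0), (0, 6), (0, 7), (0, 4), (0, 3), (2, 0), (0, 2), (3, 0)],
    [(0, 1), (0, 3), (0, 0), (1, 0), (2, 0), (3, 0), (0, 2), (1, 1), (1, 2), (2, 2), (2, 1)], [],
    [(0, 3), (0, 2), (1, 2), (0, 1), (2, 2), (1, 1), (0, 0), (1, 0), (2, 0), (3, 0), (2, 1)], [],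
    [(0, 0, 1, 1), (0, 1, 0, 1), (2, 0, 3, 1), (0, 2, 2, 1), (1, 0, 1, 1), (3, 3, 0, 1)]⟩,
  ⟨[(0, 0), (0, 1), (0, 5), (0, 4), (0, 6), (1, 0), (0, 2), (0, 3), (1, 2), (1, 1), (1, 3)],
    [(0, 3), (0, 1), (0, 0), (1, 0), (2, 0), (3, 0), (0, 2), (1, 2), (2, 2), (1, 1), (2, 1)], [],
    [(0, 1), (0, 3), (1, 1), (2, 1), (0, 2), (1, 2), (2, 2), (0, 0), (1, 0), (2, 0), (3, 0)], [],
    [(1, 3, 0, 1), (0, 0, 2, 1), (1, 1, 2, 1), (0, 1, 3, 1), (0, 1, 1, 1), (1, 0, 1, 1), (0, 2, 0, 1)]⟩,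
  ⟨[(0, 2), (0, 5), (0, 6), (0, 4), (1, 2), (0, 1), (0, 0), (0, 3), (1, 0), (1, 1), (2, 0)],
    [(0, 2), (0, 3), (0, 0), (0, 1), (1, 0), (2, 0), (3, 0), (1, 1), (2, 1), (1, 2), (2, 2)], [],
    [(0, 3), (0, 2), (1, 2), (0, 1), (1, 1), (2, 2), (2, 1), (0, 0), (1, 0), (2, 0), (3, 0)], [],
    [(0, 0, 2, 1), (0, 2, 3, 1), (1, 0, 1, 1), (2, 2, 1, 1), (0, 3, 2, 1), (1, 2, 0, 1), (0, 1, 0, 1)]⟩,
  ⟨[(0, 1), (0, 0), (0, 6), (1, 1), (1, 0), (0, 2), (0, 4), (0, 3), (2, 0), (2, 1), (0, 5)],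
    [(0, 3), (0, 1), (0, 0), (1, 0), (2, 0), (3, 0), (0, 2), (1, 2), (2, 2), (1, 1), (2, 1)], [],
    [(0, 2), (1, 2), (0, 3), (2, 2), (0, 1), (1, 1), (0, 0), (1, 0), (2, 0), (2, 1), (3, 0)], [],
    [(2, 3, 1, 1), (0, 2, 2, 1), (1, 1, 0, 1), (1, 0, 3, 1), (0, 1, 1, 1), (2, 2, 2, 1), (0, 0, 0, 1)]⟩,
  ⟨[(0, 0), (0, 3), (0, 6), (0, 5), (0, 1), (1, 0), (2, 0), (1, 1), (0, 2), (0, 4), (3, 0)],
    [(0, 3), (0, 0), (1, 0), (2, 0), (3, 0), (0, 1), (1, 1), (0, 2), (1, 2), (2, 1), (2, 2)], [],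
    [(0, 2), (0, 3), (1, 2), (0, 1), (1, 1), (0, 0), (2, 2), (1, 0), (2, 1), (2, 0), (3, 0)], [],
    [(1, 1, 3, 1), (1, 1, 1, 1), (0, 3, 1, 1), (0, 0, 0, 1), (3, 2, 2, 1), (2, 1, 1, 1), (0, 2, 2, 1)]⟩,
  ⟨[(0, 0), (1, 0), (2, 0), (0, 1), (0, 3), (0, 4), (3, 0), (0, 2), (4, 0), (0, 5), (0, 6)],
    [(0, 3), (0, 0), (1, 0), (2, 0), (3, 0), (0, 1), (1, 1), (0, 2), (1, 2), (2, 1), (2, 2)], [],
    [(0, 1), (0, 2), (0, 3), (1, 2), (1, 1), (2, 1), (0, 0), (2, 2), (1, 0), (2, 0), (3, 0)], [],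
    [(0, 1, 1, 1), (0, 2, 0, 1), (0, 0, 2, 1), (4, 3, 1, 1), (2, 0, 3, 1), (1, 1, 0, 1), (3, 2, 0, 1)]⟩,
  ⟨[(0, 2), (0, 1), (1, 2), (0, 0), (0, 3), (0, 4), (1, 3), (1, 1), (1, 4), (0, 5), (1, 0)],
    [(0, 0), (0, 3), (1, 0), (0, 2), (2, 0), (3, 0), (1, 2), (0, 1), (1, 1), (2, 2), (2, 1)], [],
    [(0, 1), (1, 1), (0, 3), (2, 1), (0, 2), (1, 2), (2, 2), (0, 0), (1, 0), (2, 0), (3, 0)], [],
    [(0, 0, 2, 1), (1, 3, 0, 1), (0, 1, 0, 1), (1, 2, 1, 1), (1, 0, 3, 1)]⟩,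
  ⟨[(0, 3), (0, 0), (1, 0), (0, 2), (0, 4), (1, 3), (0, 5), (0, 1), (1, 2), (2, 0), (1, 1)],
    [(0, 0), (0, 3), (1, 0), (2, 0), (3, 0), (0, 1), (1, 1), (0, 2), (2, 1), (1, 2), (2, 2)], [],
    [(0, 3), (0, 1), (1, 1), (0, 2), (2, 1), (0, 0), (1, 0), (2, 0), (3, 0), (1, 2), (2, 2)], [],
    [(2, 3, 0, 1), (0, 2, 3, 1), (0, 2, 2, 1), (0, 0, 1, 1), (1, 0, 2, 1), (1, 1, 0, 1)]⟩,
  ⟨[(0, 2), (0, 4), (0, 1), (1, 1), (0, 0), (1, 2), (0, 5), (2, 1), (1, 0), (2, 0), (0, 3)],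
    [(0, 3), (0, 0), (0, 1), (1, 0), (2, 0), (3, 0), (0, 2), (1, 1), (2, 1), (1, 2), (2, 2)], [],
    [(0, 1), (1, 1), (0, 3), (2, 1), (0, 2), (1, 2), (2, 2), (0, 0), (1, 0), (2, 0), (3, 0)], [],
    [(0, 0, 1, 1), (0, 3, 2, 1), (0, 1, 0, 1), (2, 0, 1, 1), (1, 2, 2, 1), (1, 2, 0, 1), (0, 0, 3, 1)]⟩,
  ⟨[(0, 5), (0, 4), (0, 2), (0, 0), (0, 3), (1, 2), (1, 0), (0, 1), (1, 1), (2, 0), (3, 0)],
    [(0, 0), (0, 3), (0, 2), (1, 0), (2, 0), (0, 1), (3, 0), (1, 2), (1, 1), (2, 1), (2, 2)], [],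
    [(0, 3), (0, 1), (1, 1), (2, 1), (0, 2), (1, 2), (2, 2), (0, 0), (1, 0), (2, 0), (3, 0)], [],
    [(1, 3, 0, 1), (1, 0, 1, 1), (3, 1, 0, 1), (0, 2, 2, 1), (0, 0, 0, 1), (2, 1, 1, 1), (0, 1, 3, 1)]⟩,
  ⟨[(0, 3), (0, 0), (1, 0), (0, 5), (0, 2), (2, 0), (0, 1), (1, 1), (0, 4), (2, 1), (3, 0)],
    [(0, 1), (0, 3), (0, 2), (0, 0), (1, 0), (2, 0), (3, 0), (1, 1), (1, 2), (2, 2), (2, 1)], [],
    [(0, 1), (0, 2), (1, 2), (2, 2), (1, 1), (2, 1), (0, 3), (0, 0), (1, 0), (2, 0), (3, 0)], [],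
    [(0, 1, 2, 1), (1, 0, 3, 1), (2, 2, 0, 1), (0, 0, 1, 1), (0, 0, 0, 1), (3, 3, 1, 1), (1, 2, 1, 1)]⟩,
  ⟨[(0, 0), (0, 2), (1, 0), (0, 4), (2, 0), (0, 1), (0, 5), (1, 1), (3, 0), (0, 3), (4, 0)],
    [(0, 0), (0, 3), (1, 0), (2, 0), (0, 2), (3, 0), (0, 1), (1, 2), (2, 2), (1, 1), (2, 1)], [],
    [(0, 2), (1, 2), (0, 1), (1, 1), (2, 2), (2, 1), (0, 0), (1, 0), (0, 3), (2, 0), (3, 0)], [],
    [(1, 1, 2, 1), (4, 0, 2, 1), (2, 3, 0, 1), (0, 2, 0, 1), (3, 1, 3, 1), (0, 0, 1, 1)]⟩,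
  ⟨[(0, 0), (1, 0), (2, 0), (0, 1), (0, 5), (3, 0), (0, 2), (0, 3), (0, 4), (4, 0), (5, 0)],
    [(0, 0), (0, 3), (1, 0), (2, 0), (3, 0), (0, 1), (1, 1), (0, 2), (1, 2), (2, 1), (2, 2)], [],
    [(0, 1), (0, 2), (0, 3), (1, 1), (1, 2), (2, 1), (0, 0), (1, 0), (2, 2), (2, 0), (3, 0)], [],
    [(0, 0, 0, 1), (2, 1, 1, 1), (0, 0, 1, 1), (5, 1, 3, 1), (0, 2, 2, 1), (3, 0, 0, 1), (1, 3, 1, 1), (4, 1, 0, 1)]⟩,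
  ⟨[(0, 2), (0, 4), (0, 0), (0, 3), (0, 1), (1, 0), (1, 1), (1, 3), (1, 4), (1, 2), (2, 0)],
    [(0, 0), (0, 3), (0, 1), (1, 0), (2, 0), (3, 0), (0, 2), (1, 1), (1, 2), (2, 1), (2, 2)], [],
    [(0, 3), (0, 1), (1, 1), (0, 2), (1, 2), (2, 1), (2, 2), (0, 0), (1, 0), (2, 0), (3, 0)], [],
    [(1, 1, 0, 1), (0, 2, 1, 1), (0, 0, 2, 1), (2, 0, 0, 1), (1, 3, 1, 1), (1, 2, 3, 1)]⟩,
  ⟨[(0, 0), (0, 1), (1, 0), (0, 2), (2, 0), (1, 2), (0, 3), (0, 4), (1, 1), (1, 3), (2, 1)],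
    [(0, 0), (0, 3), (1, 0), (2, 0), (0, 2), (0, 1), (3, 0), (1, 1), (2, 1), (1, 2), (2, 2)], [],
    [(0, 1), (1, 1), (0, 2), (1, 2), (2, 1), (0, 3), (2, 2), (0, 0), (1, 0), (2, 0), (3, 0)], [],
    [(2, 0, 3, 1), (0, 1, 1, 1), (0, 2, 2, 1), (2, 3, 2, 1), (1, 0, 0, 1), (1, 2, 0, 1)]⟩,
  ⟨[(0, 3), (1, 3), (0, 4), (0, 2), (0, 0), (1, 0), (0, 1), (1, 1), (2, 0), (3, 0), (1, 2)],
    [(0, 3), (0, 0), (1, 0), (0, 1), (2, 0), (3, 0), (0, 2), (1, 1), (1, 2), (2, 1), (2, 2)], [],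
    [(0, 2), (0, 1), (1, 1), (0, 3), (2, 1), (1, 2), (0, 0), (1, 0), (2, 0), (3, 0), (2, 2)], [],
    [(1, 3, 0, 1), (2, 2, 3, 1), (1, 1, 1, 1), (0, 2, 2, 1), (0, 0, 0, 1), (3, 0, 2, 1)]⟩,
  ⟨[(0, 0), (0, 1), (0, 2), (0, 4), (1, 0), (1, 1), (2, 0), (1, 2), (2, 2), (0, 3), (2, 1)],
    [(0, 0), (0, 3), (1, 0), (2, 0), (3, 0), (0, 1), (1, 1), (0, 2), (2, 1), (1, 2), (2, 2)], [],
    [(0, 3), (0, 1), (1, 1), (2, 1), (0, 2), (0, 0), (1, 0), (2, 0), (1, 2), (3, 0), (2, 2)], [],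
    [(1, 2, 1, 1), (0, 0, 2, 1), (2, 1, 1, 1), (2, 0, 0, 1), (0, 2, 3, 1), (1, 3, 2, 1), (0, 1, 0, 1)]⟩,
  ⟨[(0, 1), (0, 0), (0, 4), (1, 0), (2, 0), (1, 1), (2, 1), (0, 2), (1, 2), (0, 3), (3, 0)],
    [(0, 3), (0, 0), (1, 0), (0, 2), (2, 0), (3, 0), (0, 1), (1, 1), (1, 2), (2, 1), (2, 2)], [],
    [(0, 2), (1, 2), (0, 1), (0, 3), (1, 1), (2, 2), (0, 0), (2, 1), (1, 0), (2, 0), (3, 0)], [],
    [(0, 0, 0, 1), (1, 1, 2, 1), (0, 2, 3, 1), (1, 1, 1, 1), (2, 2, 2, 1), (3, 3, 1, 1)]⟩,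
  ⟨[(0, 0), (0, 4), (1, 0), (0, 2), (0, 1), (2, 0), (3, 0), (1, 2), (0, 3), (4, 0), (1, 1)],
    [(0, 0), (0, 3), (1, 0), (2, 0), (3, 0), (0, 2), (0, 1), (1, 1), (1, 2), (2, 1), (2, 2)], [],
    [(0, 2), (0, 1), (0, 3), (1, 2), (1, 1), (0, 0), (1, 0), (2, 0), (2, 2), (2, 1), (3, 0)], [],
    [(1, 1, 2, 1), (0, 0, 1, 1), (3, 0, 3, 1), (2, 0, 0, 1), (4, 3, 1, 1), (0, 2, 0, 1)]⟩,
  ⟨[(0, 1), (0, 3), (0, 0), (1, 1), (0, 4), (1, 0), (2, 0), (3, 0), (0, 2), (2, 1), (3, 1)],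
    [(0, 3), (0, 0), (0, 2), (1, 0), (2, 0), (3, 0), (1, 2), (0, 1), (2, 2), (1, 1), (2, 1)], [],
    [(0, 1), (1, 1), (0, 2), (1, 2), (2, 1), (2, 2), (0, 0), (1, 0), (2, 0), (3, 0), (0, 3)], [],
    [(3, 0, 0, 1), (2, 0, 1, 1), (0, 1, 0, 1), (0, 2, 2, 1), (1, 1, 3, 1), (1, 3, 1, 1)]⟩,
  ⟨[(0, 3), (0, 0), (1, 0), (0, 2), (0, 1), (1, 1), (2, 0), (1, 3), (2, 1), (1, 2), (2, 2)],
    [(0, 0), (0, 3), (1, 0), (2, 0), (3, 0), (0, 1), (1, 1), (0, 2), (1, 2), (2, 2), (2, 1)], [],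
    [(0, 1), (0, 2), (1, 1), (2, 1), (1, 2), (0, 0), (1, 0), (2, 0), (0, 3), (2, 2), (3, 0)], [],
    [(0, 3, 0, 1), (1, 0, 3, 1), (2, 0, 2, 1), (0, 1, 1, 1), (1, 2, 0, 1)]⟩,
  ⟨[(0, 3), (0, 0), (0, 2), (0, 1), (1, 1), (1, 0), (1, 3), (1, 2), (2, 0), (2, 1), (3, 0)],
    [(0, 0), (0, 3), (0, 2), (1, 0), (2, 0), (3, 0), (1, 2), (0, 1), (1, 1), (2, 1), (2, 2)], [],
    [(0, 2), (1, 2), (0, 1), (1, 1), (2, 2), (0, 3), (0, 0), (1, 0), (2, 1), (2, 0), (3, 0)], [],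
    [(1, 2, 0, 1), (3, 3, 0, 1), (2, 1, 2, 1), (1, 0, 3, 1), (0, 0, 1, 1), (0, 1, 2, 1)]⟩,
  ⟨[(0, 0), (0, 1), (1, 0), (1, 1), (2, 0), (2, 1), (0, 2), (1, 2), (0, 3), (2, 2), (3, 0)],
    [(0, 3), (0, 0), (1, 0), (2, 0), (0, 1), (3, 0), (0, 2), (1, 1), (1, 2), (2, 1), (2, 2)], [],
    [(0, 1), (0, 3), (1, 1), (2, 1), (0, 2), (1, 2), (0, 0), (1, 0), (2, 0), (2, 2), (3, 0)], [],
    [(3, 3, 0, 1), (2, 0, 1, 1), (0, 1, 2, 1), (1, 2, 0, 1), (0, 0, 3, 1)]⟩]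

/-- the shape -/
def kap11 : YoungDiagram := YoungDiagram.ofRowLens [4, 3, 3, 1] (by decide)

theorem kap11_rowLens : kap11.rowLens = [4, 3, 3, 1] := YoungDiagram.rowLens_ofRowLens_eq_self (by decide)

theorem mem_kap11 (c : ℕ × ℕ) : c ∈ kap11 ↔ c.2 < ([4, 3, 3, 1] : List ℕ).getD c.1 0 := by
  rw [← kap11_rowLens, ← rowLen_eq_getD, ← YoungDiagram.mem_iff_lt_rowLen]

theorem certs11_check : certs11.all (check 11 7 [4, 3, 3, 1]) = true := by decide +kernel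

theorem certs11_cover : ((allParts 11).all fun l => certs11.any fun c =>
    fits 11 l c.T || fits 11 l (c.T.map Prod.swap)) = true := by decide +kernel

theorem core11' : StateH 11 7 (fun _ => True) := by
  refine core_of_certs (κ := kap11) ?_ ?_ ?_ certs11 (by rw [kap11_rowLens]; exact certs11_check)
    certs11_cover
  · rw [card_eq_sum_rowLen kap11 (N := 4) (by
      rw [← YoungDiagram.length_rowLens, kap11_rowLens]; rfl)]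
    simp only [rowLen_eq_getD, kap11_rowLens]
    decide
  · ext ⟨i, j⟩
    rw [YoungDiagram.mem_cells, YoungDiagram.mem_cells, YoungDiagram.mem_transpose, mem_kap11,
      mem_kap11]
    rcases i with _ | _ | _ | _ | i <;> rcases j with _ | _ | _ | _ | j <;> simp
  · rintro ⟨i, j⟩ h
    rw [mem_kap11] at h
    rcases i with _ | _ | _ | _ | i <;> simp at h ⊢ <;> omega

end Crest.Agent.R195
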