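/- Row 195: base case n = 13, certificates found by a random computer search. -/
import Crest.Agent.R195.CertChk

set_option autoImplicit false

namespace Crest.Agent.R195

/-- certificates -/
def certs13 : List Cert := [
  ⟨[(0, 3), (0, 2), (0, 5), (0, 6), (0, 12), (0, 9), (0, 1), (0, 4), (0, 11), (0, 0), (0, 8), (0, 7), (0, 10)],
    [(0, 3), (0, 0), (1, 3), (1, 0), (2, 0), (0, 2), (3, 0), (0, 1), (1, 2), (1, 1), (2, 1), (2, 2), (3, 1)], [],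
    [(0, 2), (0, 3), (0, 1), (0, 0), (1, 2), (1, 0), (2, 2), (2, 0), (1, 1), (1, 3), (3, 0), (2, 1), (3, 1)], [],
    [(0, 1, 1, 1), (0, 2, 2, 1), (0, 0, 0, 1), (0, 3, 3, 1)]⟩,
  ⟨[(0, 0), (1, 0), (0, 10), (0, 3), (0, 11), (0, 2), (0, 4), (0, 1), (0, 6), (0, 7), (0, 5), (0, 8), (0, 9)],
    [(0, 3), (0, 2), (1, 3), (0, 0), (0, 1), (1, 0), (1, 2), (2, 0), (2, 2), (3, 0), (1, 1), (2, 1), (3, 1)], [],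
    [(0, 3), (0, 1), (1, 1), (2, 1), (0, 2), (1, 3), (3, 1), (0, 0), (1, 2), (2, 2), (1, 0), (2, 0), (3, 0)], [],
    [(0, 2, 3, 1), (1, 2, 2, 1), (0, 0, 1, 1), (0, 1, 0, 1), (0, 3, 2, 1)]⟩,
  ⟨[(0, 10), (0, 2), (0, 1), (0, 6), (0, 5), (0, 0), (0, 7), (0, 4), (1, 1), (0, 3), (0, 9), (0, 8), (1, 0)],
    [(0, 0), (0, 3), (1, 3), (1, 0), (0, 1), (1, 1), (0, 2), (1, 2), (2, 1), (2, 2), (2, 0), (3, 1), (3, 0)], [],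
    [(0, 3), (0, 1), (1, 1), (1, 3), (0, 0), (0, 2), (1, 2), (2, 1), (1, 0), (2, 0), (3, 0), (2, 2), (3, 1)], [],
    [(1, 3, 3, 1), (0, 1, 0, 1), (0, 2, 2, 1), (0, 0, 1, 1)]⟩,
  ⟨[(0, 7), (0, 2), (0, 0), (0, 8), (1, 0), (2, 0), (0, 3), (0, 5), (0, 10), (0, 4), (0, 6), (0, 9), (0, 1)],
    [(0, 2), (1, 2), (2, 2), (0, 1), (0, 3), (1, 1), (2, 1), (1, 3), (0, 0), (1, 0), (3, 1), (2, 0), (3, 0)], [],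
    [(0, 0), (0, 2), (0, 1), (1, 1), (2, 1), (1, 2), (2, 2), (1, 0), (3, 1), (0, 3), (1, 3), (2, 0), (3, 0)], [],
    [(0, 1, 1, 1), (1, 0, 0, 1), (0, 3, 3, 1), (0, 0, 2, 1), (0, 2, 0, 1), (2, 2, 0, 1)]⟩,
  ⟨[(0, 2), (0, 3), (0, 7), (0, 1), (0, 9), (0, 6), (0, 4), (0, 5), (1, 2), (0, 0), (0, 8), (1, 0), (1, 1)],
    [(0, 3), (0, 1), (1, 3), (0, 0), (1, 1), (0, 2), (1, 2), (2, 1), (3, 1), (1, 0), (2, 0), (2, 2), (3, 0)], [],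
    [(0, 1), (0, 3), (0, 0), (0, 2), (1, 3), (1, 1), (1, 0), (2, 1), (1, 2), (2, 2), (2, 0), (3, 0), (3, 1)], [],
    [(1, 2, 2, 1), (0, 0, 1, 1), (0, 1, 0, 1), (0, 3, 3, 1)]⟩,
  ⟨[(0, 0), (1, 0), (0, 4), (0, 8), (0, 3), (0, 2), (2, 0), (0, 1), (0, 6), (1, 1), (0, 9), (0, 7), (0, 5)],
    [(0, 1), (0, 3), (1, 3), (0, 0), (1, 0), (2, 0), (3, 0), (1, 1), (0, 2), (2, 1), (3, 1), (1, 2), (2, 2)], [],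
    [(0, 1), (0, 0), (1, 0), (1, 1), (2, 0), (3, 0), (0, 2), (0, 3), (1, 2), (2, 2), (2, 1), (1, 3), (3, 1)], [],
    [(2, 2, 2, 1), (0, 2, 3, 1), (1, 0, 0, 1), (0, 0, 2, 1), (0, 1, 1, 1), (0, 3, 0, 1)]⟩,
  ⟨[(0, 7), (0, 0), (0, 4), (0, 5), (0, 2), (0, 9), (0, 3), (0, 6), (1, 0), (2, 0), (3, 0), (0, 8), (0, 1)],
    [(0, 3), (0, 2), (1, 3), (0, 1), (1, 2), (0, 0), (2, 2), (1, 1), (2, 1), (1, 0), (2, 0), (3, 0), (3, 1)], [],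
    [(0, 0), (0, 1), (0, 3), (1, 3), (1, 0), (0, 2), (1, 1), (2, 0), (1, 2), (2, 1), (2, 2), (3, 1), (3, 0)], [],
    [(0, 0, 2, 1), (0, 1, 1, 1), (3, 2, 3, 1), (0, 3, 3, 1), (2, 3, 0, 1), (0, 2, 0, 1), (1, 0, 0, 1)]⟩,
  ⟨[(0, 4), (0, 1), (0, 2), (1, 2), (1, 1), (0, 0), (0, 3), (1, 3), (0, 8), (0, 7), (1, 0), (0, 5), (0, 6)],
    [(0, 1), (0, 3), (1, 3), (0, 0), (1, 1), (2, 1), (0, 2), (1, 0), (1, 2), (2, 0), (3, 1), (3, 0), (2, 2)], [],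
    [(0, 2), (0, 1), (1, 2), (0, 0), (1, 0), (2, 2), (0, 3), (1, 1), (2, 1), (2, 0), (3, 0), (1, 3), (3, 1)], [],
    [(1, 1, 0, 1), (0, 0, 1, 1), (0, 2, 2, 1), (0, 3, 3, 1)]⟩,
  ⟨[(0, 0), (0, 7), (0, 6), (0, 5), (0, 4), (0, 8), (0, 3), (0, 2), (1, 0), (2, 0), (1, 2), (0, 1), (1, 1)],
    [(0, 3), (1, 3), (0, 0), (0, 2), (0, 1), (1, 0), (2, 0), (1, 1), (3, 0), (1, 2), (2, 2), (2, 1), (3, 1)], [],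
    [(0, 0), (0, 2), (1, 0), (0, 3), (1, 3), (0, 1), (2, 0), (1, 1), (2, 1), (1, 2), (2, 2), (3, 1), (3, 0)], [],
    [(0, 3, 2, 1), (1, 3, 2, 1), (0, 0, 0, 1), (1, 2, 3, 1), (2, 2, 2, 1), (0, 1, 1, 1)]⟩,
  ⟨[(0, 0), (0, 5), (0, 4), (0, 6), (0, 1), (0, 3), (0, 7), (1, 0), (2, 0), (1, 1), (0, 2), (2, 1), (0, 8)],
    [(0, 3), (1, 3), (0, 1), (1, 1), (0, 2), (0, 0), (2, 1), (1, 2), (3, 1), (1, 0), (2, 2), (2, 0), (3, 0)], [],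
    [(0, 0), (0, 2), (0, 3), (0, 1), (1, 3), (1, 1), (1, 2), (1, 0), (2, 1), (3, 1), (2, 2), (2, 0), (3, 0)], [],
    [(2, 0, 0, 1), (0, 3, 0, 1), (0, 2, 2, 1), (0, 0, 3, 1), (1, 2, 2, 1), (0, 1, 1, 1)]⟩,
  ⟨[(0, 0), (0, 6), (0, 8), (1, 0), (0, 1), (0, 4), (0, 3), (0, 2), (1, 1), (0, 7), (2, 0), (3, 0), (0, 5)],
    [(0, 2), (1, 2), (2, 2), (0, 3), (0, 1), (0, 0), (1, 0), (2, 0), (1, 3), (1, 1), (2, 1), (3, 1), (3, 0)], [],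
    [(0, 2), (1, 2), (0, 3), (0, 0), (0, 1), (2, 2), (1, 3), (1, 0), (1, 1), (2, 0), (2, 1), (3, 0), (3, 1)], [],
    [(0, 1, 2, 1), (1, 3, 1, 1), (1, 0, 0, 1), (0, 3, 0, 1), (0, 2, 3, 1), (2, 2, 0, 1), (3, 1, 0, 1), (0, 0, 1, 1)]⟩,
  ⟨[(0, 2), (0, 5), (0, 0), (0, 8), (0, 7), (0, 6), (1, 0), (0, 3), (0, 4), (0, 1), (2, 0), (3, 0), (4, 0)],
    [(0, 2), (0, 3), (1, 3), (0, 1), (1, 2), (0, 0), (2, 2), (1, 0), (1, 1), (2, 1), (2, 0), (3, 1), (3, 0)], [],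
    [(0, 1), (0, 3), (1, 1), (2, 1), (1, 3), (0, 0), (0, 2), (3, 1), (1, 2), (1, 0), (2, 0), (3, 0), (2, 2)], [],
    [(0, 1, 0, 1), (4, 2, 0, 1), (0, 2, 2, 1), (3, 3, 2, 1), (2, 3, 3, 1), (0, 0, 1, 1), (1, 1, 3, 1)]⟩,
  ⟨[(0, 1), (0, 7), (0, 2), (0, 4), (1, 2), (0, 6), (1, 4), (0, 0), (1, 1), (0, 3), (1, 3), (0, 5), (1, 0)],
    [(0, 3), (1, 3), (0, 2), (0, 1), (1, 1), (2, 1), (0, 0), (1, 2), (2, 2), (1, 0), (3, 1), (2, 0), (3, 0)], [],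
    [(0, 1), (0, 2), (1, 1), (1, 2), (0, 0), (2, 1), (0, 3), (1, 0), (2, 0), (1, 3), (2, 2), (3, 1), (3, 0)], [],
    [(0, 1, 1, 1), (1, 2, 2, 1), (1, 0, 0, 1), (0, 3, 3, 1), (0, 2, 2, 1)]⟩,
  ⟨[(0, 6), (0, 2), (0, 7), (0, 0), (0, 1), (1, 1), (1, 0), (0, 4), (0, 3), (2, 0), (0, 5), (1, 3), (1, 2)],
    [(0, 3), (1, 3), (0, 0), (0, 1), (1, 1), (0, 2), (1, 2), (2, 2), (1, 0), (2, 0), (2, 1), (3, 1), (3, 0)], [],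
    [(0, 0), (0, 3), (0, 2), (1, 0), (1, 2), (0, 1), (1, 1), (1, 3), (2, 2), (2, 0), (2, 1), (3, 1), (3, 0)], [],
    [(0, 2, 3, 1), (2, 2, 2, 1), (0, 0, 0, 1), (0, 3, 2, 1), (1, 1, 1, 1)]⟩,
  ⟨[(0, 2), (0, 4), (0, 0), (0, 3), (1, 0), (0, 6), (2, 0), (0, 1), (1, 1), (0, 5), (0, 7), (1, 2), (2, 1)],
    [(0, 2), (0, 3), (1, 3), (0, 0), (1, 0), (0, 1), (1, 1), (2, 1), (2, 0), (3, 0), (1, 2), (3, 1), (2, 2)], [],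
    [(0, 1), (0, 0), (0, 2), (1, 2), (0, 3), (1, 0), (2, 2), (2, 0), (1, 1), (3, 0), (1, 3), (2, 1), (3, 1)], [],
    [(0, 2, 2, 1), (1, 1, 3, 1), (1, 2, 2, 1), (2, 1, 1, 1), (0, 0, 0, 1), (0, 3, 1, 1)]⟩,
  ⟨[(0, 4), (0, 2), (0, 7), (0, 0), (1, 0), (0, 5), (0, 3), (0, 6), (2, 0), (0, 1), (1, 1), (3, 0), (1, 2)],
    [(0, 2), (1, 2), (2, 2), (0, 3), (0, 1), (0, 0), (1, 1), (1, 3), (2, 1), (3, 1), (1, 0), (2, 0), (3, 0)], [],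
    [(0, 0), (0, 1), (0, 3), (0, 2), (1, 1), (2, 1), (1, 0), (1, 3), (1, 2), (2, 2), (2, 0), (3, 0), (3, 1)], [],
    [(0, 0, 1, 1), (2, 3, 2, 1), (1, 2, 1, 1), (3, 0, 3, 1), (0, 0, 2, 1), (0, 1, 0, 1), (0, 3, 3, 1)]⟩,
  ⟨[(0, 1), (1, 1), (0, 0), (0, 7), (0, 2), (2, 1), (1, 0), (2, 0), (0, 6), (3, 0), (0, 5), (0, 4), (0, 3)],
    [(0, 3), (0, 1), (1, 3), (0, 2), (0, 0), (1, 0), (1, 2), (2, 2), (2, 0), (3, 0), (1, 1), (2, 1), (3, 1)], [],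
    [(0, 3), (0, 1), (0, 2), (1, 1), (2, 1), (0, 0), (3, 1), (1, 3), (1, 0), (2, 0), (1, 2), (2, 2), (3, 0)], [],
    [(0, 3, 0, 1), (3, 0, 0, 1), (2, 3, 3, 1), (0, 0, 2, 1), (2, 2, 3, 1), (0, 1, 1, 1), (1, 2, 0, 1)]⟩,
  ⟨[(0, 0), (1, 0), (0, 6), (0, 1), (2, 0), (1, 1), (3, 0), (4, 0), (0, 7), (0, 4), (0, 5), (0, 3), (0, 2)],
    [(0, 1), (0, 3), (1, 3), (0, 2), (1, 2), (0, 0), (1, 0), (2, 2), (2, 0), (1, 1), (3, 0), (2, 1), (3, 1)], [],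
    [(0, 1), (0, 0), (0, 3), (1, 0), (1, 1), (2, 1), (0, 2), (2, 0), (3, 1), (3, 0), (1, 2), (1, 3), (2, 2)], [],
    [(0, 0, 3, 1), (1, 0, 2, 1), (0, 1, 0, 1), (3, 2, 1, 1), (4, 3, 2, 1), (2, 3, 1, 1), (0, 2, 1, 1)]⟩,
  ⟨[(0, 1), (0, 0), (1, 0), (2, 0), (0, 5), (0, 3), (0, 2), (3, 0), (0, 7), (0, 4), (0, 6), (4, 0), (5, 0)],
    [(0, 3), (0, 0), (1, 3), (1, 0), (0, 1), (0, 2), (2, 0), (1, 2), (1, 1), (3, 0), (2, 1), (2, 2), (3, 1)], [],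
    [(0, 3), (1, 3), (0, 0), (0, 2), (1, 2), (2, 2), (1, 0), (2, 0), (0, 1), (3, 0), (1, 1), (2, 1), (3, 1)], [],
    [(5, 3, 2, 1), (0, 0, 0, 1), (0, 1, 1, 1), (3, 1, 2, 1), (0, 2, 3, 1), (1, 2, 2, 1), (2, 2, 3, 1), (4, 3, 1, 1)]⟩,
  ⟨[(0, 4), (0, 6), (0, 2), (0, 3), (0, 1), (1, 3), (0, 5), (1, 1), (1, 2), (0, 0), (1, 4), (1, 5), (1, 0)],
    [(0, 3), (1, 3), (0, 1), (1, 1), (2, 1), (0, 0), (0, 2), (3, 1), (1, 2), (2, 2), (1, 0), (2, 0), (3, 0)], [],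
    [(0, 0), (1, 0), (0, 1), (0, 2), (0, 3), (1, 1), (2, 0), (2, 1), (3, 0), (1, 2), (2, 2), (3, 1), (1, 3)], [],
    [(0, 3, 0, 1), (1, 0, 1, 1), (0, 2, 2, 1), (0, 1, 3, 1), (1, 1, 0, 1)]⟩,
  ⟨[(0, 5), (0, 2), (1, 2), (0, 0), (0, 6), (0, 1), (1, 1), (0, 4), (0, 3), (1, 4), (1, 3), (1, 0), (2, 0)],
    [(0, 3), (1, 3), (0, 1), (1, 1), (2, 1), (0, 0), (0, 2), (1, 0), (3, 1), (2, 0), (1, 2), (3, 0), (2, 2)], [],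
    [(0, 1), (0, 3), (1, 3), (0, 2), (0, 0), (1, 2), (1, 0), (2, 2), (2, 0), (1, 1), (3, 0), (2, 1), (3, 1)], [],
    [(2, 3, 2, 1), (0, 2, 3, 1), (0, 3, 2, 1), (0, 0, 1, 1), (1, 2, 2, 1), (1, 1, 0, 1)]⟩,
  ⟨[(0, 2), (0, 4), (0, 6), (1, 2), (0, 3), (0, 0), (0, 1), (1, 1), (2, 1), (1, 0), (1, 3), (0, 5), (2, 0)],
    [(0, 2), (1, 2), (2, 2), (0, 1), (1, 1), (0, 0), (0, 3), (2, 1), (1, 0), (1, 3), (3, 1), (2, 0), (3, 0)], [],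
    [(0, 1), (0, 2), (0, 3), (1, 1), (2, 1), (1, 3), (0, 0), (3, 1), (1, 2), (1, 0), (2, 2), (2, 0), (3, 0)], [],
    [(0, 2, 2, 1), (2, 1, 1, 1), (1, 1, 3, 1), (1, 3, 1, 1), (0, 0, 0, 1)]⟩,
  ⟨[(0, 0), (0, 2), (0, 4), (0, 6), (0, 5), (0, 1), (1, 1), (0, 3), (1, 0), (1, 2), (2, 0), (3, 0), (1, 3)],
    [(0, 2), (0, 3), (1, 3), (0, 1), (1, 2), (1, 1), (2, 1), (3, 1), (0, 0), (1, 0), (2, 0), (2, 2), (3, 0)], [],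
    [(0, 1), (0, 0), (0, 2), (1, 1), (1, 0), (0, 3), (1, 2), (2, 1), (2, 2), (3, 1), (1, 3), (2, 0), (3, 0)], [],
    [(0, 3, 3, 1), (0, 1, 0, 1), (2, 1, 3, 1), (1, 3, 0, 1), (3, 0, 1, 1), (1, 2, 2, 1), (0, 0, 1, 1)]⟩,
  ⟨[(0, 2), (0, 0), (0, 3), (0, 5), (0, 1), (0, 6), (1, 2), (2, 2), (1, 0), (1, 1), (0, 4), (2, 1), (2, 0)],
    [(0, 3), (0, 1), (1, 3), (0, 0), (1, 0), (2, 0), (1, 1), (3, 0), (0, 2), (2, 1), (3, 1), (1, 2), (2, 2)], [],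
    [(0, 1), (0, 0), (1, 1), (2, 1), (3, 1), (1, 0), (0, 2), (1, 2), (2, 2), (0, 3), (1, 3), (2, 0), (3, 0)], [],
    [(1, 2, 3, 1), (0, 0, 2, 1), (1, 2, 0, 1), (0, 1, 1, 1), (2, 0, 3, 1), (2, 3, 0, 1)]⟩,
  ⟨[(0, 2), (0, 1), (0, 5), (0, 3), (1, 2), (0, 6), (0, 0), (0, 4), (1, 0), (2, 0), (3, 0), (1, 1), (2, 1)],
    [(0, 3), (1, 3), (0, 1), (1, 1), (0, 0), (1, 0), (0, 2), (2, 1), (2, 0), (3, 0), (1, 2), (2, 2), (3, 1)], [],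
    [(0, 3), (0, 0), (1, 0), (0, 2), (2, 0), (1, 2), (3, 0), (0, 1), (1, 1), (2, 2), (2, 1), (3, 1), (1, 3)], [],
    [(0, 0, 0, 1), (0, 3, 2, 1), (3, 2, 2, 1), (1, 1, 1, 1), (2, 1, 1, 1), (2, 1, 3, 1), (0, 1, 3, 1), (1, 2, 1, 1)]⟩,
  ⟨[(0, 6), (0, 2), (0, 0), (0, 5), (0, 1), (1, 2), (1, 0), (0, 3), (1, 1), (2, 0), (3, 0), (0, 4), (4, 0)],
    [(0, 2), (1, 2), (2, 2), (0, 0), (0, 3), (0, 1), (1, 0), (2, 0), (1, 3), (3, 0), (1, 1), (2, 1), (3, 1)], [],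
    [(0, 2), (0, 0), (1, 2), (1, 0), (2, 0), (2, 2), (0, 3), (0, 1), (1, 1), (3, 0), (1, 3), (2, 1), (3, 1)], [],
    [(3, 0, 2, 1), (0, 2, 2, 1), (2, 2, 0, 1), (0, 0, 3, 1), (0, 1, 1, 1), (1, 1, 1, 1), (1, 3, 0, 1), (4, 0, 0, 1)]⟩,
  ⟨[(0, 1), (0, 6), (1, 1), (0, 0), (0, 3), (0, 2), (1, 0), (0, 5), (2, 1), (2, 0), (3, 0), (0, 4), (3, 1)],
    [(0, 3), (1, 3), (0, 0), (0, 2), (1, 2), (1, 0), (2, 2), (0, 1), (1, 1), (2, 0), (2, 1), (3, 0), (3, 1)], [],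
    [(0, 3), (0, 0), (0, 1), (1, 1), (2, 1), (0, 2), (1, 2), (1, 3), (1, 0), (2, 0), (2, 2), (3, 0), (3, 1)], [],
    [(3, 3, 1, 1), (1, 0, 3, 1), (0, 2, 2, 1), (2, 0, 1, 1), (0, 1, 0, 1)]⟩,
  ⟨[(0, 4), (0, 0), (0, 1), (1, 1), (1, 0), (2, 1), (0, 5), (2, 0), (3, 0), (0, 3), (0, 2), (0, 6), (4, 0)],
    [(0, 3), (1, 3), (0, 1), (0, 2), (1, 2), (0, 0), (1, 1), (2, 1), (1, 0), (3, 1), (2, 0), (2, 2), (3, 0)], [],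
    [(0, 1), (0, 3), (1, 1), (0, 2), (0, 0), (1, 2), (2, 2), (1, 0), (2, 1), (1, 3), (2, 0), (3, 1), (3, 0)], [],
    [(0, 2, 0, 1), (0, 1, 1, 1), (4, 0, 2, 1), (0, 0, 1, 1), (3, 0, 0, 1), (2, 1, 3, 1), (1, 3, 2, 1)]⟩,
  ⟨[(0, 6), (0, 1), (0, 0), (0, 3), (1, 0), (2, 0), (1, 1), (3, 0), (0, 4), (4, 0), (0, 5), (0, 2), (5, 0)],
    [(0, 2), (0, 3), (1, 3), (1, 2), (0, 1), (1, 1), (2, 1), (2, 2), (0, 0), (1, 0), (3, 1), (2, 0), (3, 0)], [],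
    [(0, 2), (0, 3), (0, 0), (0, 1), (1, 0), (1, 1), (2, 1), (2, 0), (3, 0), (3, 1), (1, 2), (1, 3), (2, 2)], [],
    [(5, 2, 2, 1), (4, 0, 3, 1), (2, 2, 3, 1), (0, 1, 0, 1), (0, 3, 1, 1), (0, 2, 1, 1), (3, 0, 1, 1), (1, 0, 2, 1)]⟩,
  ⟨[(0, 2), (0, 3), (0, 6), (0, 0), (0, 5), (1, 0), (2, 0), (0, 4), (0, 1), (3, 0), (4, 0), (5, 0), (6, 0)],
    [(0, 3), (1, 3), (0, 1), (0, 2), (1, 2), (0, 0), (1, 1), (1, 0), (2, 1), (3, 1), (2, 2), (2, 0), (3, 0)], [],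
    [(0, 2), (0, 1), (1, 2), (1, 1), (0, 3), (1, 3), (2, 2), (2, 1), (0, 0), (1, 0), (2, 0), (3, 1), (3, 0)], [],
    [(3, 3, 0, 1), (2, 0, 3, 1), (0, 1, 0, 1), (6, 1, 2, 1), (1, 2, 1, 1), (0, 0, 1, 1), (5, 3, 3, 1), (0, 2, 2, 1), (4, 1, 0, 1)]⟩,
  ⟨[(0, 5), (0, 0), (0, 3), (1, 0), (2, 0), (0, 4), (0, 1), (0, 2), (1, 2), (1, 3), (1, 1), (1, 5), (1, 4)],
    [(0, 3), (0, 0), (1, 3), (0, 2), (1, 0), (2, 0), (0, 1), (3, 0), (1, 1), (2, 1), (1, 2), (2, 2), (3, 1)], [],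
    [(0, 1), (1, 1), (0, 2), (2, 1), (1, 2), (0, 0), (1, 0), (2, 0), (3, 0), (3, 1), (0, 3), (1, 3), (2, 2)], [],
    [(1, 2, 2, 1), (0, 0, 1, 1), (2, 2, 2, 1), (1, 1, 0, 1), (0, 3, 3, 1)]⟩,
  ⟨[(0, 4), (0, 0), (1, 4), (1, 0), (0, 2), (0, 1), (0, 3), (1, 1), (2, 1), (1, 3), (2, 0), (1, 2), (0, 5)],
    [(0, 3), (1, 3), (0, 0), (0, 2), (1, 2), (2, 2), (1, 0), (0, 1), (2, 0), (1, 1), (2, 1), (3, 0), (3, 1)], [],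
    [(0, 2), (1, 2), (0, 3), (2, 2), (0, 1), (1, 1), (0, 0), (1, 0), (2, 0), (2, 1), (3, 0), (3, 1), (1, 3)], [],
    [(0, 3, 3, 1), (0, 0, 0, 1), (1, 2, 2, 1), (1, 1, 1, 1), (2, 1, 1, 1)]⟩,
  ⟨[(0, 2), (0, 4), (0, 3), (0, 1), (1, 1), (1, 4), (0, 0), (1, 2), (1, 3), (0, 5), (1, 0), (2, 0), (3, 0)],
    [(0, 3), (0, 1), (1, 3), (0, 2), (0, 0), (1, 2), (1, 1), (2, 1), (2, 2), (1, 0), (2, 0), (3, 1), (3, 0)], [],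
    [(0, 1), (1, 1), (0, 2), (2, 1), (0, 0), (0, 3), (1, 3), (1, 2), (1, 0), (2, 0), (3, 1), (3, 0), (2, 2)], [],
    [(1, 1, 2, 1), (0, 2, 0, 1), (0, 3, 0, 1), (1, 2, 3, 1), (2, 1, 0, 1), (3, 0, 1, 1), (0, 0, 1, 1)]⟩,
  ⟨[(0, 1), (0, 0), (1, 1), (2, 1), (0, 2), (1, 2), (0, 4), (1, 0), (0, 3), (2, 2), (1, 3), (2, 0), (0, 5)],
    [(0, 2), (0, 3), (1, 3), (0, 1), (0, 0), (1, 0), (1, 2), (2, 2), (1, 1), (2, 1), (3, 1), (2, 0), (3, 0)], [],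
    [(0, 1), (1, 1), (2, 1), (0, 0), (0, 2), (3, 1), (0, 3), (1, 0), (1, 3), (1, 2), (2, 0), (3, 0), (2, 2)], [],
    [(1, 1, 1, 1), (2, 2, 1, 1), (0, 3, 3, 1), (0, 0, 0, 1), (1, 1, 2, 1)]⟩,
  ⟨[(0, 0), (0, 1), (0, 3), (0, 2), (0, 5), (1, 0), (1, 2), (0, 4), (2, 0), (1, 1), (2, 1), (3, 0), (1, 3)],
    [(0, 3), (0, 1), (1, 3), (0, 0), (1, 1), (0, 2), (1, 0), (2, 0), (3, 0), (1, 2), (2, 2), (2, 1), (3, 1)], [],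
    [(0, 2), (0, 3), (0, 1), (1, 2), (0, 0), (1, 3), (1, 0), (1, 1), (2, 0), (2, 2), (2, 1), (3, 0), (3, 1)], [],
    [(0, 2, 1, 1), (3, 2, 2, 1), (1, 0, 1, 1), (1, 3, 3, 1), (0, 1, 0, 1), (2, 0, 2, 1)]⟩,
  ⟨[(0, 0), (1, 0), (0, 2), (0, 3), (0, 1), (2, 0), (3, 0), (1, 2), (4, 0), (1, 3), (1, 1), (0, 4), (0, 5)],
    [(0, 2), (0, 3), (1, 3), (0, 0), (1, 0), (0, 1), (1, 1), (2, 0), (2, 1), (1, 2), (3, 0), (3, 1), (2, 2)], [],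
    [(0, 2), (1, 2), (0, 0), (1, 0), (0, 1), (0, 3), (2, 0), (1, 3), (1, 1), (3, 0), (2, 2), (2, 1), (3, 1)], [],
    [(0, 1, 1, 1), (0, 3, 2, 1), (0, 2, 0, 1), (2, 0, 3, 1), (1, 0, 0, 1), (1, 2, 3, 1), (3, 3, 2, 1), (4, 2, 2, 1)]⟩,
  ⟨[(0, 1), (0, 0), (0, 4), (0, 3), (1, 0), (1, 1), (2, 1), (0, 2), (1, 2), (2, 2), (2, 0), (3, 0), (0, 5)],
    [(0, 2), (1, 2), (2, 2), (0, 3), (1, 3), (0, 0), (0, 1), (1, 1), (2, 1), (1, 0), (2, 0), (3, 1), (3, 0)], [],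
    [(0, 2), (0, 0), (0, 3), (0, 1), (1, 1), (2, 1), (1, 0), (1, 3), (1, 2), (2, 0), (3, 0), (2, 2), (3, 1)], [],
    [(3, 1, 2, 1), (0, 3, 1, 1), (0, 3, 3, 1), (2, 2, 1, 1), (1, 1, 2, 1), (0, 0, 0, 1), (1, 1, 3, 1)]⟩,
  ⟨[(0, 3), (0, 2), (0, 4), (0, 1), (0, 5), (0, 0), (1, 0), (2, 0), (1, 2), (3, 0), (1, 1), (2, 1), (3, 1)],
    [(0, 1), (0, 3), (1, 3), (0, 2), (1, 1), (2, 1), (0, 0), (3, 1), (1, 0), (2, 0), (3, 0), (1, 2), (2, 2)], [],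
    [(0, 0), (0, 1), (0, 2), (1, 0), (1, 2), (2, 0), (3, 0), (1, 1), (0, 3), (2, 1), (1, 3), (3, 1), (2, 2)], [],
    [(0, 0, 1, 1), (1, 1, 0, 1), (2, 1, 1, 1), (3, 2, 0, 1), (0, 0, 3, 1), (2, 3, 2, 1), (0, 2, 2, 1), (3, 3, 3, 1)]⟩,
  ⟨[(0, 1), (0, 0), (0, 2), (1, 0), (2, 0), (0, 4), (0, 5), (1, 1), (0, 3), (3, 0), (2, 1), (1, 2), (4, 0)],
    [(0, 3), (0, 1), (1, 3), (0, 2), (1, 2), (2, 2), (0, 0), (1, 0), (2, 0), (1, 1), (2, 1), (3, 0), (3, 1)], [],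
    [(0, 1), (1, 1), (0, 2), (2, 1), (0, 3), (1, 3), (1, 2), (3, 1), (0, 0), (1, 0), (2, 0), (3, 0), (2, 2)], [],
    [(1, 3, 0, 1), (2, 0, 2, 1), (1, 0, 3, 1), (0, 2, 1, 1), (4, 3, 2, 1), (0, 1, 0, 1), (3, 1, 1, 1)]⟩,
  ⟨[(0, 0), (0, 2), (1, 0), (0, 3), (0, 1), (1, 2), (0, 5), (2, 0), (1, 1), (3, 0), (0, 4), (4, 0), (5, 0)],
    [(0, 0), (0, 3), (1, 3), (0, 2), (0, 1), (1, 1), (1, 0), (2, 1), (2, 0), (1, 2), (2, 2), (3, 1), (3, 0)], [],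
    [(0, 2), (0, 0), (0, 1), (0, 3), (1, 2), (1, 0), (2, 2), (1, 3), (1, 1), (2, 0), (3, 0), (2, 1), (3, 1)], [],
    [(0, 1, 0, 1), (5, 0, 0, 1), (2, 3, 3, 1), (3, 3, 1, 1), (0, 2, 2, 1), (1, 0, 1, 1), (4, 2, 2, 1), (0, 1, 3, 1)]⟩,
  ⟨[(0, 1), (0, 2), (0, 0), (1, 0), (1, 1), (0, 4), (2, 0), (0, 3), (2, 1), (3, 0), (0, 5), (4, 0), (3, 1)],
    [(0, 3), (0, 1), (1, 3), (1, 1), (0, 2), (1, 2), (2, 2), (2, 1), (0, 0), (1, 0), (2, 0), (3, 1), (3, 0)], [],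
    [(0, 2), (0, 3), (0, 1), (1, 1), (1, 2), (0, 0), (1, 0), (2, 2), (1, 3), (2, 0), (2, 1), (3, 0), (3, 1)], [],
    [(0, 0, 0, 1), (2, 1, 3, 1), (0, 2, 1, 1), (1, 3, 1, 1), (3, 1, 2, 1), (4, 2, 2, 1)]⟩,
  ⟨[(0, 0), (0, 1), (1, 1), (2, 1), (1, 0), (2, 0), (0, 2), (0, 3), (0, 4), (1, 2), (2, 2), (1, 4), (1, 3)],
    [(0, 3), (0, 1), (1, 3), (0, 0), (1, 0), (0, 2), (1, 1), (2, 0), (1, 2), (3, 0), (2, 2), (2, 1), (3, 1)], [],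
    [(0, 1), (0, 0), (1, 1), (2, 1), (1, 0), (0, 3), (0, 2), (2, 0), (1, 2), (3, 1), (2, 2), (3, 0), (1, 3)], [],
    [(0, 2, 1, 1), (1, 1, 1, 1), (1, 0, 0, 1), (2, 1, 2, 1), (0, 3, 3, 1)]⟩,
  ⟨[(0, 4), (1, 4), (0, 0), (0, 1), (0, 2), (1, 0), (1, 2), (0, 3), (2, 0), (1, 1), (3, 0), (1, 3), (2, 1)],
    [(0, 3), (0, 2), (1, 3), (0, 1), (1, 1), (0, 0), (1, 2), (2, 1), (1, 0), (2, 2), (3, 1), (2, 0), (3, 0)], [],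
    [(0, 1), (1, 1), (2, 1), (0, 2), (0, 0), (3, 1), (1, 2), (1, 0), (2, 0), (3, 0), (0, 3), (2, 2), (1, 3)], [],
    [(2, 0, 1, 1), (1, 1, 2, 1), (3, 1, 0, 1), (1, 3, 3, 1), (0, 2, 0, 1), (0, 0, 1, 1)]⟩,
  ⟨[(0, 0), (0, 3), (0, 1), (1, 1), (1, 0), (2, 0), (0, 4), (1, 3), (0, 2), (1, 2), (3, 0), (4, 0), (1, 4)],
    [(0, 3), (0, 0), (1, 3), (0, 2), (1, 2), (2, 2), (0, 1), (1, 1), (1, 0), (2, 1), (2, 0), (3, 1), (3, 0)], [],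
    [(0, 3), (0, 1), (1, 1), (0, 0), (1, 3), (1, 0), (0, 2), (1, 2), (2, 0), (2, 1), (3, 1), (2, 2), (3, 0)], [],
    [(1, 2, 2, 1), (0, 0, 1, 1), (4, 0, 2, 1), (1, 2, 1, 1), (2, 3, 2, 1), (0, 1, 0, 1), (3, 3, 1, 1), (1, 0, 3, 1)]⟩,
  ⟨[(0, 0), (0, 4), (1, 0), (0, 3), (0, 2), (0, 1), (2, 0), (1, 1), (1, 2), (2, 2), (2, 1), (1, 3), (2, 3)],
    [(0, 3), (1, 3), (0, 2), (0, 1), (1, 1), (0, 0), (2, 1), (1, 2), (2, 2), (1, 0), (3, 1), (2, 0), (3, 0)], [],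
    [(0, 0), (0, 1), (1, 1), (2, 1), (3, 1), (1, 0), (0, 2), (2, 0), (1, 2), (0, 3), (1, 3), (2, 2), (3, 0)], [],
    [(2, 1, 2, 1), (1, 1, 0, 1), (1, 0, 3, 1), (0, 2, 0, 1), (1, 3, 1, 1), (0, 0, 1, 1), (2, 3, 1, 1)]⟩,
  ⟨[(0, 2), (0, 3), (0, 0), (1, 2), (1, 0), (2, 0), (0, 4), (2, 2), (1, 3), (0, 1), (1, 1), (3, 0), (2, 1)],
    [(0, 2), (0, 3), (1, 3), (0, 1), (1, 2), (0, 0), (1, 1), (1, 0), (2, 0), (2, 2), (2, 1), (3, 1), (3, 0)], [],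
    [(0, 0), (0, 2), (0, 1), (1, 1), (0, 3), (1, 3), (1, 0), (2, 1), (1, 2), (2, 0), (3, 1), (3, 0), (2, 2)], [],
    [(3, 3, 2, 1), (0, 2, 0, 1), (1, 0, 1, 1), (2, 1, 3, 1), (0, 1, 2, 1), (2, 3, 0, 1)]⟩,
  ⟨[(0, 0), (1, 0), (0, 1), (1, 1), (2, 0), (0, 4), (3, 0), (0, 2), (1, 2), (0, 3), (2, 1), (3, 1), (1, 3)],
    [(0, 3), (0, 2), (1, 3), (0, 0), (0, 1), (1, 2), (1, 1), (2, 2), (1, 0), (2, 0), (2, 1), (3, 0), (3, 1)], [],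
    [(0, 1), (0, 3), (0, 0), (0, 2), (1, 1), (1, 3), (1, 2), (2, 2), (2, 1), (1, 0), (3, 1), (2, 0), (3, 0)], [],
    [(0, 1, 1, 1), (0, 2, 2, 1), (3, 3, 3, 1), (1, 2, 0, 1), (2, 0, 0, 1), (1, 0, 2, 1)]⟩,
  ⟨[(0, 0), (1, 0), (0, 1), (0, 2), (1, 2), (1, 1), (0, 3), (1, 3), (2, 0), (2, 1), (0, 4), (3, 0), (4, 0)],
    [(0, 3), (1, 3), (0, 1), (0, 0), (1, 1), (1, 0), (0, 2), (2, 0), (3, 0), (2, 1), (1, 2), (3, 1), (2, 2)], [],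
    [(0, 2), (0, 1), (1, 2), (0, 3), (2, 2), (1, 1), (2, 1), (0, 0), (3, 1), (1, 0), (2, 0), (3, 0), (1, 3)], [],
    [(2, 3, 0, 1), (1, 2, 1, 1), (0, 0, 2, 1), (1, 1, 3, 1), (0, 1, 1, 1), (3, 0, 0, 1), (4, 2, 0, 1)]⟩,
  ⟨[(0, 1), (1, 1), (0, 0), (0, 4), (0, 3), (2, 1), (0, 2), (1, 0), (3, 1), (1, 2), (2, 0), (3, 0), (2, 2)],
    [(0, 1), (0, 3), (1, 3), (0, 0), (0, 2), (1, 0), (1, 2), (2, 2), (1, 1), (2, 1), (2, 0), (3, 1), (3, 0)], [],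
    [(0, 0), (0, 1), (0, 3), (1, 0), (0, 2), (1, 1), (1, 3), (2, 1), (1, 2), (2, 0), (3, 1), (2, 2), (3, 0)], [],
    [(2, 0, 0, 1), (0, 3, 3, 1), (1, 2, 2, 1), (3, 3, 0, 1), (3, 0, 3, 1), (0, 1, 1, 1)]⟩,
  ⟨[(0, 1), (0, 0), (1, 1), (1, 0), (0, 2), (2, 0), (1, 2), (2, 2), (0, 3), (2, 1), (3, 0), (4, 0), (0, 4)],
    [(0, 1), (0, 3), (1, 3), (1, 1), (2, 1), (3, 1), (0, 2), (0, 0), (1, 2), (2, 2), (1, 0), (2, 0), (3, 0)], [],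
    [(0, 1), (0, 2), (0, 3), (1, 2), (2, 2), (0, 0), (1, 0), (2, 0), (1, 1), (2, 1), (1, 3), (3, 0), (3, 1)], [],
    [(0, 1, 1, 1), (2, 2, 0, 1), (0, 2, 0, 1), (4, 3, 0, 1), (2, 3, 3, 1), (1, 0, 2, 1), (3, 0, 3, 1)]⟩,
  ⟨[(0, 3), (0, 1), (1, 3), (0, 0), (1, 0), (2, 0), (0, 2), (1, 2), (2, 2), (2, 3), (1, 1), (2, 1), (3, 0)],
    [(0, 3), (1, 3), (0, 2), (0, 0), (0, 1), (1, 2), (1, 1), (1, 0), (2, 0), (2, 2), (2, 1), (3, 0), (3, 1)], [],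
    [(0, 2), (0, 3), (1, 3), (0, 0), (0, 1), (1, 0), (1, 2), (2, 0), (1, 1), (2, 1), (3, 1), (3, 0), (2, 2)], [],
    [(1, 2, 1, 1), (1, 0, 3, 1), (0, 3, 2, 1), (0, 0, 1, 1), (2, 1, 0, 1), (3, 2, 2, 1)]⟩,
  ⟨[(0, 3), (0, 1), (0, 2), (1, 1), (0, 0), (1, 0), (1, 2), (2, 1), (2, 0), (3, 0), (1, 3), (3, 1), (2, 2)],
    [(0, 1), (0, 3), (1, 3), (0, 0), (1, 1), (1, 0), (2, 1), (3, 1), (0, 2), (1, 2), (2, 0), (2, 2), (3, 0)], [],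
    [(0, 1), (0, 0), (0, 3), (1, 3), (1, 1), (0, 2), (1, 0), (2, 0), (2, 1), (1, 2), (2, 2), (3, 0), (3, 1)], [],
    [(0, 3, 3, 1), (3, 3, 0, 1), (2, 0, 0, 1), (0, 2, 2, 1), (1, 1, 1, 1), (3, 0, 3, 1)]⟩]

/-- the shape -/
def kap13 : YoungDiagram := YoungDiagram.ofRowLens [4, 4, 3, 2] (by decide)

theorem kap13_rowLens : kap13.rowLens = [4, 4, 3, 2] := YoungDiagram.rowLens_ofRowLens_eq_self (by decide)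

theorem mem_kap13 (c : ℕ × ℕ) : c ∈ kap13 ↔ c.2 < ([4, 4, 3, 2] : List ℕ).getD c.1 0 := by
  rw [← kap13_rowLens, ← rowLen_eq_getD, ← YoungDiagram.mem_iff_lt_rowLen]

theorem certs13_check : certs13.all (check 13 8 [4, 4, 3, 2]) = true := by decide +kernel

theorem certs13_cover : ((allParts 13).all fun l => certs13.any fun c =>
    fits 13 l c.T || fits 13 l (c.T.map Prod.swap)) = true := by decide +kernel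

theorem core13' : StateH 13 8 (fun _ => True) := by
  refine core_of_certs (κ := kap13) ?_ ?_ ?_ certs13 (by rw [kap13_rowLens]; exact certs13_check)
    certs13_cover
  · rw [card_eq_sum_rowLen kap13 (N := 4) (by
      rw [← YoungDiagram.length_rowLens, kap13_rowLens]; rfl)]
    simp only [rowLen_eq_getD, kap13_rowLens]
    decide
  · ext ⟨i, j⟩
    rw [YoungDiagram.mem_cells, YoungDiagram.mem_cells, YoungDiagram.mem_transpose, mem_kap13,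
      mem_kap13]
    rcases i with _ | _ | _ | _ | i <;> rcases j with _ | _ | _ | _ | j <;> simp
  · rintro ⟨i, j⟩ h
    rw [mem_kap13] at h
    rcases i with _ | _ | _ | _ | i <;> simp at h ⊢ <;> omega

end Crest.Agent.R195
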