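/- Row 195: base case n = 6, certificates found by a random computer search. -/
import Crest.Agent.R195.CertChk

set_option autoImplicit false

namespace Crest.Agent.R195

/-- certificates -/
def certs6 : List Cert := [
  ⟨[(0, 3), (0, 2), (0, 1), (0, 4), (0, 5), (0, 0)],
    [(0, 2), (0, 1), (1, 1), (0, 0), (1, 0), (2, 0)], [],
    [(0, 0), (0, 1), (1, 1), (1, 0), (2, 0), (0, 2)], [(0, 2), (1, 3)],
    [(0, 0, 0, 1), (0, 2, 2, 1), (0, 1, 1, 1)]⟩,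
  ⟨[(0, 1), (0, 2), (0, 0), (0, 4), (0, 3), (1, 0)],
    [(0, 2), (0, 1), (1, 1), (0, 0), (1, 0), (2, 0)], [],
    [(0, 0), (0, 1), (1, 0), (1, 1), (2, 0), (0, 2)], [(0, 1), (2, 3)],
    [(0, 1, 2, 1), (0, 2, 1, 1), (0, 0, 0, 1), (1, 1, 1, 1)]⟩,
  ⟨[(0, 2), (0, 0), (0, 1), (1, 0), (1, 1), (0, 3)],
    [(0, 2), (0, 0), (1, 0), (2, 0), (0, 1), (1, 1)], [],
    [(0, 1), (1, 1), (0, 0), (1, 0), (0, 2), (2, 0)], [(0, 2), (1, 3)],
    [(0, 1, 1, 1), (0, 0, 2, 1), (0, 2, 0, 1), (1, 0, 0, 1)]⟩,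
  ⟨[(0, 3), (0, 0), (1, 0), (0, 1), (0, 2), (2, 0)],
    [(0, 2), (0, 1), (1, 1), (0, 0), (1, 0), (2, 0)], [],
    [(0, 1), (0, 0), (1, 0), (1, 1), (2, 0), (0, 2)], [(1, 3), (0, 2)],
    [(0, 1, 1, 1), (1, 0, 2, 1), (0, 0, 0, 1), (2, 2, 0, 1)]⟩,
  ⟨[(0, 2), (0, 0), (1, 0), (0, 1), (1, 1), (1, 2)],
    [(0, 2), (0, 1), (0, 0), (1, 1), (1, 0), (2, 0)], [],
    [(0, 0), (0, 1), (1, 0), (1, 1), (0, 2), (2, 0)], [(0, 1), (2, 3)],
    [(0, 1, 1, 1), (1, 0, 0, 1), (0, 2, 2, 1)]⟩,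
  ⟨[(0, 0), (1, 0), (0, 1), (2, 0), (1, 1), (0, 2)],
    [(0, 2), (0, 1), (1, 1), (0, 0), (1, 0), (2, 0)], [],
    [(0, 1), (0, 0), (1, 1), (1, 0), (2, 0), (0, 2)], [(1, 2), (0, 3)],
    [(2, 2, 0, 1), (1, 0, 1, 1), (0, 0, 2, 1), (0, 1, 0, 1)]⟩]

/-- the shape -/
def kap6 : YoungDiagram := YoungDiagram.ofRowLens [3, 2, 1] (by decide)

theorem kap6_rowLens : kap6.rowLens = [3, 2, 1] := YoungDiagram.rowLens_ofRowLens_eq_self (by decide)

theorem mem_kap6 (c : ℕ × ℕ) : c ∈ kap6 ↔ c.2 < ([3, 2, 1] : List ℕ).getD c.1 0 := by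
  rw [← kap6_rowLens, ← rowLen_eq_getD, ← YoungDiagram.mem_iff_lt_rowLen]

theorem certs6_check : certs6.all (check 6 5 [3, 2, 1]) = true := by decide +kernel

theorem certs6_cover : ((allParts 6).all fun l => certs6.any fun c =>
    fits 6 l c.T || fits 6 l (c.T.map Prod.swap)) = true := by decide +kernel

theorem core6' : StateH 6 5 (fun _ => True) := by
  refine core_of_certs (κ := kap6) ?_ ?_ ?_ certs6 (by rw [kap6_rowLens]; exact certs6_check)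
    certs6_cover
  · rw [card_eq_sum_rowLen kap6 (N := 3) (by
      rw [← YoungDiagram.length_rowLens, kap6_rowLens]; rfl)]
    simp only [rowLen_eq_getD, kap6_rowLens]
    decide
  · ext ⟨i, j⟩
    rw [YoungDiagram.mem_cells, YoungDiagram.mem_cells, YoungDiagram.mem_transpose, mem_kap6,
      mem_kap6]
    rcases i with _ | _ | _ | _ | i <;> rcases j with _ | _ | _ | _ | j <;> simp
  · rintro ⟨i, j⟩ h
    rw [mem_kap6] at h
    rcases i with _ | _ | _ | _ | i <;> simp at h ⊢ <;> omega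

end Crest.Agent.R195
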