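/- Row 195, task Cores: the three base cases checked by computation. -/
import Crest.Agent.R195.Core6
import Crest.Agent.R195.Core11
import Crest.Agent.R195.Core13

set_option autoImplicit false

namespace Crest.Agent.R195

theorem core6 : StateH 6 5 (fun _ => True) := core6'
theorem core11 : StateH 11 7 (fun _ => True) := core11'
theorem core13 : StateH 13 8 (fun _ => True) := core13'

end Crest.Agent.R195
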