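/- Row 195, task Cover24: the special covering lemma for n = 24. -/
import Crest.Agent.R195.Cover

set_option autoImplicit false

namespace Crest.Agent.R195

open Equiv Finset

variable {ι : Type} [Fintype ι] [DecidableEq ι]

omit [Fintype ι] [DecidableEq ι]

/-- candidate subdiagrams (row lengths) -/
def Cover24_cands : List (List ℕ) :=
  [[6, 4, 2, 1, 1, 1],
   [4, 3, 2, 2, 1, 1, 1, 1],
   [10, 3, 1, 1],
   [3, 2, 1, 1, 1, 1, 1, 1, 1, 1, 1, 1],
   [7, 6, 2],
   [14, 1],
   [5, 2, 2, 2, 2, 1, 1],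
   [5, 4, 2, 2, 2],
   [2, 1, 1, 1, 1, 1, 1, 1, 1, 1, 1, 1, 1, 1],
   [3, 2, 2, 2, 2, 2, 2],
   [8, 1, 1, 1, 1, 1, 1, 1],
   [8, 7],
   [6, 5, 2, 2],
   [4, 3, 2, 2, 2, 2],
   [2, 2, 2, 1, 1, 1, 1, 1, 1, 1, 1, 1],
   [9, 4, 2],
   [1, 1, 1, 1, 1, 1, 1, 1, 1, 1, 1, 1, 1, 1, 1],
   [15]]

/-- rowwise comparison -/
def Cover24_le : List ℕ → List ℕ → Bool
  | [], _ => true
  | _ :: _, [] => false
  | w :: W, x :: L => Nat.ble w x && Cover24_le W L

/-- number of rows with excess `> 2` -/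
def Cover24_cnt : List ℕ → List ℕ → ℕ
  | _, [] => 0
  | [], x :: L => (if 2 < x then 1 else 0) + Cover24_cnt [] L
  | w :: W, x :: L => (if 2 < x - w then 1 else 0) + Cover24_cnt W L

theorem Cover24_le_spec : ∀ W L : List ℕ, Cover24_le W L = true → ∀ r, W.getD r 0 ≤ L.getD r 0
  | [], _, _, r => by simp
  | _ :: _, [], h, _ => by simp [Cover24_le] at h
  | w :: W, x :: L, h, r => by
    simp only [Cover24_le, Bool.and_eq_true, Nat.ble_eq] at h
    cases r with
    | zero => simpa using h.1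
    | succ r => simpa using Cover24_le_spec W L h.2 r

theorem Cover24_cnt_spec : ∀ (W L : List ℕ) (N : ℕ),
    ∑ r ∈ range N, (if 2 < L.getD r 0 - W.getD r 0 then 1 else 0) ≤ Cover24_cnt W L
  | _, [], N => by simp
  | _, _ :: _, 0 => by simp
  | [], x :: L, N + 1 => by
    have := Cover24_cnt_spec [] L N
    rw [Finset.sum_range_succ', Cover24_cnt, add_comm]
    simpa using this
  | w :: W, x :: L, N + 1 => by
    have := Cover24_cnt_spec W L N
    rw [Finset.sum_range_succ', Cover24_cnt, add_comm]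
    simpa using this

theorem Cover24_check : (allParts 24).all (fun L => Cover24_cands.any fun W =>
    Cover24_le W L && Nat.ble (Cover24_cnt W L) 2) = true := by
  decide +kernel

theorem Cover24_good : Cover24_cands.all (fun W => decide (W.length ≤ 15) &&
    (List.range 15).all (fun r => Nat.ble (W.getD (r + 1) 0) (W.getD r 0)) &&
    decide (∑ r ∈ range 15, W.getD r 0 = 15) && Nat.ble (W.getD 2 0) 2) = true := by
  decide +kernel

/-- the case `n = 24 = 15 + 9`: the remainder must not be the `3 × 3` square (finite check over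
`allParts 24`, or by hand) -/
theorem cover_24 {l : YoungDiagram} (h : l.card = 24) :
    ∃ ν ≤ l, ν.card = 15 ∧ (2, 2) ∉ ν ∧ dcol l ν 2 ≤ 2 := by
  have h1 := rowLens_mem_allParts l
  rw [h] at h1
  have h2 := List.all_eq_true.1 Cover24_check _ h1
  obtain ⟨W, hW, h3⟩ := List.any_eq_true.1 h2
  have h4 := List.all_eq_true.1 Cover24_good _ hW
  simp only [Bool.and_eq_true, decide_eq_true_eq, Nat.ble_eq, List.all_eq_true,
    List.mem_range] at h3 h4
  obtain ⟨⟨⟨hlen, hanti⟩, hsum⟩, h22⟩ := h4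
  have hz : ∀ r, 15 ≤ r → W.getD r 0 = 0 := fun r hr => List.getD_eq_default _ _ (hlen.trans hr)
  have hA : Antitone fun r => W.getD r 0 := by
    refine antitone_nat_of_succ_le fun r => ?_
    by_cases hr : r < 15
    · exact hanti r hr
    · rw [hz (r + 1) (by omega)]; exact Nat.zero_le _
  obtain ⟨ν, hν⟩ := exists_yd_of_antitone _ hA 15 (hz 15 le_rfl)
  refine ⟨ν, ?_, ?_, ?_, ?_⟩
  · rintro ⟨a, b⟩ hc
    have hc' : (a, b) ∈ ν := hc
    change (a, b) ∈ l
    rw [YoungDiagram.mem_iff_lt_rowLen] at hc' ⊢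
    rw [hν] at hc'
    rw [rowLen_eq_getD]
    exact lt_of_lt_of_le hc' (Cover24_le_spec _ _ h3.1 a)
  · have hc : ν.colLen 0 ≤ 15 := by
      by_contra hc
      have : (15, 0) ∈ ν := YoungDiagram.mem_iff_lt_colLen.2 (by omega)
      rw [YoungDiagram.mem_iff_lt_rowLen, hν, hz 15 le_rfl] at this
      omega
    rw [card_eq_sum_rowLen ν hc]
    simp only [hν]
    exact hsum
  · rw [YoungDiagram.mem_iff_lt_rowLen, hν]
    omega
  · unfold dcol
    rw [Finset.card_filter]
    simp only [hν, rowLen_eq_getD l]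
    exact (Cover24_cnt_spec _ _ _).trans h3.2

end Crest.Agent.R195
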