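/- Row 195, task Wedge: exterior products as vectors of hook Specht modules. -/
import Crest.Agent.R195.GoodVec

set_option autoImplicit false

namespace Crest.Agent.R195

open Equiv Finset

variable {ι : Type} [Fintype ι] [DecidableEq ι]

variable {a : ℕ}

theorem mem_hook {c : ℕ × ℕ} : c ∈ hook a ↔ c.1 ≤ a ∧ c.2 ≤ a ∧ (c.1 = 0 ∨ c.2 = 0) := by
  rw [← YoungDiagram.mem_cells]
  simp only [hook, mem_filter, mem_product, mem_range]
  omega
theorem wedge_rowLen_hook (a r : ℕ) :
    (hook a).rowLen r = if r = 0 then a + 1 else if r ≤ a then 1 else 0 := by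
  refine eq_of_forall_lt_iff fun c => ?_
  rw [← YoungDiagram.mem_iff_lt_rowLen, mem_hook]
  split_ifs <;> simp only <;> omega
theorem card_hook (a : ℕ) : (hook a).card = 2 * a + 1 := by
  rw [card_eq_sum_rowLen (hook a) (N := a + 1), sum_range_succ']
  · rw [sum_congr rfl (g := fun _ => 1) fun r hr => by
      rw [wedge_rowLen_hook, if_neg (by omega), if_pos (by simpa using hr)]]
    simp [wedge_rowLen_hook]
    omega
  · by_contra h
    have := YoungDiagram.mem_iff_lt_colLen.2 (not_le.1 h)
    rw [mem_hook] at this
    simp only at this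
    omega
theorem rowLen_hook (a r : ℕ) :
    (hook a).rowLen r = if r = 0 then a + 1 else if r ≤ a then 1 else 0 := by
  exact wedge_rowLen_hook a r
theorem transpose_hook (a : ℕ) : (hook a).transpose = hook a := by
  ext c
  rw [YoungDiagram.mem_cells, YoungDiagram.mem_cells, YoungDiagram.mem_transpose, mem_hook,
    mem_hook]
  simp only [Prod.fst_swap, Prod.snd_swap]
  tauto

omit [Fintype ι] in
theorem wword_apply (p : Fin a ↪ ι) (j : Fin a) : wword p (p j) = (j : ℕ) + 1 := by
  unfold wword
  rw [sum_eq_single j]
  · simp
  · intro l _ hl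
    exact if_neg fun h => hl (p.injective h)
  · simp
omit [Fintype ι] in
theorem wword_of_notMem (p : Fin a → ι) {i : ι} (h : ∀ j, p j ≠ i) : wword p i = 0 := by
  exact sum_eq_zero fun j _ => if_neg (h j)
omit [Fintype ι] in
theorem wedge_exists_of_wword_ne_zero (p : Fin a → ι) {i : ι} (h : wword p i ≠ 0) :
    ∃ j, p j = i := by
  by_contra hc
  push Not at hc
  exact h (wword_of_notMem p hc)
omit [Fintype ι] in
theorem wedge_wword_eq_succ (p : Fin a ↪ ι) {i : ι} {j : Fin a} :
    wword p i = (j : ℕ) + 1 ↔ i = p j := by
  constructor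
  · intro h
    obtain ⟨l, rfl⟩ := wedge_exists_of_wword_ne_zero p (i := i) (by omega)
    rw [wword_apply] at h
    rw [Fin.ext (show (l : ℕ) = j by omega)]
  · rintro rfl
    exact wword_apply p j
omit [Fintype ι] in
theorem wword_injective {p q : Fin a ↪ ι} (h : wword p = wword q) : p = q := by
  ext j
  rw [← wedge_wword_eq_succ, ← h, wword_apply]
omit [Fintype ι] in
theorem wword_comp (p : Fin a → ι) (g : Perm ι) : wword p ∘ g = wword (g.symm ∘ p) := by
  funext i
  simp [wword, Equiv.symm_apply_eq]

theorem wedge_apply (x : Matrix (Fin a) ι ℂ) (p : Fin a ↪ ι) :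
    wedge x (wword p) = (x.submatrix id p).det := by
  unfold wedge
  rw [Finsupp.finsetSum_apply, sum_eq_single p]
  · simp
  · intro q _ hq
    rw [Finsupp.smul_apply, Finsupp.single_eq_of_ne fun h => hq (wword_injective h).symm, smul_zero]
  · simp
theorem exists_of_wedge_apply_ne_zero {x : Matrix (Fin a) ι ℂ} {y : ι → ℕ} (h : wedge x y ≠ 0) :
    ∃ p : Fin a ↪ ι, y = wword p := by
  by_contra hc
  push Not at hc
  apply h
  unfold wedge
  rw [Finsupp.finsetSum_apply]
  refine sum_eq_zero fun q _ => ?_
  rw [Finsupp.smul_apply, Finsupp.single_eq_of_ne (hc q), smul_zero]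
theorem wedge_mul (M : Matrix (Fin a) (Fin a) ℂ) (x : Matrix (Fin a) ι ℂ) :
    wedge (M * x) = M.det • wedge x := by
  unfold wedge
  rw [smul_sum]
  refine sum_congr rfl fun p _ => ?_
  have : (M * x).submatrix id p = M * x.submatrix id p := by
    ext i j
    simp [Matrix.mul_apply]
  rw [this, Matrix.det_mul, mul_smul]
theorem wrep_wedge (g : Perm ι) (x : Matrix (Fin a) ι ℂ) :
    wrep ι g (wedge x) = wedge (x.submatrix id g.symm) := by
  unfold wedge
  rw [map_sum]
  refine Fintype.sum_equiv (Equiv.embeddingCongr (Equiv.refl _) g) _ _ fun p => ?_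
  rw [map_smul, wrep_single, wword_comp]
  congr 2
  ext i j
  simp [Equiv.embeddingCongr, Function.Embedding.congr]
omit [Fintype ι] [DecidableEq ι] in
theorem wedge_submatrix_updateRow (x : Matrix (Fin a) ι ℂ) (k : Fin a) (u : ι → ℂ)
    (p : Fin a → ι) :
    (x.updateRow k u).submatrix id p = (x.submatrix id p).updateRow k (u ∘ p) := by
  ext i j
  by_cases h : i = k
  · subst h
    simp
  · simp [Matrix.updateRow_ne h]
theorem wedge_updateRow_add (x : Matrix (Fin a) ι ℂ) (k : Fin a) (u v : ι → ℂ) :
    wedge (x.updateRow k (u + v)) = wedge (x.updateRow k u) + wedge (x.updateRow k v) := by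
  unfold wedge
  rw [← sum_add_distrib]
  refine sum_congr rfl fun p _ => ?_
  rw [wedge_submatrix_updateRow, wedge_submatrix_updateRow, wedge_submatrix_updateRow, ← add_smul,
    ← Matrix.det_updateRow_add]
  rfl
theorem wedge_updateRow_smul (x : Matrix (Fin a) ι ℂ) (k : Fin a) (c : ℂ) (u : ι → ℂ) :
    wedge (x.updateRow k (c • u)) = c • wedge (x.updateRow k u) := by
  unfold wedge
  rw [smul_sum]
  refine sum_congr rfl fun p _ => ?_
  rw [wedge_submatrix_updateRow, wedge_submatrix_updateRow, smul_smul,
    ← Matrix.det_updateRow_smul]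
  rfl

theorem wedge_wt_wword (hι : Fintype.card ι = 2 * a + 1) (p : Fin a ↪ ι) (r : ℕ) :
    wt univ (wword p) r = (hook a).rowLen r := by
  rw [rowLen_hook]
  unfold wt
  split_ifs with h0 h1
  · have : (univ.filter fun q => wword p q = r) = (univ.map p)ᶜ := by
      ext q
      simp only [mem_filter, mem_univ, true_and, mem_compl, mem_map, not_exists, h0]
      constructor
      · rintro h j rfl
        rw [wword_apply] at h
        omega
      · exact fun h => wword_of_notMem p h
    rw [this, card_compl, card_map, card_univ, Fintype.card_fin, hι]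
    omega
  · have : (univ.filter fun q => wword p q = r) = {p ⟨r - 1, by omega⟩} := by
      ext q
      simp only [mem_filter, mem_univ, true_and, mem_singleton]
      rw [← wedge_wword_eq_succ]
      simp only
      omega
    rw [this, card_singleton]
  · rw [card_eq_zero, filter_eq_empty_iff]
    intro q _ h
    obtain ⟨j, rfl⟩ := wedge_exists_of_wword_ne_zero p (i := q) (by omega)
    rw [wword_apply] at h
    omega

theorem wedge_Eop {x : Matrix (Fin a) ι ℂ} (hx : ∀ k, ∑ i, x k i = 0) {i j : ℕ} (hij : i < j) :
    Eop univ i j (wedge x) = 0 := by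
  ext z
  rw [Eop_apply, Finsupp.zero_apply]
  by_contra hne
  apply hne
  obtain ⟨q0, hq0, h0⟩ := exists_ne_zero_of_sum_ne_zero hne
  have hz0 : z q0 = i := (mem_filter.1 hq0).2
  obtain ⟨p, hp⟩ := exists_of_wedge_apply_ne_zero h0
  have hj : wword p q0 = j := by rw [← hp, Function.update_self]
  obtain ⟨k, rfl⟩ := wedge_exists_of_wword_ne_zero p (i := q0) (by omega)
  rw [wword_apply] at hj
  have hz : ∀ q, q ≠ p k → z q = wword p q := fun q hq => by
    rw [← hp, Function.update_of_ne hq]
  rcases Nat.eq_zero_or_pos i with rfl | hi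
  · have key : ∀ q, (if z q = 0 then wedge x (Function.update z q j) else 0) =
        Matrix.cramer (x.submatrix id p) (fun r => x r q) k := by
      intro q
      rw [Matrix.cramer_apply]
      split_ifs with hq
      · have hql : ∀ l, l ≠ k → p l ≠ q := by
          rintro l hl rfl
          rw [hz _ (fun h => hl (p.injective h)), wword_apply] at hq
          omega
        have hinj : Function.Injective (Function.update p k q) := by
          intro l m hlm
          by_cases hl : l = k <;> by_cases hm : m = k
          · rw [hl, hm]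
          · rw [hl, Function.update_self, Function.update_of_ne hm] at hlm
            exact absurd hlm.symm (hql m hm)
          · rw [hm, Function.update_self, Function.update_of_ne hl] at hlm
            exact absurd hlm (hql l hl)
          · rw [Function.update_of_ne hl, Function.update_of_ne hm] at hlm
            exact p.injective hlm
        set p' : Fin a ↪ ι := ⟨Function.update p k q, hinj⟩ with hp'
        have hk' : p' k = q := by simp [hp']
        have hl' : ∀ l, l ≠ k → p' l = p l := fun l hl => by
          simp [hp', Function.update_of_ne hl]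
        have e : Function.update z q j = wword p' := by
          funext t
          by_cases ht : t = q
          · rw [ht, Function.update_self, ← hk', wword_apply, hj]
          · rw [Function.update_of_ne ht]
            by_cases hl : ∃ l, l ≠ k ∧ p l = t
            · obtain ⟨l, hl, rfl⟩ := hl
              rw [hz _ (fun h => hl (p.injective h)), wword_apply, ← hl' l hl, wword_apply]
            · push Not at hl
              rw [wword_of_notMem p' (i := t)]
              · by_cases htk : t = p k
                · rw [htk, hz0]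
                · rw [hz t htk]
                  refine wword_of_notMem p fun l => ?_
                  by_cases hlk : l = k
                  · rw [hlk]
                    exact Ne.symm htk
                  · exact hl l hlk
              · intro l
                by_cases hlk : l = k
                · rw [hlk, hk']
                  exact Ne.symm ht
                · rw [hl' l hlk]
                  exact hl l hlk
        rw [e, wedge_apply]
        congr 1
        ext r c
        by_cases hc : c = k
        · subst hc
          simp [hk']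
        · simp [Matrix.updateCol_ne hc, hl' c hc]
      · have hqk : q ≠ p k := fun h => hq (by rw [h, hz0])
        rw [hz q hqk] at hq
        obtain ⟨l, rfl⟩ := wedge_exists_of_wword_ne_zero p hq
        have hl : l ≠ k := fun h => hqk (by rw [h])
        exact (Matrix.det_updateCol_eq_zero (M := x.submatrix id p) hl).symm
    rw [sum_filter, sum_congr rfl fun q _ => key q]
    refine (Matrix.sum_cramer_apply (x.submatrix id p) univ (fun r q => x r q) k).trans ?_
    simp only [hx]
    exact congrFun (map_zero (Matrix.cramer (x.submatrix id p))) k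
  · set l : Fin a := ⟨i - 1, by omega⟩ with hl
    have hli : (l : ℕ) + 1 = i := by simp only [hl]; omega
    have hlk : l ≠ k := fun h => by
      rw [h] at hli
      omega
    have hpl : p l ≠ p k := fun h => hlk (p.injective h)
    have hf : (univ.filter fun q => z q = i) = {p k, p l} := by
      ext q
      simp only [mem_filter, mem_univ, true_and, mem_insert, mem_singleton]
      by_cases hq : q = p k
      · simp [hq, hz0]
      · rw [hz q hq, ← hli, wedge_wword_eq_succ]
        simp [hq]
    set p' : Fin a ↪ ι := (swap k l).toEmbedding.trans p with hp'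
    have hp'a : ∀ m, p' m = p (swap k l m) := fun m => rfl
    have e : Function.update z (p l) j = wword p' := by
      funext t
      by_cases ht : t = p l
      · rw [ht, Function.update_self, ← hj, eq_comm, wedge_wword_eq_succ, hp'a, swap_apply_left]
      · rw [Function.update_of_ne ht]
        by_cases htk : t = p k
        · rw [htk, hz0, ← hli, eq_comm, wedge_wword_eq_succ, hp'a, swap_apply_right]
        · rw [hz t htk]
          by_cases hm : ∃ m, p m = t
          · obtain ⟨m, rfl⟩ := hm
            rw [wword_apply, eq_comm, wedge_wword_eq_succ, hp'a,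
              swap_apply_of_ne_of_ne (fun h => htk (by rw [h])) (fun h => ht (by rw [h]))]
          · push Not at hm
            rw [wword_of_notMem p hm, wword_of_notMem p' fun m => hm _]
    rw [hf, sum_pair hpl.symm, hp, e, wedge_apply, wedge_apply]
    have e2 : x.submatrix id p' = (x.submatrix id p).submatrix id (swap k l) := rfl
    rw [e2, Matrix.det_permute', Perm.sign_swap hlk.symm]
    simp

/-- HW check: `E_{ij}` (`1 ≤ i < j`) by antisymmetry of the determinant; `E_{0j}` because the sum of
all columns of `x` is zero. -/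
theorem wedge_mem_Spec (hι : Fintype.card ι = 2 * a + 1) {x : Matrix (Fin a) ι ℂ}
    (hx : ∀ k, ∑ i, x k i = 0) : wedge x ∈ Spec univ (hook a) := by
  refine HW_le_Spec _ _ ⟨fun y hy r => ?_, fun i j hij => wedge_Eop hx hij⟩
  obtain ⟨p, rfl⟩ := exists_of_wedge_apply_ne_zero hy
  exact wedge_wt_wword hι p r

theorem wedge_expand (L : WM ι →ₗ[ℂ] WM ι) (G : Set (ι → ℂ)) (K : Finset (Fin a))
    (x : Matrix (Fin a) ι ℂ) (hx : ∀ k ∈ K, x k ∈ Submodule.span ℂ G)
    (h : ∀ x' : Matrix (Fin a) ι ℂ, (∀ k ∈ K, x' k ∈ G) → (∀ k ∉ K, x' k = x k) →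
      L (wedge x') = 0) : L (wedge x) = 0 := by
  induction K using Finset.induction_on generalizing x with
  | empty => exact h x (by simp) (fun _ _ => rfl)
  | insert k K hk ih =>
    have key : ∀ u ∈ Submodule.span ℂ G, L (wedge (x.updateRow k u)) = 0 := by
      intro u hu
      induction hu using Submodule.span_induction with
      | mem u hu =>
        refine ih _ (fun l hl => ?_) (fun x' h1 h2 => h x' (fun l hl => ?_) (fun l hl => ?_))
        · rw [Matrix.updateRow_ne (ne_of_mem_of_not_mem hl hk)]
          exact hx l (mem_insert_of_mem hl)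
        · rcases mem_insert.1 hl with rfl | hl'
          · rw [h2 l hk, Matrix.updateRow_self]
            exact hu
          · exact h1 l hl'
        · rw [mem_insert, not_or] at hl
          rw [h2 l hl.2, Matrix.updateRow_ne hl.1]
      | zero =>
        rw [← zero_smul ℂ (0 : ι → ℂ), wedge_updateRow_smul, zero_smul, map_zero]
      | add u v _ _ hu hv => rw [wedge_updateRow_add, map_add, hu, hv, add_zero]
      | smul c u _ hu => rw [wedge_updateRow_smul, map_smul, hu, smul_zero]
    have := key _ (hx k (mem_insert_self _ _))
    rwa [Matrix.updateRow_eq_self] at this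

theorem wedge_eq_zero_of_det {x : Matrix (Fin a) ι ℂ}
    (h : ∀ p : Fin a ↪ ι, (x.submatrix id p).det = 0) : wedge x = 0 :=
  sum_eq_zero fun p _ => by rw [h p, zero_smul]

/-- expand the rows in `K` into basis vectors; two elements of `S` are unused -/
theorem wedge_alt_kill {x : Matrix (Fin a) ι ℂ} {S : Finset ι} (K : Finset (Fin a))
    (hconst : ∀ k ∉ K, ∀ i ∈ S, ∀ j ∈ S, x k i = x k j) (hS : K.card + 2 ≤ S.card) :
    act (alt S) (wedge x) = 0 := by
  refine wedge_expand (act (alt S)) (Set.range fun y : ι => (Pi.single y 1 : ι → ℂ)) K x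
    (fun k _ => ?_) (fun x' h1 h2 => ?_)
  · rw [pi_eq_sum_univ' (x k)]
    refine Submodule.sum_mem _ fun y _ => Submodule.smul_mem _ _ (Submodule.subset_span ⟨y, rfl⟩)
  · choose y hy using h1
    have hc : 1 < (S \ K.attach.image fun k => y k.1 k.2).card := by
      have h3 : (K.attach.image fun k => y k.1 k.2).card ≤ K.card :=
        card_image_le.trans card_attach.le
      have h4 := le_card_sdiff (K.attach.image fun k => y k.1 k.2) S
      omega
    obtain ⟨i, hi, j, hj, hij⟩ := one_lt_card.1 hc
    rw [mem_sdiff] at hi hj
    refine act_palt_eq_zero_of_swap hij hi.1 hj.1 rfl ?_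
    rw [wrep_wedge]
    congr 1
    ext k t
    rw [Matrix.submatrix_apply, id, symm_swap]
    refine apply_swap_eq_self (v := x' k) ?_ t
    by_cases hk : k ∈ K
    · have hi' : i ≠ y k hk := fun h => hi.2 (mem_image.2 ⟨⟨k, hk⟩, mem_attach _ _, h.symm⟩)
      have hj' : j ≠ y k hk := fun h => hj.2 (mem_image.2 ⟨⟨k, hk⟩, mem_attach _ _, h.symm⟩)
      rw [← hy k hk]
      simp [hi', hj']
    · rw [h2 k hk]
      exact hconst k hk i hi.1 j hj.1

/-- fix `c₀ ∈ S`, expand the rows in `K` into the vectors `e_y - e_{c₀}` (`y ∈ P`); if the `y`'s are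
distinct and `≠ c₀`, one of them lies in `S`, and swapping it with `c₀` negates the wedge
(`wedge_mul` with the identity matrix whose column `k` is replaced) -/
theorem wedge_sym_kill {x : Matrix (Fin a) ι ℂ} {P S : Finset ι} (K : Finset (Fin a))
    (hconst : ∀ k ∉ K, ∀ i ∈ P, ∀ j ∈ P, x k i = x k j) (hsupp : ∀ k ∈ K, ∀ i ∉ P, x k i = 0)
    (hsum : ∀ k ∈ K, ∑ i, x k i = 0) (hSP : S ⊆ P) (hne : S.Nonempty)
    (hS : P.card + 1 ≤ S.card + K.card) : act (sym S) (wedge x) = 0 := by
  obtain ⟨c, hc⟩ := hne
  refine wedge_expand (act (sym S))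
    ((fun y : ι => (Pi.single y 1 - Pi.single c 1 : ι → ℂ)) '' (P : Set ι)) K x
    (fun k hk => ?_) (fun x' h1 h2 => ?_)
  · have e : x k = ∑ y ∈ P, x k y • (Pi.single y 1 - Pi.single c 1 : ι → ℂ) := by
      have h0 : ∑ y ∈ P, x k y = 0 := by
        rw [← hsum k hk]
        exact sum_subset (subset_univ _) fun y _ hy => hsupp k hk y hy
      simp only [smul_sub, sum_sub_distrib, ← sum_smul, h0, zero_smul, sub_zero]
      conv_lhs => rw [pi_eq_sum_univ' (x k)]
      symm
      refine sum_subset (subset_univ _) fun y _ hy => ?_
      rw [hsupp k hk y hy, zero_smul]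
    rw [e]
    exact Submodule.sum_mem _ fun y hy =>
      Submodule.smul_mem _ _ (Submodule.subset_span ⟨y, hy, rfl⟩)
  · choose y hyP hy using h1
    by_cases hA : ∃ k hk, y k hk = c
    · obtain ⟨k, hk, h⟩ := hA
      rw [wedge_eq_zero_of_det fun p => Matrix.det_eq_zero_of_row_eq_zero k fun t => ?_, map_zero]
      rw [Matrix.submatrix_apply, id, ← hy k hk, h]
      simp
    by_cases hB : ∃ k hk l hl, k ≠ l ∧ y k hk = y l hl
    · obtain ⟨k, hk, l, hl, hkl, h⟩ := hB
      rw [wedge_eq_zero_of_det fun p => Matrix.det_zero_of_row_eq hkl ?_, map_zero]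
      funext t
      rw [Matrix.submatrix_apply, Matrix.submatrix_apply, id, id, ← hy k hk, ← hy l hl, h]
    push Not at hA hB
    have hC : ∃ k hk, y k hk ∈ S := by
      by_contra hC
      push Not at hC
      have h3 : K.attach.card ≤ (P \ S).card := by
        refine card_le_card_of_injOn (fun k => y k.1 k.2) (fun k _ => ?_) (fun k _ l _ h => ?_)
        · exact mem_coe.2 (mem_sdiff.2 ⟨hyP k.1 k.2, hC k.1 k.2⟩)
        · by_contra hkl
          exact hB k.1 k.2 l.1 l.2 (fun h' => hkl (Subtype.ext h')) h
      rw [card_attach, card_sdiff_of_subset hSP] at h3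
      have := card_le_card hSP
      omega
    obtain ⟨k, hk, hkS⟩ := hC
    refine act_psym_eq_zero_of_swap hkS hc rfl ?_
    set v : Fin a → ℂ := fun l => if l ∈ K then -1 else 0 with hv
    have e : x'.submatrix id (swap (y k hk) c).symm = (1 : Matrix (Fin a) (Fin a) ℂ).updateCol k v * x' := by
      ext l t
      have e1 : ((1 : Matrix (Fin a) (Fin a) ℂ).updateCol k v * x') l t =
          (if l = k then 0 else x' l t) + v l * x' k t := by
        rw [Matrix.mul_apply, ← sum_erase_add _ _ (mem_univ k), Matrix.updateCol_self]
        congr 1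
        rw [sum_congr rfl (g := fun m => if l = m then x' m t else 0) fun m hm => by
          rw [Matrix.updateCol_ne (ne_of_mem_erase hm), Matrix.one_apply, ite_mul, one_mul,
            zero_mul]]
        simp
      rw [e1, Matrix.submatrix_apply, id, symm_swap]
      have hkc := hA k hk
      by_cases hl : l ∈ K
      · have hsw : ∀ s, (Pi.single s 1 : ι → ℂ) (swap (y k hk) c t) =
            (Pi.single (swap (y k hk) c s) 1 : ι → ℂ) t := by
          intro s
          simp only [Pi.single_apply, swap_apply_eq_iff]
        rw [← hy l hl, ← hy k hk]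
        simp only [Pi.sub_apply, hsw, swap_apply_right, hv, if_pos hl]
        by_cases hlk : l = k
        · subst hlk
          simp
        · rw [if_neg hlk, swap_apply_of_ne_of_ne (hB l hl k hk hlk) (hA l hl)]
          ring
      · have hlk : l ≠ k := fun h => hl (h ▸ hk)
        rw [if_neg hlk, hv]
        simp only [if_neg hl, zero_mul, add_zero]
        refine apply_swap_eq_self (v := x' l) ?_ t
        rw [h2 l hl]
        exact hconst l hl _ (hSP hkS) _ (hSP hc)
    rw [wrep_wedge, e, wedge_mul, ← Matrix.cramer_apply, Matrix.cramer_one, Module.End.one_apply,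
      hv]
    simp [hk]

end Crest.Agent.R195
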