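/- Row 195, task Domino: definitions for the hook test. -/
import Crest.Agent.R195.Wedge

set_option autoImplicit false

namespace Crest.Agent.R195

open Equiv Finset

variable {ι : Type} [Fintype ι] [DecidableEq ι]

/-- first site of the pair `k` -/
def sx {a : ℕ} (k : Fin a) : Fin (2 * a + 1) := ⟨2 * k + 1, by omega⟩
/-- second site of the pair `k` -/
def sy {a : ℕ} (k : Fin a) : Fin (2 * a + 1) := ⟨2 * k + 2, by omega⟩

/-- Domino tilings used for the test.  Pairs `k < i` are vertical dominoes ("ω"), pairs `k ≥ i` are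
horizontal dominoes ("q"); site `0` is alone in its column; `β ∘ row` marks the "even" sites. -/
structure Domino (a i : ℕ) (T : Fin (2 * a + 1) → ℕ × ℕ) (β : ℕ → ℤ) : Prop where
  inj : Function.Injective T
  h0 : ∀ s, (T s).2 = (T 0).2 → s = 0
  hβ : ∀ r, β r = 0 ∨ (r = 0 ∧ β r = 1) ∨ (r = 1 ∧ β r = -1)
  hev : ∀ k : Fin a, β (T (sx k)).1 = 0 ↔ β (T (sy k)).1 = 0
  hω : ∀ k : Fin a, (k : ℕ) < i → (T (sx k)).2 = (T (sy k)).2
  hωev : ∀ k : Fin a, (k : ℕ) < i → β (T (sx k)).1 ≠ 0 → (T (sx k)).1 = 0 ∧ (T (sy k)).1 = 1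
  hq : ∀ k : Fin a, i ≤ (k : ℕ) → (T (sx k)).1 = (T (sy k)).1
  /-- odd sites are in the columns `0`, `1` -/
  hodd : ∀ s, β (T s).1 = 0 → (T s).2 ≤ 1
  hq01 : ∀ k : Fin a, i ≤ (k : ℕ) → (T (sx k)).2 ≤ 1 → (T (sy k)).2 ≤ 1 →
    (T (sx k)).2 = 0 ∧ (T (sy k)).2 = 1
  hω0 : ∀ k : Fin a, (k : ℕ) < i → (T (sx k)).2 ≤ 1 → (T (sx k)).2 = 0
  /-- rows of odd dominoes contain nothing else -/
  hrowq : ∀ k : Fin a, i ≤ (k : ℕ) → β (T (sx k)).1 = 0 → ∀ s, (T s).1 = (T (sx k)).1 →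
    s = sx k ∨ s = sy k
  hrowω : ∀ k : Fin a, (k : ℕ) < i → β (T (sx k)).1 = 0 →
    (∀ s, (T s).1 = (T (sx k)).1 → s = sx k) ∧ ∀ s, (T s).1 = (T (sy k)).1 → s = sy k
  /-- two even sites in one row and in the columns of a horizontal domino form such a domino -/
  hθq : ∀ l : Fin a, i ≤ (l : ℕ) → ∀ s s', (T s).2 = (T (sx l)).2 → (T s').2 = (T (sy l)).2 →
    β (T s).1 ≠ 0 → (T s).1 = (T s').1 → ∃ l' : Fin a, i ≤ (l' : ℕ) ∧ s = sx l' ∧ s' = sy l'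
  /-- the two even sites in the column of a vertical domino form a vertical domino, unless this is
  column `0` and there is an even site in column `1` -/
  hθω : ∀ l : Fin a, (l : ℕ) < i → ∀ s s', (T s).2 = (T (sx l)).2 → (T s').2 = (T (sx l)).2 →
    (T s).1 = 0 → (T s').1 = 1 → β 1 ≠ 0 →
      (∃ l' : Fin a, (l' : ℕ) < i ∧ s = sx l' ∧ s' = sy l') ∨
        ((T (sx l)).2 = 0 ∧ (∃ t, (T t).2 = 1 ∧ β (T t).1 ≠ 0) ∧
          ∀ t, (T t).2 = 1 → ∃ l₂ : Fin a, t = sy l₂ ∧ (T (sx l₂)).2 = 0)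

/-- the row-invariant matrices of the test -/
def tM {a : ℕ} (i : ℕ) (T : Fin (2 * a + 1) → ℕ × ℕ) (β : ℕ → ℤ) (k : Fin a) :
    Fin (2 * a + 1) → Fin (2 * a + 1) → ℤ := fun s s' =>
  if β (T (sx k)).1 ≠ 0 then (if s = s' then β (T s).1 else 0)
  else if (k : ℕ) < i then (if s = sx k ∧ s' = sy k then 1 else 0)
  else (if (s = sx k ∧ s' = sy k) ∨ (s = sy k ∧ s' = sx k) then 1 else 0)

/-- the value of the test (a mixed discriminant) -/
def tV {a : ℕ} (i : ℕ) (T : Fin (2 * a + 1) → ℕ × ℕ) (β : ℕ → ℤ) : ℤ :=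
  ∑ c ∈ stab univ (colf T), (Perm.sign c : ℤ) * ∑ π : Perm (Fin a), ∑ π' : Perm (Fin a),
    (Perm.sign π : ℤ) * (Perm.sign π' : ℤ) *
      ∏ k, ∑ s, ∑ s', dmat a (π k) s * tM i T β k (c s) (c s') * wmat a i (π' k) s'

end Crest.Agent.R195
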