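/- Row 195, task DominoEx: existence of domino tilings. -/
import Crest.Agent.R195.Domino

set_option autoImplicit false

namespace Crest.Agent.R195

open Equiv Finset

variable {ι : Type} [Fintype ι] [DecidableEq ι]

/-- the explicit tiling -/
def dominoExT (nb nt nq na c0 : ℕ) (s : ℕ) : ℕ × ℕ :=
  if s = 0 then (0, c0 + nb + 2 * na)
  else if s ≤ 2 * nb then ((s - 1) % 2, c0 + (s - 1) / 2)
  else if s ≤ 2 * (nb + nt) then (nq + (s - 1 - 2 * nb), 0)
  else if s ≤ 2 * (nb + nt + nq) then ((s - 1 - 2 * (nb + nt)) / 2, (s - 1) % 2)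
  else (0, c0 + nb + (s - 1 - 2 * (nb + nt + nq)))

theorem dominoExT_spec (nb nt nq na c0 s : ℕ) :
    (s = 0 ∧ (dominoExT nb nt nq na c0 s).1 = 0 ∧
      (dominoExT nb nt nq na c0 s).2 = c0 + nb + 2 * na) ∨
    (1 ≤ s ∧ s ≤ 2 * nb ∧ (dominoExT nb nt nq na c0 s).1 ≤ 1 ∧
      2 * (dominoExT nb nt nq na c0 s).2 + 1 + (dominoExT nb nt nq na c0 s).1 = s + 2 * c0) ∨
    (2 * nb < s ∧ s ≤ 2 * (nb + nt) ∧ (dominoExT nb nt nq na c0 s).2 = 0 ∧
      (dominoExT nb nt nq na c0 s).1 + 2 * nb + 1 = s + nq) ∨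
    (2 * (nb + nt) < s ∧ s ≤ 2 * (nb + nt + nq) ∧ (dominoExT nb nt nq na c0 s).2 ≤ 1 ∧
      2 * (dominoExT nb nt nq na c0 s).1 + (dominoExT nb nt nq na c0 s).2 + 1 + 2 * (nb + nt) = s) ∨
    (2 * (nb + nt + nq) < s ∧ (dominoExT nb nt nq na c0 s).1 = 0 ∧
      (dominoExT nb nt nq na c0 s).2 + 1 + 2 * (nb + nt + nq) = s + c0 + nb) := by
  unfold dominoExT
  split_ifs <;> dsimp only <;> omega

theorem dominoEx_pair {a : ℕ} (s s' : Fin (2 * a + 1)) (h1 : (s : ℕ) % 2 = 1)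
    (h2 : (s' : ℕ) = s + 1) : ∃ l : Fin a, 2 * (l : ℕ) + 1 = s ∧ s = sx l ∧ s' = sy l := by
  have := s'.2
  refine ⟨⟨s / 2, by omega⟩, by dsimp only; omega, Fin.ext ?_, Fin.ext ?_⟩
  · simp only [sx]; omega
  · simp only [sy]; omega

theorem dominoEx_domino {a nb nt nq na c0 ob : ℕ} (ha : a = nb + nt + nq + na)
    (hcase : (2 ≤ nq ∧ c0 = 2 ∧ ob = 2) ∨ (nq = 0 ∧ nb = 0 ∧ c0 = 1 ∧ ob = 2) ∨
      (nq = 1 ∧ nb = 0 ∧ c0 = 2 ∧ ob = 1)) :
    Domino a (nb + nt) (fun s => dominoExT nb nt nq na c0 s)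
      (fun r => if r = 0 then 1 else if r < ob then -1 else 0) := by
  have hβ0 : ∀ r : ℕ, ((if r = 0 then 1 else if r < ob then -1 else 0 : ℤ) = 0) ↔ ob ≤ r := by
    intro r
    have hob : 1 ≤ ob := by omega
    split_ifs with h1 h2
    · exact ⟨fun h => absurd h (by decide), fun h => by omega⟩
    · exact ⟨fun h => absurd h (by decide), fun h => by omega⟩
    · exact ⟨fun _ => by omega, fun _ => rfl⟩
  have hx : ∀ k : Fin a, ((sx k : Fin (2 * a + 1)) : ℕ) = 2 * k + 1 := fun _ => rfl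
  have hy : ∀ k : Fin a, ((sy k : Fin (2 * a + 1)) : ℕ) = 2 * k + 2 := fun _ => rfl
  have h00 : (((0 : Fin (2 * a + 1))) : ℕ) = 0 := rfl
  have sp := dominoExT_spec nb nt nq na c0
  refine ⟨?_, ?_, ?_, ?_, ?_, ?_, ?_, ?_, ?_, ?_, ?_, ?_, ?_, ?_⟩
  · intro s s' h
    have h1 := congrArg Prod.fst h
    have h2 := congrArg Prod.snd h
    have h3 := sp s
    have h4 := sp s'
    have h5 := s.2
    have h6 := s'.2
    dsimp only at h1 h2
    refine Fin.ext ?_
    omega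
  · intro s h
    have h3 := sp s
    have h4 := sp 0
    have h5 := s.2
    rw [h00] at h
    refine Fin.ext ?_
    rw [h00]
    omega
  · intro r
    split_ifs <;> omega
  · intro k
    rw [hβ0, hβ0, hx, hy]
    have h3 := sp (2 * k + 1)
    have h4 := sp (2 * k + 2)
    omega
  · intro k hk
    rw [hx, hy]
    have h3 := sp (2 * k + 1)
    have h4 := sp (2 * k + 2)
    omega
  · intro k hk h
    rw [Ne, hβ0, hx] at h
    rw [hx, hy]
    have h3 := sp (2 * k + 1)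
    have h4 := sp (2 * k + 2)
    omega
  · intro k hk
    rw [hx, hy]
    have h3 := sp (2 * k + 1)
    have h4 := sp (2 * k + 2)
    omega
  · intro s h
    rw [hβ0] at h
    have h3 := sp s
    omega
  · intro k hk h h'
    rw [hx] at h
    rw [hy] at h'
    rw [hx, hy]
    have h3 := sp (2 * k + 1)
    have h4 := sp (2 * k + 2)
    omega
  · intro k hk h
    rw [hx] at h
    rw [hx]
    have h3 := sp (2 * k + 1)
    omega
  · intro k hk h s hs
    rw [hβ0, hx] at h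
    rw [hx] at hs
    rw [Fin.ext_iff, Fin.ext_iff, hx, hy]
    have h3 := sp (2 * k + 1)
    have h4 := sp s
    omega
  · intro k hk h
    rw [hβ0, hx] at h
    have h3 := sp (2 * k + 1)
    have h5 := sp (2 * k + 2)
    refine ⟨fun s hs => ?_, fun s hs => ?_⟩
    · rw [hx] at hs
      rw [Fin.ext_iff, hx]
      have h4 := sp s
      omega
    · rw [hy] at hs
      rw [Fin.ext_iff, hy]
      have h4 := sp s
      omega
  · intro l hl s s' h1 h2 h3 h4
    rw [hx] at h1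
    rw [hy] at h2
    rw [Ne, hβ0] at h3
    have h5 := sp (2 * l + 1)
    have h6 := sp (2 * l + 2)
    have h7 := sp s
    have h8 := sp s'
    have h9 := l.2
    have h10 := s.2
    have h11 := s'.2
    have key : (s : ℕ) % 2 = 1 ∧ (s' : ℕ) = s + 1 ∧ 2 * (nb + nt) < s := by
      by_cases hq : (l : ℕ) < nb + nt + nq
      · have e1 : (dominoExT nb nt nq na c0 s).2 = 0 := by omega
        have e2 : (dominoExT nb nt nq na c0 s').2 = 1 := by omega
        clear h1 h2 h5 h6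
        omega
      · have e1 : (dominoExT nb nt nq na c0 s).2 + 2 * (nb + nt + nq) = 2 * l + c0 + nb := by omega
        have e2 : (dominoExT nb nt nq na c0 s').2 + 2 * (nb + nt + nq) = 2 * l + 1 + c0 + nb := by
          omega
        clear h1 h2 h5 h6
        have e3 : (s : ℕ) = 2 * l + 1 := by omega
        have e4 : (s' : ℕ) = 2 * l + 2 := by omega
        omega
    obtain ⟨l', e1, e2, e3⟩ := dominoEx_pair s s' key.1 key.2.1
    exact ⟨l', by omega, e2, e3⟩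
  · intro l hl s s' h1 h2 h3 h4 h5
    rw [hx] at h1 h2
    rw [Ne, hβ0] at h5
    have h6 := sp (2 * l + 1)
    have h7 := sp s
    have h8 := sp s'
    have h9 := l.2
    have h10 := s.2
    have h11 := s'.2
    by_cases hq : (l : ℕ) < nb ∨ nq = 0
    · left
      have key : (s : ℕ) % 2 = 1 ∧ (s' : ℕ) = s + 1 ∧ s < 2 * (nb + nt) := by
        omega
      obtain ⟨l', e1, e2, e3⟩ := dominoEx_pair s s' key.1 key.2.1
      exact ⟨l', by omega, e2, e3⟩
    · right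
      refine ⟨by rw [hx]; omega, ⟨⟨2 * (nb + nt) + 2, by omega⟩, ?_, ?_⟩, fun t ht => ?_⟩
      · have h12 := sp (2 * (nb + nt) + 2)
        dsimp only
        omega
      · have h12 := sp (2 * (nb + nt) + 2)
        rw [Ne, hβ0]
        dsimp only
        omega
      · have h12 := sp t
        have h13 := t.2
        have key : (t : ℕ) % 2 = 0 ∧ 2 * (nb + nt) < t ∧ (t : ℕ) ≤ 2 * (nb + nt + nq) := by omega
        obtain ⟨l', e1, -, e3⟩ := dominoEx_pair ⟨t - 1, by omega⟩ t (by dsimp only; omega)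
          (by dsimp only; omega)
        dsimp only at e1
        refine ⟨l', e3, ?_⟩
        rw [hx]
        have h14 := sp (2 * l' + 1)
        omega

theorem dominoEx_mem {ν : YoungDiagram} (h2 : (2, 2) ∉ ν) (r c : ℕ) :
    (r, c) ∈ ν ↔ (r = 0 ∧ c < ν.rowLen 0) ∨ (r = 1 ∧ c < ν.rowLen 1) ∨
      (2 ≤ r ∧ c = 0 ∧ r < ν.colLen 0) ∨ (2 ≤ r ∧ c = 1 ∧ r < ν.colLen 1) := by
  constructor
  · intro h
    by_cases h0 : r = 0
    · subst h0
      exact Or.inl ⟨rfl, YoungDiagram.mem_iff_lt_rowLen.1 h⟩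
    by_cases h1 : r = 1
    · subst h1
      exact Or.inr (Or.inl ⟨rfl, YoungDiagram.mem_iff_lt_rowLen.1 h⟩)
    by_cases h3 : c = 0
    · subst h3
      exact Or.inr (Or.inr (Or.inl ⟨by omega, rfl, YoungDiagram.mem_iff_lt_colLen.1 h⟩))
    by_cases h4 : c = 1
    · subst h4
      exact Or.inr (Or.inr (Or.inr ⟨by omega, rfl, YoungDiagram.mem_iff_lt_colLen.1 h⟩))
    exact absurd (ν.up_left_mem (by omega) (by omega) h) h2
  · rintro (⟨rfl, h⟩ | ⟨rfl, h⟩ | ⟨-, rfl, h⟩ | ⟨-, rfl, h⟩)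
    · exact YoungDiagram.mem_iff_lt_rowLen.2 h
    · exact YoungDiagram.mem_iff_lt_rowLen.2 h
    · exact YoungDiagram.mem_iff_lt_colLen.2 h
    · exact YoungDiagram.mem_iff_lt_colLen.2 h

theorem dominoEx_card {ν : YoungDiagram} (h2 : (2, 2) ∉ ν) :
    ν.card = ν.rowLen 0 + ν.rowLen 1 + (ν.colLen 0 - 2) + (ν.colLen 1 - 2) := by
  have e : ν.cells = (({0} : Finset ℕ) ×ˢ range (ν.rowLen 0)) ∪
      (({1} : Finset ℕ) ×ˢ range (ν.rowLen 1)) ∪ (Ico 2 (ν.colLen 0) ×ˢ ({0} : Finset ℕ)) ∪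
      (Ico 2 (ν.colLen 1) ×ˢ ({1} : Finset ℕ)) := by
    ext ⟨r, c⟩
    rw [YoungDiagram.mem_cells, dominoEx_mem h2]
    simp only [mem_union, mem_product, mem_singleton, mem_range, mem_Ico]
    omega
  have hd : ∀ {s t : Finset (ℕ × ℕ)}, (∀ r c, (r, c) ∈ s → (r, c) ∈ t → False) → Disjoint s t :=
    fun h => Finset.disjoint_left.2 fun ⟨r, c⟩ h1 h2 => h r c h1 h2
  change ν.cells.card = _
  rw [e, card_union_of_disjoint, card_union_of_disjoint, card_union_of_disjoint]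
  · simp only [card_product, card_singleton, card_range, Nat.card_Ico, one_mul, mul_one]
  all_goals
    refine hd fun r c => ?_
    simp only [mem_union, mem_product, mem_singleton, mem_range, mem_Ico]
    omega

theorem dominoEx_rel (ν : YoungDiagram) :
    ν.rowLen 1 ≤ ν.rowLen 0 ∧ ν.colLen 1 ≤ ν.colLen 0 ∧ (0 < ν.rowLen 0 ↔ 0 < ν.colLen 0) ∧
      (1 < ν.rowLen 0 ↔ 0 < ν.colLen 1) ∧ (0 < ν.rowLen 1 ↔ 1 < ν.colLen 0) ∧
      (1 < ν.rowLen 1 ↔ 1 < ν.colLen 1) := by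
  refine ⟨ν.rowLen_anti 0 1 (Nat.zero_le _), ν.colLen_anti 0 1 (Nat.zero_le _), ?_, ?_, ?_, ?_⟩ <;>
    rw [← YoungDiagram.mem_iff_lt_rowLen, ← YoungDiagram.mem_iff_lt_colLen]

theorem dominoEx_good {a : ℕ} {ν : YoungDiagram} (hc : ν.card = 2 * a + 1) (h2 : (2, 2) ∉ ν)
    (hg : (2 ≤ ν.rowLen 1 ∧ (ν.colLen 0 - ν.colLen 1) % 2 = 0) ∨
      (ν.rowLen 1 ≤ 1 ∧ 2 ≤ ν.rowLen 0)) :
    ∃ (i : ℕ) (T : Fin (2 * a + 1) → ℕ × ℕ) (β : ℕ → ℤ), i ≤ a ∧ Domino a i T β ∧
      IsTab univ T ν := by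
  have hcard := dominoEx_card h2
  have hrel := dominoEx_rel ν
  have main : ∀ nb nt nq na c0 ob : ℕ, a = nb + nt + nq + na →
      ((2 ≤ nq ∧ c0 = 2 ∧ ob = 2) ∨ (nq = 0 ∧ nb = 0 ∧ c0 = 1 ∧ ob = 2) ∨
        (nq = 1 ∧ nb = 0 ∧ c0 = 2 ∧ ob = 1)) →
      (∀ s ≤ 2 * a, ((dominoExT nb nt nq na c0 s).1, (dominoExT nb nt nq na c0 s).2) ∈ ν) →
      ∃ (i : ℕ) (T : Fin (2 * a + 1) → ℕ × ℕ) (β : ℕ → ℤ), i ≤ a ∧ Domino a i T β ∧
        IsTab univ T ν := by
    intro nb nt nq na c0 ob ha hcase hmem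
    have hD := dominoEx_domino ha hcase
    refine ⟨nb + nt, _, _, by omega, hD, isTab_of_card (fun s _ => hmem s (by omega))
      (fun s _ s' _ h => hD.inj h) ?_⟩
    rw [hc, card_univ, Fintype.card_fin]
  rcases hg with hg | hg
  · refine main (ν.rowLen 1 - 2) ((ν.colLen 0 - ν.colLen 1) / 2) (ν.colLen 1)
      ((ν.rowLen 0 - ν.rowLen 1) / 2) 2 2 (by omega) (by omega) fun s hs => ?_
    rw [dominoEx_mem h2]
    have := dominoExT_spec (ν.rowLen 1 - 2) ((ν.colLen 0 - ν.colLen 1) / 2) (ν.colLen 1)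
      ((ν.rowLen 0 - ν.rowLen 1) / 2) 2 s
    omega
  · by_cases hp : ν.colLen 0 % 2 = 0
    · refine main 0 (ν.colLen 0 / 2) 0 ((ν.rowLen 0 - 2) / 2) 1 2 (by omega) (by omega)
        fun s hs => ?_
      rw [dominoEx_mem h2]
      have := dominoExT_spec 0 (ν.colLen 0 / 2) 0 ((ν.rowLen 0 - 2) / 2) 1 s
      omega
    · refine main 0 (ν.colLen 0 / 2) 1 ((ν.rowLen 0 - 2) / 2) 2 1 (by omega) (by omega)
        fun s hs => ?_
      rw [dominoEx_mem h2]
      have := dominoExT_spec 0 (ν.colLen 0 / 2) 1 ((ν.rowLen 0 - 2) / 2) 2 s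
      omega

/-- Every double hook of odd size, or its transpose, has a domino tiling.
With parameters `(nb, nt, nq, na)`: `nb` vertical dominoes filling columns of height 2 (columns
`c₀ + k`), `nt` vertical dominoes in column `0` (rows `nq + 2k, nq + 2k + 1`), `nq` horizontal dominoes
in columns `0, 1` (rows `0 … nq-1`), `na` horizontal dominoes in row `0` after them, then site `0`.
(B1) `ν.rowLen 1 ≥ 2`, `colLen 0 - colLen 1` even: `nq = colLen 1 ≥ 2`, `c₀ = 2`, `β = (1,-1,0,…)`;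
if the difference is odd use the transpose.  (B2) hook `(x, 1^y)` with `y` odd: `nq = nb = 0`,
`c₀ = 1`, `β = (1,-1,0,…)`.  (B3) hook with `y` even, `x ≥ 3`: `nq = 1`, `nb = 0`, `c₀ = 2`,
`β = (1,0,0,…)`; for `x = 1` use the transpose (or `a = 0`). -/
theorem exists_domino {a : ℕ} {ν : YoungDiagram} (hc : ν.card = 2 * a + 1) (h2 : (2, 2) ∉ ν) :
    ∃ (i : ℕ) (T : Fin (2 * a + 1) → ℕ × ℕ) (β : ℕ → ℤ), i ≤ a ∧ Domino a i T β ∧
      (IsTab univ T ν ∨ IsTab univ T ν.transpose) := by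
  have hcard := dominoEx_card h2
  have hrel := dominoEx_rel ν
  by_cases hg : (2 ≤ ν.rowLen 1 ∧ (ν.colLen 0 - ν.colLen 1) % 2 = 0) ∨
      (ν.rowLen 1 ≤ 1 ∧ 2 ≤ ν.rowLen 0)
  · obtain ⟨i, T, β, h1, h3, h4⟩ := dominoEx_good hc h2 hg
    exact ⟨i, T, β, h1, h3, Or.inl h4⟩
  by_cases ha : a = 0
  · subst ha
    have hs : ∀ s : Fin (2 * 0 + 1), s = 0 := fun s => Fin.ext (by have := s.2; simp)
    refine ⟨0, fun _ => (0, 0), fun _ => 0, le_rfl, ⟨fun s s' _ => (hs s).trans (hs s').symm,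
      fun s _ => hs s, fun _ => Or.inl rfl, fun k => k.elim0, fun k => k.elim0, fun k => k.elim0,
      fun k => k.elim0, fun _ _ => Nat.zero_le _, fun k => k.elim0, fun k => k.elim0,
      fun k => k.elim0, fun k => k.elim0, fun k => k.elim0, fun k => k.elim0⟩, Or.inl ?_⟩
    refine isTab_of_card (fun s _ => ?_) (fun s _ s' _ _ => (hs s).trans (hs s').symm) ?_
    · rw [dominoEx_mem h2]
      omega
    · rw [hc, card_univ, Fintype.card_fin]
  obtain ⟨i, T, β, h1, h3, h4⟩ := dominoEx_good (a := a) (ν := ν.transpose)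
    (by rw [card_transpose, hc]) (by rw [YoungDiagram.mem_transpose]; exact h2)
    (by
      simp only [YoungDiagram.rowLen_transpose, YoungDiagram.colLen_transpose]
      omega)
  exact ⟨i, T, β, h1, h3, Or.inr h4⟩

end Crest.Agent.R195
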