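/- Row 195, task Emb: Young subgroups, slices of the word module, the kernel form of `Ext`. -/
import Crest.Agent.R195.GT

set_option autoImplicit false

namespace Crest.Agent.R195

open Equiv Finset

variable {ι : Type} [Fintype ι] [DecidableEq ι]

variable {Y Z : Type} [Fintype Y] [DecidableEq Y] [Fintype Z] [DecidableEq Z]

omit [Fintype ι] [DecidableEq ι] [Fintype Y] [DecidableEq Y] [Fintype Z] [DecidableEq Z] in
@[simp] theorem jj_inl (e : Y ⊕ Z ≃ ι) (gY : Perm Y) (gZ : Perm Z) (y : Y) :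
    jj e gY gZ (e (Sum.inl y)) = e (Sum.inl (gY y)) := by simp [jj]
omit [Fintype ι] [DecidableEq ι] [Fintype Y] [DecidableEq Y] [Fintype Z] [DecidableEq Z] in
@[simp] theorem jj_inr (e : Y ⊕ Z ≃ ι) (gY : Perm Y) (gZ : Perm Z) (z : Z) :
    jj e gY gZ (e (Sum.inr z)) = e (Sum.inr (gZ z)) := by simp [jj]
omit [Fintype ι] [DecidableEq ι] [Fintype Y] [DecidableEq Y] [Fintype Z] [DecidableEq Z] in
@[simp] theorem mrg_inl (e : Y ⊕ Z ≃ ι) (a : ℕ) (y : Y → ℕ) (z : Z → ℕ) (p : Y) :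
    mrg e a y z (e (Sum.inl p)) = y p := by simp [mrg]
omit [Fintype ι] [DecidableEq ι] [Fintype Y] [DecidableEq Y] [Fintype Z] [DecidableEq Z] in
@[simp] theorem mrg_inr (e : Y ⊕ Z ≃ ι) (a : ℕ) (y : Y → ℕ) (z : Z → ℕ) (q : Z) :
    mrg e a y z (e (Sum.inr q)) = z q + a := by simp [mrg]
omit [Fintype ι] [DecidableEq ι] [Fintype Y] [DecidableEq Y] [Fintype Z] [DecidableEq Z] in
theorem mrg_comp_jj (e : Y ⊕ Z ≃ ι) (a : ℕ) (y : Y → ℕ) (z : Z → ℕ) (gY : Perm Y) (gZ : Perm Z) :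
    mrg e a y z ∘ jj e gY gZ = mrg e a (y ∘ gY) (z ∘ gZ) := by
  funext i
  obtain ⟨x, rfl⟩ := e.surjective i
  cases x <;> simp
omit [Fintype ι] [DecidableEq ι] [Fintype Y] [DecidableEq Y] [Fintype Z] [DecidableEq Z] in
theorem jj_eq_mul (e : Y ⊕ Z ≃ ι) (gY : Perm Y) (gZ : Perm Z) :
    jj e gY gZ = jL e gY * jR e gZ := by
  ext i
  obtain ⟨x, rfl⟩ := e.surjective i
  cases x <;> simp [jL, jR]
omit [Fintype ι] [DecidableEq ι] [Fintype Y] [DecidableEq Y] [Fintype Z] [DecidableEq Z] in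
theorem jj_injective (e : Y ⊕ Z ≃ ι) {gY gY' : Perm Y} {gZ gZ' : Perm Z}
    (h : jj e gY gZ = jj e gY' gZ') : gY = gY' ∧ gZ = gZ' := by
  refine ⟨Equiv.ext fun y => ?_, Equiv.ext fun z => ?_⟩
  · have := congrArg (fun g : Perm ι => g (e (Sum.inl y))) h
    simpa using this
  · have := congrArg (fun g : Perm ι => g (e (Sum.inr z))) h
    simpa using this
theorem sg_jj (e : Y ⊕ Z ≃ ι) (gY : Perm Y) (gZ : Perm Z) :
    sg (jj e gY gZ) = sg gY * sg gZ := by
  simp [sg, jj, Perm.sign_permCongr, Perm.sign_sumCongr]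
omit [Fintype ι] [DecidableEq ι] [Fintype Y] [DecidableEq Y] [Fintype Z] [DecidableEq Z] in
/-- a permutation preserving the `Y`-part lies in the Young subgroup -/
theorem exists_jj (e : Y ⊕ Z ≃ ι) {g : Perm ι}
    (h : ∀ i, (e.symm (g i)).isLeft = (e.symm i).isLeft) : ∃ gY gZ, g = jj e gY gZ := by
  have hL : ∀ (g : Perm ι), (∀ i, (e.symm (g i)).isLeft = (e.symm i).isLeft) →
      ∀ y, ∃ y', g (e (Sum.inl y)) = e (Sum.inl y') := by
    intro g h y
    have h1 := h (e (Sum.inl y))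
    rw [e.symm_apply_apply] at h1
    obtain ⟨y', hy'⟩ := Sum.isLeft_iff.1 h1
    exact ⟨y', by rw [← hy', e.apply_symm_apply]⟩
  have hR : ∀ (g : Perm ι), (∀ i, (e.symm (g i)).isLeft = (e.symm i).isLeft) →
      ∀ z, ∃ z', g (e (Sum.inr z)) = e (Sum.inr z') := by
    intro g h z
    have h1 := h (e (Sum.inr z))
    rw [e.symm_apply_apply] at h1
    have h2 : (e.symm (g (e (Sum.inr z)))).isRight = true := by
      rw [← Sum.isLeft_eq_false]; exact h1
    obtain ⟨z', hz'⟩ := Sum.isRight_iff.1 h2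
    exact ⟨z', by rw [← hz', e.apply_symm_apply]⟩
  have h' : ∀ i, (e.symm (g.symm i)).isLeft = (e.symm i).isLeft := fun i => by
    rw [← h (g.symm i), g.apply_symm_apply]
  choose a ha using hL g h
  choose a' ha' using hL g.symm h'
  choose b hb using hR g h
  choose b' hb' using hR g.symm h'
  refine ⟨⟨a, a', fun y => ?_, fun y => ?_⟩, ⟨b, b', fun z => ?_, fun z => ?_⟩, ?_⟩
  · apply Sum.inl_injective (β := Z); apply e.injective
    rw [← ha', ← ha, g.symm_apply_apply]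
  · apply Sum.inl_injective (β := Z); apply e.injective
    rw [← ha, ← ha', g.apply_symm_apply]
  · apply Sum.inr_injective (α := Y); apply e.injective
    rw [← hb', ← hb, g.symm_apply_apply]
  · apply Sum.inr_injective (α := Y); apply e.injective
    rw [← hb, ← hb', g.apply_symm_apply]
  · ext i
    obtain ⟨x, rfl⟩ := e.surjective i
    cases x
    · rw [jj_inl, ha]; rfl
    · rw [jj_inr, hb]; rfl

/-- the embedding `Y → ι` -/
def inlE {ι Y Z : Type} (e : Y ⊕ Z ≃ ι) : Y ↪ ι :=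
  ⟨fun y => e (Sum.inl y), fun _ _ h => Sum.inl_injective (e.injective h)⟩
/-- the embedding `Z → ι` -/
def inrE {ι Y Z : Type} (e : Y ⊕ Z ≃ ι) : Z ↪ ι :=
  ⟨fun z => e (Sum.inr z), fun _ _ h => Sum.inr_injective (e.injective h)⟩

theorem Emb_inlE {ι Y Z : Type} (e : Y ⊕ Z ≃ ι) (y : Y) : inlE e y = e (Sum.inl y) := rfl
theorem Emb_inrE {ι Y Z : Type} (e : Y ⊕ Z ≃ ι) (z : Z) : inrE e z = e (Sum.inr z) := rfl

omit [Fintype ι] [DecidableEq ι] [Fintype Y] [DecidableEq Y] [Fintype Z] [DecidableEq Z] in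
theorem mapL_el (e : Y ⊕ Z ≃ ι) (g : Perm Y) : mapL e (el g) = el (jj e g 1) := by
  simp [mapL, el, jL]
omit [Fintype ι] [DecidableEq ι] [Fintype Y] [DecidableEq Y] [Fintype Z] [DecidableEq Z] in
theorem mapR_el (e : Y ⊕ Z ≃ ι) (g : Perm Z) : mapR e (el g) = el (jj e 1 g) := by
  simp [mapR, el, jR]
omit [Fintype ι] [DecidableEq ι] [Fintype Y] [DecidableEq Y] [Fintype Z] [DecidableEq Z] in
theorem mapL_mul_mapR_comm (e : Y ⊕ Z ≃ ι) (a : GA Y) (b : GA Z) :
    mapL e a * mapR e b = mapR e b * mapL e a := by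
  have key : ∀ (g : Perm Y) (h : Perm Z),
      mapL e (el g) * mapR e (el h) = mapR e (el h) * mapL e (el g) := by
    intro g h
    rw [mapL_el, mapR_el, ← el_mul, ← el_mul]
    congr 1
    ext i
    obtain ⟨x, rfl⟩ := e.surjective i
    cases x <;> simp
  induction a using MonoidAlgebra.induction_on with
  | of g =>
    induction b using MonoidAlgebra.induction_on with
    | of h => exact key g h
    | add x y hx hy => rw [map_add, mul_add, add_mul, hx, hy]
    | smul c x hx => rw [map_smul, mul_smul_comm, smul_mul_assoc, hx]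
  | add x y hx hy => rw [map_add, mul_add, add_mul, hx, hy]
  | smul c x hx => rw [map_smul, mul_smul_comm, smul_mul_assoc, hx]
omit [Fintype Z] [DecidableEq Z] in
theorem Emb_stabL (e : Y ⊕ Z ≃ ι) (P : Finset Y) (f : ι → ℕ) {M : Type} [AddCommMonoid M]
    (F : Perm ι → M) :
    ∑ σ ∈ stab P (fun y => f (e (Sum.inl y))), F (jj e σ 1) =
      ∑ σ ∈ stab (P.map (inlE e)) f, F σ := by
  refine Finset.sum_bij (fun σ _ => jj e σ 1) (fun σ hσ => ?_)
    (fun σ _ σ' _ h => (jj_injective e h).1) (fun σ hσ => ?_) (fun _ _ => rfl)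
  · rw [mem_stab] at hσ ⊢
    refine ⟨fun i hi => ?_, fun i => ?_⟩
    · obtain ⟨x, rfl⟩ := e.surjective i
      cases x with
      | inl y => rw [jj_inl, hσ.1 y fun hy => hi (Finset.mem_map_of_mem (inlE e) hy)]
      | inr z => simp
    · obtain ⟨x, rfl⟩ := e.surjective i
      cases x with
      | inl y => rw [jj_inl]; exact hσ.2 y
      | inr z => simp
  · rw [mem_stab] at hσ
    have hz : ∀ z, σ (e (Sum.inr z)) = e (Sum.inr z) := fun z => hσ.1 _ (by simp [Emb_inlE])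
    obtain ⟨gY, gZ, rfl⟩ := exists_jj e (g := σ) fun i => by
      obtain ⟨x, rfl⟩ := e.surjective i
      cases x with
      | inr z => rw [hz]
      | inl y =>
        obtain ⟨x, hx⟩ := e.surjective (σ (e (Sum.inl y)))
        cases x with
        | inl y' => rw [← hx]; simp
        | inr z =>
          have := σ.injective ((hz z).trans hx)
          simp at this
    have hgZ : gZ = 1 := Equiv.ext fun z => by simpa using hz z
    subst hgZ
    refine ⟨gY, mem_stab.2 ⟨fun y hy => ?_, fun y => ?_⟩, rfl⟩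
    · have := hσ.1 (e (Sum.inl y)) (by simpa [Emb_inlE] using hy)
      simpa using this
    · simpa using hσ.2 (e (Sum.inl y))
omit [Fintype Y] [DecidableEq Y] in
theorem Emb_stabR (e : Y ⊕ Z ≃ ι) (P : Finset Z) (f : ι → ℕ) {M : Type} [AddCommMonoid M]
    (F : Perm ι → M) :
    ∑ σ ∈ stab P (fun z => f (e (Sum.inr z))), F (jj e 1 σ) =
      ∑ σ ∈ stab (P.map (inrE e)) f, F σ := by
  refine Finset.sum_bij (fun σ _ => jj e 1 σ) (fun σ hσ => ?_)
    (fun σ _ σ' _ h => (jj_injective e h).2) (fun σ hσ => ?_) (fun _ _ => rfl)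
  · rw [mem_stab] at hσ ⊢
    refine ⟨fun i hi => ?_, fun i => ?_⟩
    · obtain ⟨x, rfl⟩ := e.surjective i
      cases x with
      | inr y => rw [jj_inr, hσ.1 y fun hy => hi (Finset.mem_map_of_mem (inrE e) hy)]
      | inl z => simp
    · obtain ⟨x, rfl⟩ := e.surjective i
      cases x with
      | inr y => rw [jj_inr]; exact hσ.2 y
      | inl z => simp
  · rw [mem_stab] at hσ
    have hz : ∀ z, σ (e (Sum.inl z)) = e (Sum.inl z) := fun z => hσ.1 _ (by simp [Emb_inrE])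
    obtain ⟨gY, gZ, rfl⟩ := exists_jj e (g := σ) fun i => by
      obtain ⟨x, rfl⟩ := e.surjective i
      cases x with
      | inl z => rw [hz]
      | inr y =>
        obtain ⟨x, hx⟩ := e.surjective (σ (e (Sum.inr y)))
        cases x with
        | inr y' => rw [← hx]; simp
        | inl z =>
          have := σ.injective ((hz z).trans hx)
          simp at this
    have hgY : gY = 1 := Equiv.ext fun z => by simpa using hz z
    subst hgY
    refine ⟨gZ, mem_stab.2 ⟨fun y hy => ?_, fun y => ?_⟩, rfl⟩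
    · have := hσ.1 (e (Sum.inr y)) (by simpa [Emb_inrE] using hy)
      simpa using this
    · simpa using hσ.2 (e (Sum.inr y))
omit [Fintype Z] [DecidableEq Z] in
theorem Emb_sg_jjL (e : Y ⊕ Z ≃ ι) (g : Perm Y) : sg (jj e g 1) = sg g := by
  classical
  have : Fintype Z := Fintype.ofInjective (inrE e) (inrE e).injective
  rw [sg_jj, sg_one, mul_one]
omit [Fintype Y] [DecidableEq Y] in
theorem Emb_sg_jjR (e : Y ⊕ Z ≃ ι) (g : Perm Z) : sg (jj e 1 g) = sg g := by
  classical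
  have : Fintype Y := Fintype.ofInjective (inlE e) (inlE e).injective
  rw [sg_jj, sg_one, one_mul]
omit [Fintype Z] [DecidableEq Z] in
theorem mapL_psym (e : Y ⊕ Z ≃ ι) (P : Finset Y) (f : ι → ℕ) :
    mapL e (psym P (fun y => f (e (Sum.inl y)))) = psym (P.map (inlE e)) f := by
  simp only [psym, map_sum, mapL_el]
  exact Emb_stabL e P f el
omit [Fintype Z] [DecidableEq Z] in
theorem mapL_palt (e : Y ⊕ Z ≃ ι) (P : Finset Y) (f : ι → ℕ) :
    mapL e (palt P (fun y => f (e (Sum.inl y)))) = palt (P.map (inlE e)) f := by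
  simp only [palt, map_sum, map_smul, mapL_el]
  rw [← Emb_stabL e P f fun σ => sg σ • el σ]
  simp only [Emb_sg_jjL]
omit [Fintype Y] [DecidableEq Y] in
theorem mapR_psym (e : Y ⊕ Z ≃ ι) (P : Finset Z) (f : ι → ℕ) :
    mapR e (psym P (fun z => f (e (Sum.inr z)))) = psym (P.map (inrE e)) f := by
  simp only [psym, map_sum, mapR_el]
  exact Emb_stabR e P f el
omit [Fintype Y] [DecidableEq Y] in
theorem mapR_palt (e : Y ⊕ Z ≃ ι) (P : Finset Z) (f : ι → ℕ) :
    mapR e (palt P (fun z => f (e (Sum.inr z)))) = palt (P.map (inrE e)) f := by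
  simp only [palt, map_sum, map_smul, mapR_el]
  rw [← Emb_stabR e P f fun σ => sg σ • el σ]
  simp only [Emb_sg_jjR]
omit [Fintype Z] [DecidableEq Z] in
/-- any tableau on a part of `Y` extends to `ι` -/
theorem mapL_yc (e : Y ⊕ Z ≃ ι) {P : Finset Y} {T : Y → ℕ × ℕ} {μ : YoungDiagram}
    (hT : IsTab P T μ) :
    ∃ T', IsTab (P.map (inlE e)) T' μ ∧ mapL e (yc P T) = yc (P.map (inlE e)) T' := by
  refine ⟨fun i => Sum.elim T (fun _ => (0, 0)) (e.symm i), isTab_of ?_ ?_ ?_, ?_⟩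
  · intro i hi
    obtain ⟨y, hy, rfl⟩ := Finset.mem_map.1 hi
    simpa [Emb_inlE] using hT.mem hy
  · intro i hi j hj hij
    obtain ⟨y, hy, rfl⟩ := Finset.mem_map.1 hi
    obtain ⟨y', hy', rfl⟩ := Finset.mem_map.1 hj
    rw [hT.inj hy hy' (by simpa [Emb_inlE] using hij)]
  · intro c hc
    obtain ⟨y, hy, rfl⟩ := hT.surj hc
    exact ⟨inlE e y, Finset.mem_map_of_mem _ hy, by simp [Emb_inlE]⟩
  · rw [yc, yc, map_mul, ← mapL_psym, ← mapL_palt]
    simp only [rowf, colf, Equiv.symm_apply_apply, Sum.elim_inl]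
    rfl
omit [Fintype Y] [DecidableEq Y] in
theorem mapR_yc (e : Y ⊕ Z ≃ ι) {P : Finset Z} {T : Z → ℕ × ℕ} {μ : YoungDiagram}
    (hT : IsTab P T μ) :
    ∃ T', IsTab (P.map (inrE e)) T' μ ∧ mapR e (yc P T) = yc (P.map (inrE e)) T' := by
  refine ⟨fun i => Sum.elim (fun _ => (0, 0)) T (e.symm i), isTab_of ?_ ?_ ?_, ?_⟩
  · intro i hi
    obtain ⟨y, hy, rfl⟩ := Finset.mem_map.1 hi
    simpa [Emb_inrE] using hT.mem hy
  · intro i hi j hj hij
    obtain ⟨y, hy, rfl⟩ := Finset.mem_map.1 hi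
    obtain ⟨y', hy', rfl⟩ := Finset.mem_map.1 hj
    rw [hT.inj hy hy' (by simpa [Emb_inrE] using hij)]
  · intro c hc
    obtain ⟨y, hy, rfl⟩ := hT.surj hc
    exact ⟨inrE e y, Finset.mem_map_of_mem _ hy, by simp [Emb_inrE]⟩
  · rw [yc, yc, map_mul, ← mapR_psym, ← mapR_palt]
    simp only [rowf, colf, Equiv.symm_apply_apply, Sum.elim_inr]
    rfl

/-- slice with the word on `Z` fixed -/
noncomputable def slY {ι Y Z : Type} (e : Y ⊕ Z ≃ ι) (a : ℕ) (z : Z → ℕ) : WM ι →ₗ[ℂ] WM Y :=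
  Finsupp.lcomapDomain (fun y => mrg e a y z) (fun y y' h => funext fun p => by
    simpa using congrFun h (e (Sum.inl p)))
/-- slice with the word on `Y` fixed -/
noncomputable def slZ {ι Y Z : Type} (e : Y ⊕ Z ≃ ι) (a : ℕ) (y : Y → ℕ) : WM ι →ₗ[ℂ] WM Z :=
  Finsupp.lcomapDomain (fun z => mrg e a y z) (fun z z' h => funext fun p => by
    simpa using congrFun h (e (Sum.inr p)))

omit [Fintype ι] [DecidableEq ι] [Fintype Y] [DecidableEq Y] [Fintype Z] [DecidableEq Z] in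
theorem slY_apply (e : Y ⊕ Z ≃ ι) (a : ℕ) (z : Z → ℕ) (v : WM ι) (y : Y → ℕ) :
    slY e a z v y = v (mrg e a y z) := rfl
omit [Fintype ι] [DecidableEq ι] [Fintype Y] [DecidableEq Y] [Fintype Z] [DecidableEq Z] in
theorem slZ_apply (e : Y ⊕ Z ≃ ι) (a : ℕ) (y : Y → ℕ) (v : WM ι) (z : Z → ℕ) :
    slZ e a y v z = v (mrg e a y z) := rfl
omit [Fintype ι] [DecidableEq ι] [Fintype Y] [DecidableEq Y] [Fintype Z] [DecidableEq Z] in
theorem slY_act (e : Y ⊕ Z ≃ ι) (a : ℕ) (z : Z → ℕ) (b : GA Y) (v : WM ι) :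
    slY e a z (act (mapL e b) v) = act b (slY e a z v) := by
  induction b using MonoidAlgebra.induction_on with
  | of g =>
    change slY e a z (act (mapL e (el g)) v) = act (el g) (slY e a z v)
    rw [mapL_el, act_el, act_el]
    ext y
    rw [slY_apply, wrep_apply, wrep_apply, slY_apply, mrg_comp_jj]
    rfl
  | add x y hx hy => simp only [map_add, LinearMap.add_apply, hx, hy]
  | smul c x hx => simp only [map_smul, LinearMap.smul_apply, hx]
omit [Fintype ι] [DecidableEq ι] [Fintype Y] [DecidableEq Y] [Fintype Z] [DecidableEq Z] in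
theorem slZ_act (e : Y ⊕ Z ≃ ι) (a : ℕ) (y : Y → ℕ) (b : GA Z) (v : WM ι) :
    slZ e a y (act (mapR e b) v) = act b (slZ e a y v) := by
  induction b using MonoidAlgebra.induction_on with
  | of g =>
    change slZ e a y (act (mapR e (el g)) v) = act (el g) (slZ e a y v)
    rw [mapR_el, act_el, act_el]
    ext z
    rw [slZ_apply, wrep_apply, wrep_apply, slZ_apply, mrg_comp_jj]
    rfl
  | add x y hx hy => simp only [map_add, LinearMap.add_apply, hx, hy]
  | smul c x hx => simp only [map_smul, LinearMap.smul_apply, hx]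

omit [Fintype Y] [DecidableEq Y] [Fintype Z] [DecidableEq Z] in
/-- every prefix of `Y` is the trace of a prefix of `ι` -/
theorem exists_pre_inl (e : Y ⊕ Z ≃ ι) {τ : ι → ℤ} {PY : Finset Y}
    (h : IsPre (fun y => τ (e (Sum.inl y))) PY) :
    ∃ P, IsPre τ P ∧ ∀ y, e (Sum.inl y) ∈ P ↔ y ∈ PY := by
  classical
  refine ⟨univ.filter fun i => ∃ y ∈ PY, τ i ≤ τ (e (Sum.inl y)), fun i hi j hj => ?_, fun y => ?_⟩
  · obtain ⟨y, hy, hi'⟩ := (Finset.mem_filter.1 hi).2
    exact Finset.mem_filter.2 ⟨mem_univ _, y, hy, hj.trans hi'⟩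
  · rw [Finset.mem_filter]
    exact ⟨fun ⟨_, y', hy', h'⟩ => h y' hy' y h', fun hy => ⟨mem_univ _, y, hy, le_rfl⟩⟩
omit [Fintype Y] [DecidableEq Y] [Fintype Z] [DecidableEq Z] in
theorem exists_pre_inr (e : Y ⊕ Z ≃ ι) {τ : ι → ℤ} {PZ : Finset Z}
    (h : IsPre (fun z => τ (e (Sum.inr z))) PZ) :
    ∃ P, IsPre τ P ∧ ∀ z, e (Sum.inr z) ∈ P ↔ z ∈ PZ := by
  classical
  refine ⟨univ.filter fun i => ∃ y ∈ PZ, τ i ≤ τ (e (Sum.inr y)), fun i hi j hj => ?_, fun y => ?_⟩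
  · obtain ⟨y, hy, hi'⟩ := (Finset.mem_filter.1 hi).2
    exact Finset.mem_filter.2 ⟨mem_univ _, y, hy, hj.trans hi'⟩
  · rw [Finset.mem_filter]
    exact ⟨fun ⟨_, y', hy', h'⟩ => h y' hy' y h', fun hy => ⟨mem_univ _, y, hy, le_rfl⟩⟩

/-- `Ext` from a family of functionals.  Write the given matrix coefficients with the normalised
GT vectors (`GT_eq_smul`) and put
`φ v = c⁻¹ ∑ y ∈ A, ∑ z ∈ B, ϑ y z v * φY (single y 1) * φZ (single z 1)` for finite sets `A`, `B`
containing the supports of all `wrep g wY`, `wrep g wZ`. -/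
theorem ext_of_kernel (e : Y ⊕ Z ≃ ι) {τ : ι → ℤ} {T : ι → ℕ × ℕ} {TY : Y → ℕ × ℕ}
    {TZ : Z → ℕ × ℕ} {κ κY κZ : YoungDiagram}
    (hY : Std (fun y => τ (e (Sum.inl y))) TY κY) (hZ : Std (fun z => τ (e (Sum.inr z))) TZ κZ)
    {w : WM ι} {wY : WM Y} {wZ : WM Z} (hw : IsGT τ T κ w)
    (hwY : IsGT (fun y => τ (e (Sum.inl y))) TY κY wY) (hwY1 : wY (rowf TY) = 1)
    (hwZ : IsGT (fun z => τ (e (Sum.inr z))) TZ κZ wZ) (hwZ1 : wZ (rowf TZ) = 1)
    (ϑ : (Y → ℕ) → (Z → ℕ) → Module.Dual ℂ (WM ι)) (c : ℂ) (hc : c ≠ 0)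
    (hval : ∀ y z, ϑ y z w = c * wY y * wZ z)
    (hequiv : ∀ gY gZ y z, ϑ y z (wrep ι (jj e gY gZ) w) = ϑ (y ∘ gY) (z ∘ gZ) w)
    (hbd : ∀ y z g, ϑ y z (wrep ι g w) ≠ 0 → Bound τ e g) :
    Ext τ T κ e TY κY TZ κZ := by
  classical
  rintro αY ⟨vY, φY, hvY, hαY⟩ αZ ⟨vZ, φZ, hvZ, hαZ⟩
  have eY := GT_eq_smul hY hvY hwY hwY1
  have eZ := GT_eq_smul hZ hvZ hwZ hwZ1
  set cY := vY (rowf TY)
  set cZ := vZ (rowf TZ)
  let A : Finset (Y → ℕ) := univ.biUnion fun g : Perm Y => (wrep Y g wY).support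
  let B : Finset (Z → ℕ) := univ.biUnion fun g : Perm Z => (wrep Z g wZ).support
  let φ : Module.Dual ℂ (WM ι) := ∑ y ∈ A, ∑ z ∈ B,
    (c⁻¹ * (cY * φY (Finsupp.single y 1)) * (cZ * φZ (Finsupp.single z 1))) • ϑ y z
  have hφ : ∀ v, φ v = ∑ y ∈ A, ∑ z ∈ B,
      (c⁻¹ * (cY * φY (Finsupp.single y 1)) * (cZ * φZ (Finsupp.single z 1))) * ϑ y z v := by
    intro v
    simp only [φ, LinearMap.sum_apply, LinearMap.smul_apply, smul_eq_mul]
  have expand : ∀ {W : Type} (ψ : Module.Dual ℂ (WM W)) (u : WM W) (S : Finset (W → ℕ)),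
      u.support ⊆ S → ψ u = ∑ y ∈ S, u y * ψ (Finsupp.single y 1) := by
    intro W ψ u S hS
    conv_lhs => rw [← Finsupp.sum_single u, Finsupp.sum_of_support_subset _ hS _ (by simp)]
    rw [map_sum]
    refine Finset.sum_congr rfl fun y _ => ?_
    rw [← smul_eq_mul, ← map_smul, Finsupp.smul_single, smul_eq_mul, mul_one]
  refine ⟨fun g => φ (wrep ι g w), ⟨w, φ, hw, fun _ => rfl⟩, fun gY gZ => ?_, fun g hg => ?_⟩
  · have h1 : αY gY = ∑ y ∈ A, cY * (wY (y ∘ gY) * φY (Finsupp.single y 1)) := by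
      rw [hαY, eY, map_smul, map_smul, expand φY (wrep Y gY wY) A
        (Finset.subset_biUnion_of_mem (fun g : Perm Y => (wrep Y g wY).support) (mem_univ gY)),
        smul_eq_mul, Finset.mul_sum]
      simp only [wrep_apply]
    have h2 : αZ gZ = ∑ z ∈ B, cZ * (wZ (z ∘ gZ) * φZ (Finsupp.single z 1)) := by
      rw [hαZ, eZ, map_smul, map_smul, expand φZ (wrep Z gZ wZ) B
        (Finset.subset_biUnion_of_mem (fun g : Perm Z => (wrep Z g wZ).support) (mem_univ gZ)),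
        smul_eq_mul, Finset.mul_sum]
      simp only [wrep_apply]
    rw [h1, h2, Finset.sum_mul_sum]
    beta_reduce
    rw [hφ]
    refine Finset.sum_congr rfl fun y _ => Finset.sum_congr rfl fun z _ => ?_
    rw [hequiv, hval]
    field_simp
  · beta_reduce at hg
    rw [hφ] at hg
    obtain ⟨y, _, hy⟩ := Finset.exists_ne_zero_of_sum_ne_zero hg
    obtain ⟨z, _, hz⟩ := Finset.exists_ne_zero_of_sum_ne_zero hy
    exact hbd y z g (right_ne_zero_of_mul hz)

end Crest.Agent.R195
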