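/- Row 195, task Extremal: weight bounds and extremal extraction lemmas for isotypic components. -/
import Crest.Agent.R195.Complete

set_option autoImplicit false

namespace Crest.Agent.R195

open Equiv Finset

variable {ι : Type} [Fintype ι] [DecidableEq ι]

omit [Fintype ι] [DecidableEq ι] in
theorem extremal_card_small (P : Finset ι) (x : ι → ℕ) (a : ℕ) :
    (P.filter fun p => x p < a).card = ∑ r ∈ range a, wt P x r := by
  rw [card_eq_sum_card_fiberwise (f := x) (t := range a)
    (fun c hc => by simpa using (mem_filter.1 hc).2)]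
  refine sum_congr rfl fun r hr => ?_
  rw [wt, filter_filter]
  congr 1
  refine filter_congr fun c _ => ⟨fun h => h.2, fun h => ⟨?_, h⟩⟩
  rw [h]
  exact mem_range.1 hr

omit [Fintype ι] in
theorem extremal_exists_of_Eop {P : Finset ι} {i j : ℕ} {v : WM ι} {z : ι → ℕ}
    (h : Eop P i j v z ≠ 0) : ∃ p ∈ P, z p = i ∧ v (Function.update z p j) ≠ 0 := by
  rw [Eop_apply] at h
  obtain ⟨p, hp, h'⟩ := Finset.exists_ne_zero_of_sum_ne_zero h
  exact ⟨p, (mem_filter.1 hp).1, (mem_filter.1 hp).2, h'⟩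

/-- by `Iso_le_Low` and `Low_induction` (lowering never increases the number of small letters) -/
theorem small_le_of_mem_Iso {P : Finset ι} {μ : YoungDiagram} {v : WM ι} (hv : v ∈ Iso P μ)
    {x : ι → ℕ} (hx : v x ≠ 0) (a : ℕ) :
    (P.filter fun p => x p < a).card ≤ ∑ r ∈ range a, μ.rowLen r := by
  let N : Submodule ℂ (WM ι) :=
    { carrier := {v | ∀ x, v x ≠ 0 →
        (P.filter fun p => x p < a).card ≤ ∑ r ∈ range a, μ.rowLen r}
      zero_mem' := fun x hx => absurd rfl hx
      add_mem' := fun {u w} hu hw x hx => by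
        by_cases h : u x = 0
        · exact hw x (fun h' => hx (by simp [h, h']))
        · exact hu x h
      smul_mem' := fun c {u} hu x hx => hu x (fun h' => hx (by simp [h'])) }
  have hN : Low P μ ≤ N := by
    refine Low_induction (fun u hu x hx => ?_) (fun i j hij u hu z hz => ?_)
    · rw [extremal_card_small]
      exact (sum_congr rfl fun r _ => hu.1 x hx r).le
    · obtain ⟨p, hp, hzp, h'⟩ := extremal_exists_of_Eop hz
      refine le_trans (card_le_card fun q hq => ?_) (hu _ h')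
      rw [mem_filter] at hq ⊢
      refine ⟨hq.1, ?_⟩
      by_cases hqp : q = p
      · subst hqp
        rw [Function.update_self]
        omega
      · rw [Function.update_of_ne hqp]
        exact hq.2
  exact hN (Iso_le_Low P μ hv) x hx

omit [Fintype ι] in
theorem extremal_flt_Eop_small {P Y Z : Finset ι} (hYZ : Disjoint Y Z) (hP : Y ∪ Z = P) {a i j : ℕ}
    (hi : i < a) (hj : j < a) (v : WM ι) :
    flt (fun x => (∀ p ∈ Y, x p < a) ∧ ∀ p ∈ Z, a ≤ x p) (Eop P i j v) =
      Eop Y i j (flt (fun x => (∀ p ∈ Y, x p < a) ∧ ∀ p ∈ Z, a ≤ x p) v) := by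
  ext z
  rw [flt_apply, Eop_apply, Eop_apply]
  have key : ∀ p ∈ Y, z p = i →
      (((∀ q ∈ Y, Function.update z p j q < a) ∧ ∀ q ∈ Z, a ≤ Function.update z p j q) ↔
        ((∀ q ∈ Y, z q < a) ∧ ∀ q ∈ Z, a ≤ z q)) := by
    intro p hp hzp
    refine and_congr (forall₂_congr fun q _ => ?_) (forall₂_congr fun q hq => ?_)
    · by_cases hqp : q = p
      · subst hqp
        rw [Function.update_self]
        omega
      · rw [Function.update_of_ne hqp]
    · have hqp : q ≠ p := fun h => disjoint_left.1 hYZ hp (h ▸ hq)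
      rw [Function.update_of_ne hqp]
  split_ifs with h
  · have e : P.filter (fun p => z p = i) = Y.filter (fun p => z p = i) := by
      ext p
      simp only [mem_filter, ← hP, mem_union]
      refine ⟨fun hp => ⟨hp.1.resolve_right fun hZ => ?_, hp.2⟩, fun hp => ⟨Or.inl hp.1, hp.2⟩⟩
      have := h.2 p hZ
      omega
    rw [e]
    refine sum_congr rfl fun p hp => ?_
    rw [flt_apply, if_pos ((key p (mem_filter.1 hp).1 (mem_filter.1 hp).2).2 h)]
  · refine (sum_eq_zero fun p hp => ?_).symm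
    rw [flt_apply, if_neg (fun h' => h ((key p (mem_filter.1 hp).1 (mem_filter.1 hp).2).1 h'))]

omit [Fintype ι] in
theorem extremal_flt_Eop_large {P Y Z : Finset ι} (hYZ : Disjoint Y Z) (hP : Y ∪ Z = P) {a i j : ℕ}
    (hi : a ≤ i) (hj : a ≤ j) (v : WM ι) :
    flt (fun x => (∀ p ∈ Y, x p < a) ∧ ∀ p ∈ Z, a ≤ x p) (Eop P i j v) =
      Eop Z i j (flt (fun x => (∀ p ∈ Y, x p < a) ∧ ∀ p ∈ Z, a ≤ x p) v) := by
  ext z
  rw [flt_apply, Eop_apply, Eop_apply]
  have key : ∀ p ∈ Z, z p = i →
      (((∀ q ∈ Y, Function.update z p j q < a) ∧ ∀ q ∈ Z, a ≤ Function.update z p j q) ↔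
        ((∀ q ∈ Y, z q < a) ∧ ∀ q ∈ Z, a ≤ z q)) := by
    intro p hp hzp
    refine and_congr (forall₂_congr fun q hq => ?_) (forall₂_congr fun q _ => ?_)
    · have hqp : q ≠ p := fun h => disjoint_left.1 hYZ hq (h ▸ hp)
      rw [Function.update_of_ne hqp]
    · by_cases hqp : q = p
      · subst hqp
        rw [Function.update_self]
        omega
      · rw [Function.update_of_ne hqp]
  split_ifs with h
  · have e : P.filter (fun p => z p = i) = Z.filter (fun p => z p = i) := by
      ext p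
      simp only [mem_filter, ← hP, mem_union]
      refine ⟨fun hp => ⟨hp.1.resolve_left fun hY => ?_, hp.2⟩, fun hp => ⟨Or.inr hp.1, hp.2⟩⟩
      have := h.1 p hY
      omega
    rw [e]
    refine sum_congr rfl fun p hp => ?_
    rw [flt_apply, if_pos ((key p (mem_filter.1 hp).1 (mem_filter.1 hp).2).2 h)]
  · refine (sum_eq_zero fun p hp => ?_).symm
    rw [flt_apply, if_neg (fun h' => h ((key p (mem_filter.1 hp).1 (mem_filter.1 hp).2).1 h'))]

/-- add `a` to the letters on `Z` -/
def extremalUn (Z : Finset ι) (a : ℕ) (x : ι → ℕ) : ι → ℕ := fun p => if p ∈ Z then x p + a else x p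

omit [Fintype ι] in
theorem extremalUn_injective (Z : Finset ι) (a : ℕ) : Function.Injective (extremalUn Z a) := by
  intro x y h
  funext p
  have := congrFun h p
  simp only [extremalUn] at this
  split_ifs at this <;> omega

theorem extremal_base_Y {P Y Z : Finset ι} (hYZ : Disjoint Y Z) (hP : Y ∪ Z = P)
    {μ μY : YoungDiagram} {a : ℕ}
    (hY : ∀ r, μY.rowLen r = if r < a then μ.rowLen r else 0) {v : WM ι} (hv : v ∈ HW P μ) :
    flt (fun x => (∀ p ∈ Y, x p < a) ∧ ∀ p ∈ Z, a ≤ x p) v ∈ Iso Y μY := by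
  refine Spec_le_Iso Y μY (HW_le_Spec Y μY ⟨fun x hx r => ?_, fun i j hij => ?_⟩)
  · rw [flt_apply] at hx
    split_ifs at hx with h
    swap
    · exact absurd rfl hx
    rw [hY]
    split_ifs with hr
    · rw [← hv.1 x hx r, wt, wt]
      congr 1
      ext p
      simp only [mem_filter, ← hP, mem_union]
      refine ⟨fun hp => ⟨Or.inl hp.1, hp.2⟩, fun hp => ⟨hp.1.resolve_right fun hZ => ?_, hp.2⟩⟩
      have := h.2 p hZ
      omega
    · rw [wt, card_eq_zero, filter_eq_empty_iff]
      intro p hp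
      have := h.1 p hp
      omega
  · by_cases hj : j < a
    · rw [← extremal_flt_Eop_small hYZ hP (hij.trans hj) hj, hv.2 i j hij, map_zero]
    · ext z
      by_contra hz
      obtain ⟨p, hp, -, h'⟩ := extremal_exists_of_Eop hz
      rw [flt_apply] at h'
      split_ifs at h' with h
      · have := h.1 p hp
        rw [Function.update_self] at this
        exact hj this
      · exact h' rfl

theorem extremal_base_Z {P Y Z : Finset ι} (hYZ : Disjoint Y Z) (hP : Y ∪ Z = P)
    {μ μZ : YoungDiagram} {a : ℕ}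
    (hZ : ∀ r, μZ.rowLen r = μ.rowLen (r + a)) {v : WM ι} (hv : v ∈ HW P μ) :
    flt (fun x => (∀ p ∈ Y, x p < a) ∧ ∀ p ∈ Z, a ≤ x p) v ∈ Iso Z μZ := by
  set w := flt (fun x => (∀ p ∈ Y, x p < a) ∧ ∀ p ∈ Z, a ≤ x p) v with hw
  have hsupp : ∀ x, w x ≠ 0 → ((∀ p ∈ Y, x p < a) ∧ ∀ p ∈ Z, a ≤ x p) ∧ v x ≠ 0 := by
    intro x hx
    rw [hw, flt_apply] at hx
    split_ifs at hx with h
    · exact ⟨h, hx⟩
    · exact absurd rfl hx
  let u : WM ι := Finsupp.comapDomain (extremalUn Z a) w (extremalUn_injective Z a).injOn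
  have hu : ∀ x, u x = w (extremalUn Z a x) := fun x => rfl
  have hu1 : u ∈ HW Z μZ := by
    refine ⟨fun x hx r => ?_, fun i j hij => ?_⟩
    · rw [hu] at hx
      obtain ⟨h, hx'⟩ := hsupp _ hx
      rw [hZ, ← hv.1 _ hx' (r + a), wt, wt]
      congr 1
      ext p
      simp only [mem_filter, ← hP, mem_union]
      constructor
      · rintro ⟨hp, e⟩
        exact ⟨Or.inr hp, by simp [extremalUn, hp, e]⟩
      · rintro ⟨hp, e⟩
        have hpZ : p ∈ Z := hp.resolve_left fun hY => by
          have := h.1 p hY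
          omega
        refine ⟨hpZ, ?_⟩
        simpa [extremalUn, hpZ] using e
    · ext z
      have h0 : Eop Z (i + a) (j + a) w (extremalUn Z a z) = 0 := by
        rw [hw, ← extremal_flt_Eop_large hYZ hP (Nat.le_add_left a i) (Nat.le_add_left a j),
          hv.2 _ _ (by omega), map_zero]
        rfl
      rw [Eop_apply] at h0
      rw [Eop_apply, Finsupp.coe_zero, Pi.zero_apply, ← h0]
      refine sum_congr ?_ fun p hp => ?_
      · refine filter_congr fun p hp => ?_
        simp [extremalUn, hp]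
      · rw [hu]
        congr 1
        funext q
        have hpZ : p ∈ Z := (mem_filter.1 hp).1
        by_cases hqp : q = p
        · subst hqp
          simp [extremalUn, hpZ]
        · simp [extremalUn, Function.update_of_ne hqp]
  have hwu : w = Finsupp.lmapDomain ℂ ℂ (extremalUn Z a) u := by
    rw [Finsupp.lmapDomain_apply]
    refine (Finsupp.mapDomain_comapDomain _ (extremalUn_injective Z a) w fun x hx => ?_).symm
    obtain ⟨h, -⟩ := hsupp x (Finsupp.mem_support_iff.1 hx)
    refine ⟨fun p => if p ∈ Z then x p - a else x p, funext fun p => ?_⟩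
    simp only [extremalUn]
    split_ifs with hp
    · have := h.2 p hp
      omega
    · rfl
  rw [hwu]
  refine Iso_map _ ?_ (Spec_le_Iso Z μZ (HW_le_Spec Z μZ hu1))
  refine GP_induction (p := fun b => ∀ v : WM ι, Finsupp.lmapDomain ℂ ℂ (extremalUn Z a) (act b v) =
    act b (Finsupp.lmapDomain ℂ ℂ (extremalUn Z a) v)) (fun v => by simp) (fun g hg v => ?_)
    (fun b c hb hc v => by simp only [map_add, LinearMap.add_apply, hb, hc])
    (fun c b hb v => by simp only [map_smul, LinearMap.smul_apply, hb])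
  rw [act_el, act_el]
  induction v using Finsupp.induction_linear with
  | zero => simp
  | add f f' hf hf' => simp only [map_add, hf, hf']
  | single x c =>
    rw [wrep_single, Finsupp.lmapDomain_apply, Finsupp.lmapDomain_apply, Finsupp.mapDomain_single,
      Finsupp.mapDomain_single, wrep_single]
    congr 1
    funext p
    have := SP_apply_mem_iff ((SP Z).inv_mem hg) p
    simp only [extremalUn, Function.comp_apply]
    rw [Perm.inv_def] at this
    simp only [this]

/-- `Low_induction` on the submodule of all `v` whose words have at most `|Y|` small letters in `P`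
and whose projection lies in `Iso Y μY ⊓ Iso Z μZ`.  Base case: the projection of a highest weight
vector is in `HW Y μY`, and after subtracting `a` from the letters on `Z` (an injective,
`S_Z`-equivariant relabelling of the words with the pattern) it is in `HW Z μZ`.  Step: for
`i < j < a` the projection intertwines `Eop P j i` with `Eop Y j i`, for `a ≤ i < j` with
`Eop Z j i`, and for `i < a ≤ j` the projection of `Eop P j i v` is zero. -/
theorem extremal_word {P Y Z : Finset ι} (hYZ : Disjoint Y Z) (hP : Y ∪ Z = P)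
    {μ μY μZ : YoungDiagram} {a : ℕ} (hcard : Y.card = ∑ r ∈ range a, μ.rowLen r)
    (hY : ∀ r, μY.rowLen r = if r < a then μ.rowLen r else 0)
    (hZ : ∀ r, μZ.rowLen r = μ.rowLen (r + a)) {v : WM ι} (hv : v ∈ Iso P μ) :
    flt (fun x => (∀ p ∈ Y, x p < a) ∧ ∀ p ∈ Z, a ≤ x p) v ∈ Iso Y μY ∧
      flt (fun x => (∀ p ∈ Y, x p < a) ∧ ∀ p ∈ Z, a ≤ x p) v ∈ Iso Z μZ := by
  let F : WM ι →ₗ[ℂ] WM ι := flt (fun x => (∀ p ∈ Y, x p < a) ∧ ∀ p ∈ Z, a ≤ x p)
  let N : Submodule ℂ (WM ι) := Iso P μ ⊓ ((Iso Y μY).comap F ⊓ (Iso Z μZ).comap F)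
  have hN : Low P μ ≤ N := by
    refine Low_induction (fun u hu => ⟨Spec_le_Iso P μ (HW_le_Spec P μ hu),
      extremal_base_Y hYZ hP hY hu, extremal_base_Z hYZ hP hZ hu⟩) (fun i j hij u hu => ?_)
    obtain ⟨hu0, hu1, hu2⟩ := hu
    refine ⟨Iso_map _ (fun b hb w => Eop_act (Or.inl subset_rfl) hb j i w) hu0, ?_⟩
    change F (Eop P j i u) ∈ Iso Y μY ∧ F (Eop P j i u) ∈ Iso Z μZ
    by_cases hj : j < a
    · rw [extremal_flt_Eop_small hYZ hP hj (hij.trans hj)]
      exact ⟨Iso_map _ (fun b hb w => Eop_act (Or.inl subset_rfl) hb j i w) hu1,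
        Iso_map _ (fun b hb w => Eop_act (Or.inr hYZ.symm) hb j i w) hu2⟩
    by_cases hi : a ≤ i
    · rw [extremal_flt_Eop_large hYZ hP (not_lt.1 hj) hi]
      exact ⟨Iso_map _ (fun b hb w => Eop_act (Or.inr hYZ) hb j i w) hu1,
        Iso_map _ (fun b hb w => Eop_act (Or.inl subset_rfl) hb j i w) hu2⟩
    have h0 : F (Eop P j i u) = 0 := by
      ext z
      rw [flt_apply]
      split_ifs with h
      swap
      · rfl
      by_contra hz
      obtain ⟨p, hp, hzp, h'⟩ := extremal_exists_of_Eop hz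
      have h1 := small_le_of_mem_Iso hu0 h' a
      have hpY : p ∉ Y := fun hpY => by
        have := h.1 p hpY
        omega
      have h2 : insert p Y ⊆ P.filter fun q => Function.update z p i q < a := by
        intro q hq
        rw [mem_filter]
        rcases mem_insert.1 hq with rfl | hq
        · rw [Function.update_self]
          exact ⟨hp, not_le.1 hi⟩
        · have hqp : q ≠ p := fun e => hpY (e ▸ hq)
          rw [Function.update_of_ne hqp]
          exact ⟨hP ▸ mem_union_left _ hq, h.1 q hq⟩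
      have h3 := card_le_card h2
      rw [card_insert_of_notMem hpY] at h3
      omega
    rw [h0]
    exact ⟨Submodule.zero_mem _, Submodule.zero_mem _⟩
  exact (hN (Iso_le_Low P μ hv)).2

/-- Group algebra form.  If `x = yc (P \ Q) T * sym Q * b ≠ 0`, take `g` with `x.coeff g ≠ 0` and a
word `X` that is `0` on `Q` and has distinct positive letters elsewhere; then
`act x (single (X ∘ g) 1) X = |S_Q| * x.coeff g ≠ 0`, contradicting `extremal_word` with `a = 1`. -/
theorem yc_mul_sym_mul_Idl {P Q : Finset ι} (hQ : Q ⊆ P) {μ ν ρ : YoungDiagram}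
    (hcard : Q.card = μ.rowLen 0) (hν : ∀ r, ν.rowLen r = μ.rowLen (r + 1)) {T : ι → ℕ × ℕ}
    (hT : IsTab (P \ Q) T ρ) (hne : ρ ≠ ν) {b : GA ι} (hb : b ∈ Idl P μ) :
    yc (P \ Q) T * sym Q * b = 0 := by
  classical
  set x := yc (P \ Q) T * sym Q * b with hx
  let X : ι → ℕ := fun i => if i ∈ Q then 0 else (Fintype.equivFin ι i : ℕ) + 1
  have hdis : Disjoint Q (P \ Q) := disjoint_sdiff
  obtain ⟨μY, hμY⟩ := exists_yd_of_antitone (fun r => if r < 1 then μ.rowLen r else 0)
    (fun r s hrs => by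
      dsimp only
      split_ifs with h1 h2 h2
      · exact μ.rowLen_anti _ _ hrs
      · omega
      · exact Nat.zero_le _
      · exact le_rfl) 1 (by simp)
  have hzero : ∀ v : WM ι, act x v X = 0 := by
    intro v
    have h1 : act (sym Q) (act b v) ∈ Iso P μ :=
      Iso_act (Or.inl hQ) (psym_mem_GP _ _) (act_Idl_mem_Iso hb v)
    have h2 := (extremal_word hdis (union_sdiff_of_subset hQ) (a := 1) (by simpa using hcard) hμY hν
      h1).2 T ρ hT hne
    rw [← flt_act (P := P \ Q) _ (yc_mem_GP _ _)] at h2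
    · have h3 := congrArg (fun w : WM ι => w X) h2
      simp only [flt_apply, Finsupp.coe_zero, Pi.zero_apply] at h3
      rw [if_pos] at h3
      · rw [hx, act_mul_apply, act_mul_apply]
        exact h3
      · refine ⟨fun p hp => by simp [X, hp], fun p hp => ?_⟩
        simp [X, (mem_sdiff.1 hp).2]
    · intro g hg y
      refine and_congr (forall₂_congr fun p hp => ?_) ⟨fun h p hp => ?_, fun h p hp => ?_⟩
      · rw [Function.comp_apply, hg p (fun h => (mem_sdiff.1 h).2 hp)]
      · have := h (g⁻¹ p) ((SP_apply_mem_iff ((SP _).inv_mem hg) p).2 hp)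
        simpa using this
      · exact h _ ((SP_apply_mem_iff hg p).2 hp)
  have hinv : ∀ σ ∈ SP Q, el σ * x = x := by
    intro σ hσ
    have e : yc (P \ Q) T * sym Q = sym Q * yc (P \ Q) T :=
      GP_commute hdis.symm (yc_mem_GP _ _) (psym_mem_GP _ _)
    rw [hx, e, ← mul_assoc, ← mul_assoc, sym, el_mul_psym (mem_stab_zero.2 hσ)]
  apply MonoidAlgebra.coeff_injective
  ext g
  have h1 := hzero (Finsupp.single (X ∘ g) 1)
  rw [act_apply] at h1
  have h2 : ∀ h : Perm ι, x.coeff h * (Finsupp.single (X ∘ g) (1 : ℂ)) (X ∘ h) =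
      if X ∘ g = X ∘ h then x.coeff g else 0 := by
    intro h
    rw [Finsupp.single_apply]
    split_ifs with e
    · rw [mul_one]
      have hσ : g * h⁻¹ ∈ SP Q := by
        intro i hi
        have e1 := congrFun e (h⁻¹ i)
        simp only [Function.comp_apply, Perm.coe_inv, apply_symm_apply, X, if_neg hi] at e1
        rw [Perm.mul_apply]
        by_cases h5 : g (h⁻¹ i) ∈ Q
        · rw [Perm.coe_inv] at h5
          rw [if_pos h5] at e1
          omega
        · rw [Perm.coe_inv] at h5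
          rw [if_neg h5] at e1
          exact (Fintype.equivFin ι).injective (Fin.ext (by simpa using e1))
      conv_rhs => rw [← hinv _ hσ]
      simp [el, MonoidAlgebra.coeff_single_mul_apply]
    · rw [mul_zero]
  simp only [h2] at h1
  rw [← sum_filter, sum_const, nsmul_eq_mul, mul_eq_zero] at h1
  rcases h1 with h1 | h1
  · exfalso
    rw [Nat.cast_eq_zero, card_eq_zero] at h1
    have : g ∈ univ.filter fun h : Perm ι => X ∘ g = X ∘ h := mem_filter.2 ⟨mem_univ _, rfl⟩
    rw [h1] at this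
    exact notMem_empty _ this
  · simpa using h1

theorem extremal_row {P Q : Finset ι} (hQ : Q ⊆ P) {μ ν : YoungDiagram}
    (hcard : Q.card = μ.rowLen 0) (hν : ∀ r, ν.rowLen r = μ.rowLen (r + 1)) {v : WM ι}
    (hv : v ∈ Iso P μ) : act (sym Q) v ∈ Iso (P \ Q) ν := by
  intro T ρ hT hne
  rw [← act_idem_of_mem_Iso hv, ← act_mul_apply, ← act_mul_apply,
    yc_mul_sym_mul_Idl hQ hcard hν hT hne (idem_mem_Idl P μ), map_zero]
  rfl

/-- apply `omega` to `yc_mul_sym_mul_Idl` for the transposed shapes -/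
theorem extremal_col {P L : Finset ι} (hL : L ⊆ P) {μ ν : YoungDiagram}
    (hcard : L.card = μ.colLen 0) (hν : ∀ c, ν.colLen c = μ.colLen (c + 1)) {v : WM ι}
    (hv : v ∈ Iso P μ) : act (alt L) v ∈ Iso (P \ L) ν := by
  intro T ρ hT hne
  have key : yc (P \ L) T * alt L * idem P μ = 0 := by
    rw [← omega_omega (yc (P \ L) T * alt L * idem P μ), map_mul omega (yc _ _ * _),
      map_mul omega (yc _ _), omega_yc, alt, omega_palt]
    obtain ⟨β, hβ⟩ := yc'_eq_smul_yc hT.swap
    have hb : psym (P \ L) (rowf (Prod.swap ∘ T)) * omega (idem P μ) ∈ Idl P μ.transpose :=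
      Idl_mul_left (GP_mono sdiff_subset (psym_mem_GP _ _)) (omega_mem_Idl (idem_mem_Idl P μ))
    have h0 := yc_mul_sym_mul_Idl (μ := μ.transpose) (ν := ν.transpose) hL
      (by rw [YoungDiagram.rowLen_transpose]; exact hcard)
      (fun r => by rw [YoungDiagram.rowLen_transpose, YoungDiagram.rowLen_transpose]; exact hν r)
      hT.swap (fun h => hne (YoungDiagram.transpose_eq_iff.1 h)) hb
    have e : psym (P \ L) (rowf (Prod.swap ∘ T)) * psym L (fun _ => 0) =
        psym L (fun _ => 0) * psym (P \ L) (rowf (Prod.swap ∘ T)) :=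
      GP_commute disjoint_sdiff.symm (psym_mem_GP _ _) (psym_mem_GP _ _)
    rw [hβ, smul_mul_assoc, smul_mul_assoc, mul_assoc _ _ (psym L _), e]
    rw [sym] at h0
    simp only [mul_assoc] at h0 ⊢
    rw [h0, mul_zero, smul_zero, map_zero]
  rw [← act_idem_of_mem_Iso hv, ← act_mul_apply, ← act_mul_apply, key, map_zero]
  rfl

/-- `exists_mul_yc'_ne_zero` and pigeonhole on the columns -/
theorem sym_kill {P S : Finset ι} (hS : S ⊆ P) {μ : YoungDiagram} (h : μ.rowLen 0 < S.card)
    {v : WM ι} (hv : v ∈ Iso P μ) : act (sym S) v = 0 := by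
  by_contra h0
  obtain ⟨T, hT, hne⟩ := exists_mul_yc'_ne_zero hv h0
  obtain ⟨i, hi, j, hj, hij, e⟩ := Finset.exists_ne_map_eq_of_card_lt_of_maps_to
    (s := S) (t := range (μ.rowLen 0)) (by rwa [card_range]) (f := colf T) (fun i hi => by
      have h1 : ((T i).1, (T i).2) ∈ μ := hT.mem (hS hi)
      have h2 := YoungDiagram.mem_iff_lt_rowLen.1 h1
      have h3 := μ.rowLen_anti 0 (T i).1 (Nat.zero_le _)
      simp only [coe_range, Set.mem_Iio, colf]
      omega)
  apply hne
  rw [yc', ← mul_assoc, sym, psym_mul_palt_eq_zero hij hi hj (hS hi) (hS hj) rfl e, zero_mul]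

theorem alt_kill {P S : Finset ι} (hS : S ⊆ P) {μ : YoungDiagram} (h : μ.colLen 0 < S.card)
    {v : WM ι} (hv : v ∈ Iso P μ) : act (alt S) v = 0 := by
  by_contra h0
  obtain ⟨T, hT, hne⟩ := exists_mul_yc_ne_zero hv h0
  obtain ⟨i, hi, j, hj, hij, e⟩ := Finset.exists_ne_map_eq_of_card_lt_of_maps_to
    (s := S) (t := range (μ.colLen 0)) (by rwa [card_range]) (f := rowf T) (fun i hi => by
      have h1 : ((T i).1, (T i).2) ∈ μ := hT.mem (hS hi)
      have h2 := YoungDiagram.mem_iff_lt_colLen.1 h1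
      have h3 := μ.colLen_anti 0 (T i).2 (Nat.zero_le _)
      simp only [coe_range, Set.mem_Iio, rowf]
      omega)
  apply hne
  rw [yc, ← mul_assoc, alt, palt_mul_psym_eq_zero hij (hS hi) (hS hj) hi hj e rfl, zero_mul]

theorem extremal_exists_drop_row (μ : YoungDiagram) :
    ∃ ν : YoungDiagram, (∀ r, ν.rowLen r = μ.rowLen (r + 1)) ∧
      ∀ r c, (r, c) ∈ ν ↔ (r + 1, c) ∈ μ := by
  obtain ⟨ν, hν⟩ := exists_yd_of_antitone (fun r => μ.rowLen (r + 1))
    (fun r s hrs => μ.rowLen_anti _ _ (Nat.succ_le_succ hrs)) (μ.colLen 0) (by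
      by_contra h
      have h1 : (μ.colLen 0 + 1, 0) ∈ μ := YoungDiagram.mem_iff_lt_rowLen.2 (Nat.pos_of_ne_zero h)
      have h2 := YoungDiagram.mem_iff_lt_colLen.1 h1
      omega)
  exact ⟨ν, hν, fun r c => by
    rw [YoungDiagram.mem_iff_lt_rowLen, YoungDiagram.mem_iff_lt_rowLen, hν]⟩

theorem extremal_exists_drop_col (μ : YoungDiagram) :
    ∃ ν : YoungDiagram, (∀ r, ν.colLen r = μ.colLen (r + 1)) ∧
      ∀ r c, (r, c) ∈ ν ↔ (r, c + 1) ∈ μ := by
  obtain ⟨ν, h1, h2⟩ := extremal_exists_drop_row μ.transpose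
  refine ⟨ν.transpose, fun r => ?_, fun r c => ?_⟩
  · rw [YoungDiagram.colLen_transpose, h1, YoungDiagram.rowLen_transpose]
  · rw [YoungDiagram.mem_transpose, Prod.swap_prod_mk, h2, YoungDiagram.mem_transpose,
      Prod.swap_prod_mk]

theorem extremal_sym_alt_comm {Q L : Finset ι} (hQL : Disjoint Q L) :
    sym Q * alt L = alt L * sym Q :=
  GP_commute hQL (psym_mem_GP _ _) (palt_mem_GP _ _)

theorem hook_bound {P Q L : Finset ι} (hQ : Q ⊆ P) (hL : L ⊆ P) (hQL : Disjoint Q L)
    (hP : P.Nonempty) {μ : YoungDiagram} {v : WM ι} (hv : v ∈ Iso P μ)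
    (h : act (sym Q * alt L) v ≠ 0) : Q.card + L.card + 1 ≤ μ.rowLen 0 + μ.colLen 0 := by
  have h1 : Q.card ≤ μ.rowLen 0 := by
    by_contra h1
    apply h
    rw [act_mul_apply]
    exact sym_kill hQ (not_le.1 h1) (Iso_act (Or.inl hL) (palt_mem_GP _ _) hv)
  have h2 : L.card ≤ μ.colLen 0 := by
    by_contra h2
    apply h
    rw [act_mul_apply, alt_kill hL (not_le.1 h2) hv, map_zero]
  by_contra h3
  have e1 : Q.card = μ.rowLen 0 := by omega
  have e2 : L.card = μ.colLen 0 := by omega
  have hv0 : v ≠ 0 := fun e => h (by rw [e, map_zero])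
  have hpos : 0 < μ.colLen 0 := by
    have hc := card_eq_of_mem_Iso hv hv0
    have : μ.cells.Nonempty := card_pos.1 (by
      have := card_pos.2 hP
      change 0 < μ.card
      omega)
    obtain ⟨⟨r, c⟩, hrc⟩ := this
    exact YoungDiagram.mem_iff_lt_colLen.1 (μ.up_left_mem (Nat.zero_le r) (Nat.zero_le c) hrc)
  obtain ⟨ν, hν1, hν2⟩ := extremal_exists_drop_row μ
  have h4 := extremal_row hQ e1 hν1 hv
  have h5 : ν.colLen 0 < L.card := by
    by_contra h5
    have h6 : (μ.colLen 0 - 1, 0) ∈ ν := YoungDiagram.mem_iff_lt_colLen.2 (by omega)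
    have h7 := YoungDiagram.mem_iff_lt_colLen.1 ((hν2 _ _).1 h6)
    omega
  apply h
  rw [extremal_sym_alt_comm hQL, act_mul_apply]
  exact alt_kill (subset_sdiff.2 ⟨hL, hQL.symm⟩) h5 h4

/-- either `|Q| = μ.rowLen 0` (row, then column) or `|L| = μ.colLen 0` (column, then row), or the
vector is zero -/
theorem extremal_hook {P Q L : Finset ι} (hQ : Q ⊆ P) (hL : L ⊆ P) (hQL : Disjoint Q L)
    {μ ν : YoungDiagram} (hcard : Q.card + L.card + 1 = μ.rowLen 0 + μ.colLen 0)
    (hν : ∀ c : ℕ × ℕ, c ∈ ν ↔ (c.1 + 1, c.2 + 1) ∈ μ) {v : WM ι} (hv : v ∈ Iso P μ) :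
    act (sym Q * alt L) v ∈ Iso (P \ (Q ∪ L)) ν := by
  by_cases h1 : μ.rowLen 0 < Q.card
  · rw [act_mul_apply, alt, sym_kill hQ h1 (Iso_act (Or.inl hL) (palt_mem_GP _ _) hv)]
    exact Submodule.zero_mem _
  by_cases h2 : μ.colLen 0 < L.card
  · rw [act_mul_apply, alt_kill hL h2 hv, map_zero]
    exact Submodule.zero_mem _
  by_cases e1 : Q.card = μ.rowLen 0
  · obtain ⟨ν1, hν1, hν2⟩ := extremal_exists_drop_row μ
    have h4 := extremal_row hQ e1 hν1 hv
    rw [extremal_sym_alt_comm hQL, act_mul_apply, ← sup_eq_union, ← sdiff_sdiff]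
    refine extremal_col (subset_sdiff.2 ⟨hL, hQL.symm⟩) (eq_of_forall_lt_iff fun r => ?_)
      (fun c => eq_of_forall_lt_iff fun r => ?_) h4
    · rw [← YoungDiagram.mem_iff_lt_colLen, hν2, YoungDiagram.mem_iff_lt_colLen]
      omega
    · rw [← YoungDiagram.mem_iff_lt_colLen, ← YoungDiagram.mem_iff_lt_colLen, hν, hν2]
  · have e2 : L.card = μ.colLen 0 := by omega
    obtain ⟨ν1, hν1, hν2⟩ := extremal_exists_drop_col μ
    have h4 := extremal_col hL e2 hν1 hv
    rw [act_mul_apply, union_comm, ← sup_eq_union, ← sdiff_sdiff]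
    refine extremal_row (subset_sdiff.2 ⟨hQ, hQL⟩) (eq_of_forall_lt_iff fun r => ?_)
      (fun c => eq_of_forall_lt_iff fun r => ?_) h4
    · rw [← YoungDiagram.mem_iff_lt_rowLen, hν2, YoungDiagram.mem_iff_lt_rowLen]
      omega
    · rw [← YoungDiagram.mem_iff_lt_rowLen, ← YoungDiagram.mem_iff_lt_rowLen, hν, hν2]

end Crest.Agent.R195
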