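/- Row 195, task ExtRow: extraction of the first rows / first columns. -/
import Crest.Agent.R195.Emb
import Crest.Agent.R195.Extremal
import Crest.Agent.R195.Twist

set_option autoImplicit false

namespace Crest.Agent.R195

open Equiv Finset

variable {ι : Type} [Fintype ι] [DecidableEq ι]

variable {Y Z : Type} [Fintype Y] [DecidableEq Y] [Fintype Z] [DecidableEq Z]

omit [DecidableEq ι] [DecidableEq Y] [DecidableEq Z] in
theorem extRow_sum_split {M : Type} [AddCommMonoid M] (e : Y ⊕ Z ≃ ι) (q : ι → Prop)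
    [DecidablePred q] (f : ι → M) :
    ∑ p ∈ univ.filter q, f p = ∑ y ∈ univ.filter (fun y => q (e (Sum.inl y))), f (e (Sum.inl y)) +
      ∑ z ∈ univ.filter (fun z => q (e (Sum.inr z))), f (e (Sum.inr z)) := by
  rw [sum_filter, sum_filter, sum_filter, ← e.sum_comp, Fintype.sum_sum_type]

omit [DecidableEq ι] [DecidableEq Y] [DecidableEq Z] in
theorem extRow_card_split (e : Y ⊕ Z ≃ ι) {P : Finset ι} {PY : Finset Y} {PZ : Finset Z}
    (hPY : ∀ y, e (Sum.inl y) ∈ P ↔ y ∈ PY) (hPZ : ∀ z, e (Sum.inr z) ∈ P ↔ z ∈ PZ)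
    (q : ι → Prop) [DecidablePred q] :
    (P.filter q).card = (PY.filter fun y => q (e (Sum.inl y))).card +
      (PZ.filter fun z => q (e (Sum.inr z))).card := by
  classical
  have h := extRow_sum_split e (fun i => i ∈ P ∧ q i) (fun _ => 1)
  simp only [← card_eq_sum_ones, hPY, hPZ, ← filter_filter, filter_mem_eq_inter, univ_inter] at h
  exact h

omit [DecidableEq ι] [DecidableEq Y] [DecidableEq Z] in
theorem extRow_wt_mrg (e : Y ⊕ Z ≃ ι) (a : ℕ) (y : Y → ℕ) (z : Z → ℕ) (r : ℕ) :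
    wt univ (mrg e a y z) r = wt univ y r + (univ.filter fun q => z q + a = r).card := by
  rw [wt, extRow_card_split e (PY := univ) (PZ := univ) (by simp) (by simp)]
  simp only [mrg_inl, mrg_inr, wt]

omit [Fintype ι] [Fintype Y] [Fintype Z] [DecidableEq Z] in
theorem extRow_update_inl (e : Y ⊕ Z ≃ ι) (a : ℕ) (y : Y → ℕ) (z : Z → ℕ) (p : Y) (j : ℕ) :
    Function.update (mrg e a y z) (e (Sum.inl p)) j = mrg e a (Function.update y p j) z := by
  funext i
  obtain ⟨x, rfl⟩ := e.surjective i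
  cases x <;> simp [Function.update_apply]

omit [Fintype ι] [Fintype Y] [Fintype Z] [DecidableEq Y] in
theorem extRow_update_inr (e : Y ⊕ Z ≃ ι) (a : ℕ) (y : Y → ℕ) (z : Z → ℕ) (q : Z) (j : ℕ) :
    Function.update (mrg e a y z) (e (Sum.inr q)) (j + a) = mrg e a y (Function.update z q j) := by
  funext i
  obtain ⟨x, rfl⟩ := e.surjective i
  cases x with
  | inl p => simp
  | inr p =>
    simp only [Function.update_apply, mrg_inr, EmbeddingLike.apply_eq_iff_eq, Sum.inr.injEq]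
    split_ifs <;> rfl

omit [Fintype ι] [DecidableEq ι] in
theorem extRow_card_wt (P : Finset ι) (x : ι → ℕ) (a : ℕ) :
    (P.filter fun p => x p < a).card = ∑ r ∈ range a, wt P x r := by
  rw [card_eq_sum_card_fiberwise (f := x) (t := range a)
    (fun c hc => by simpa using (mem_filter.1 hc).2)]
  refine sum_congr rfl fun r hr => ?_
  rw [wt, filter_filter]
  congr 1
  refine filter_congr fun c _ => ⟨fun h => h.2, fun h => ⟨?_, h⟩⟩
  rw [h]
  exact mem_range.1 hr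

omit [Fintype ι] in
theorem extRow_card_lt {P : Finset ι} {T : ι → ℕ × ℕ} {μ : YoungDiagram} (h : IsTab P T μ)
    (a : ℕ) : (P.filter fun p => rowf T p < a).card = ∑ r ∈ range a, μ.rowLen r := by
  rw [extRow_card_wt]
  exact sum_congr rfl fun r _ => h.wt_rowf r

theorem extRow_shape (e : Y ⊕ Z ≃ ι) {T : ι → ℕ × ℕ} {TZ : Z → ℕ × ℕ} {a : ℕ}
    (hY : ∀ y, (T (e (Sum.inl y))).1 < a)
    (hZ : ∀ z, T (e (Sum.inr z)) = ((TZ z).1 + a, (TZ z).2))
    {P : Finset ι} {PY : Finset Y} {PZ : Finset Z}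
    (hPY : ∀ y, e (Sum.inl y) ∈ P ↔ y ∈ PY) (hPZ : ∀ z, e (Sum.inr z) ∈ P ↔ z ∈ PZ)
    {μ μY μZ : YoungDiagram} (hμ : IsTab P T μ) (hμY : IsTab PY (fun y => T (e (Sum.inl y))) μY)
    (hμZ : IsTab PZ TZ μZ) :
    PY.card = ∑ r ∈ range a, μ.rowLen r ∧
      (∀ r, μY.rowLen r = if r < a then μ.rowLen r else 0) ∧
      ∀ r, μZ.rowLen r = μ.rowLen (r + a) := by
  refine ⟨?_, fun r => ?_, fun r => ?_⟩
  · rw [← extRow_card_lt hμ, extRow_card_split e hPY hPZ,
      filter_true_of_mem (p := fun y => rowf T (e (Sum.inl y)) < a) fun y _ => hY y,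
      filter_false_of_mem, card_empty, add_zero]
    intro z _
    simp [rowf, hZ]
  · rw [← hμY.wt_rowf, ← hμ.wt_rowf]
    split_ifs with hr
    · rw [wt, wt, extRow_card_split e hPY hPZ, filter_false_of_mem (s := PZ), card_empty, add_zero]
      · rfl
      · intro z _
        simp only [rowf, hZ]
        omega
    · rw [wt, filter_false_of_mem, card_empty]
      intro y _
      have := hY y
      simp only [rowf]
      omega
  · rw [← hμZ.wt_rowf, ← hμ.wt_rowf, wt, wt, extRow_card_split e hPY hPZ,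
      filter_false_of_mem (s := PY), card_empty, zero_add]
    · simp only [rowf, hZ, Nat.add_right_cancel_iff]
    · intro y _
      have := hY y
      simp only [rowf]
      omega

omit [DecidableEq Y] [DecidableEq Z] in
theorem extRow_small (e : Y ⊕ Z ≃ ι) {T : ι → ℕ × ℕ} {TZ : Z → ℕ × ℕ} {a : ℕ}
    (hY : ∀ y, (T (e (Sum.inl y))).1 < a)
    (hZ : ∀ z, T (e (Sum.inr z)) = ((TZ z).1 + a, (TZ z).2)) {κ : YoungDiagram}
    (hκ : IsTab univ T κ) {w : WM ι} (hw : w ∈ HW univ κ) {y : Y → ℕ} {z : Z → ℕ}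
    (h : w (mrg e a y z) ≠ 0) (p : Y) : y p < a := by
  have h1 : (univ.filter fun i => mrg e a y z i < a).card =
      (univ.filter fun i => rowf T i < a).card := by
    rw [extRow_card_lt hκ, extRow_card_wt]
    exact sum_congr rfl fun r _ => hw.1 _ h r
  rw [extRow_card_split e (PY := univ) (PZ := univ) (by simp) (by simp),
    extRow_card_split e (PY := univ) (PZ := univ) (by simp) (by simp),
    filter_false_of_mem (s := (univ : Finset Z)) (by simp),
    filter_false_of_mem (s := (univ : Finset Z)) (by simp [rowf, hZ]),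
    filter_true_of_mem (p := fun y => rowf T (e (Sum.inl y)) < a) fun y _ => hY y,
    Nat.add_right_cancel_iff, card_filter_eq_iff] at h1
  simpa using h1 p (mem_univ p)

omit [DecidableEq ι] [DecidableEq Y] [Fintype Z] [DecidableEq Z] in
theorem extRow_std_inl (e : Y ⊕ Z ≃ ι) {τ : ι → ℤ} {T : ι → ℕ × ℕ} {κ κY : YoungDiagram}
    (hT : Std τ T κ) (hκY : IsTab univ (fun y => T (e (Sum.inl y))) κY) :
    Std (fun y => τ (e (Sum.inl y))) (fun y => T (e (Sum.inl y))) κY :=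
  ⟨fun _ _ h => Sum.inl_injective (e.injective (hT.1 h)), hκY, fun _ _ h => hT.2.2 _ _ h⟩

omit [DecidableEq ι] [Fintype Y] [DecidableEq Y] [DecidableEq Z] in
theorem extRow_std_inr (e : Y ⊕ Z ≃ ι) {τ : ι → ℤ} {T : ι → ℕ × ℕ} {TZ : Z → ℕ × ℕ}
    {κ κZ : YoungDiagram} {a : ℕ} (hT : Std τ T κ)
    (hZ : ∀ z, T (e (Sum.inr z)) = ((TZ z).1 + a, (TZ z).2)) (hκZ : IsTab univ TZ κZ) :
    Std (fun z => τ (e (Sum.inr z))) TZ κZ :=
  ⟨fun _ _ h => Sum.inr_injective (e.injective (hT.1 h)), hκZ, fun i j h => hT.2.2 _ _ (by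
    rw [hZ, hZ]
    exact ⟨Nat.add_le_add_right h.1 a, h.2⟩)⟩

omit [Fintype ι] [DecidableEq Y] [Fintype Z] [DecidableEq Z] in
theorem extRow_pre_inl (e : Y ⊕ Z ≃ ι) {τ : ι → ℤ} {P : Finset ι} (h : IsPre τ P) :
    IsPre (fun y => τ (e (Sum.inl y))) (univ.filter fun y => e (Sum.inl y) ∈ P) :=
  fun _ hi _ hj => mem_filter.2 ⟨mem_univ _, h _ (mem_filter.1 hi).2 _ hj⟩

omit [Fintype ι] [Fintype Y] [DecidableEq Y] [DecidableEq Z] in
theorem extRow_pre_inr (e : Y ⊕ Z ≃ ι) {τ : ι → ℤ} {P : Finset ι} (h : IsPre τ P) :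
    IsPre (fun z => τ (e (Sum.inr z))) (univ.filter fun z => e (Sum.inr z) ∈ P) :=
  fun _ hi _ hj => mem_filter.2 ⟨mem_univ _, h _ (mem_filter.1 hi).2 _ hj⟩

/-- the pattern "small letters on `PY`, large letters on `PZ`" -/
def extRowQ {ι Y Z : Type} (e : Y ⊕ Z ≃ ι) (a : ℕ) (PY : Finset Y) (PZ : Finset Z) :
    (ι → ℕ) → Prop :=
  fun x => (∀ p ∈ PY.map (inlE e), x p < a) ∧ ∀ p ∈ PZ.map (inrE e), a ≤ x p

omit [DecidableEq Y] [DecidableEq Z] in
theorem extRow_flt (e : Y ⊕ Z ≃ ι) {T : ι → ℕ × ℕ} {TZ : Z → ℕ × ℕ} {a : ℕ}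
    (hY : ∀ y, (T (e (Sum.inl y))).1 < a)
    (hZ : ∀ z, T (e (Sum.inr z)) = ((TZ z).1 + a, (TZ z).2)) {κ : YoungDiagram}
    (hκ : IsTab univ T κ) {w : WM ι} (hw : w ∈ HW univ κ) (PY : Finset Y) (PZ : Finset Z)
    (y : Y → ℕ) (z : Z → ℕ) :
    flt (extRowQ e a PY PZ) w (mrg e a y z) = w (mrg e a y z) := by
  rw [flt_apply]
  split_ifs with h
  · rfl
  · by_contra h'
    refine h ⟨fun p hp => ?_, fun p hp => ?_⟩
    · obtain ⟨q, -, rfl⟩ := mem_map.1 hp
      change mrg e a y z (e (Sum.inl q)) < a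
      rw [mrg_inl]
      exact extRow_small e hY hZ hκ hw (Ne.symm h') q
    · obtain ⟨q, -, rfl⟩ := mem_map.1 hp
      change a ≤ mrg e a y z (e (Sum.inr q))
      rw [mrg_inr]
      exact Nat.le_add_left _ _

theorem extRow_extremal (e : Y ⊕ Z ≃ ι) {τ : ι → ℤ} {T : ι → ℕ × ℕ} {TZ : Z → ℕ × ℕ}
    {κ : YoungDiagram} {a : ℕ} (hT : Std τ T κ) (hY : ∀ y, (T (e (Sum.inl y))).1 < a)
    (hZ : ∀ z, T (e (Sum.inr z)) = ((TZ z).1 + a, (TZ z).2))
    {w : WM ι} (hw : IsGT τ T κ w) {P : Finset ι} (hP : IsPre τ P) {PY : Finset Y} {PZ : Finset Z}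
    (hPY : ∀ y, e (Sum.inl y) ∈ P ↔ y ∈ PY) (hPZ : ∀ z, e (Sum.inr z) ∈ P ↔ z ∈ PZ)
    {μY μZ : YoungDiagram} (hμY : IsTab PY (fun y => T (e (Sum.inl y))) μY)
    (hμZ : IsTab PZ TZ μZ) :
    flt (extRowQ e a PY PZ) w ∈ Iso (PY.map (inlE e)) μY ∧
      flt (extRowQ e a PY PZ) w ∈ Iso (PZ.map (inrE e)) μZ := by
  obtain ⟨μ, hμ, -⟩ := hT.exists_tab hP
  obtain ⟨s0, s1, s2⟩ := extRow_shape e hY hZ hPY hPZ hμ hμY hμZ
  refine extremal_word (P := P) ?_ ?_ (by rw [card_map, s0]) s1 s2 (hw.2 P μ hP hμ)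
  · rw [disjoint_left]
    intro i hi hi'
    obtain ⟨p, -, rfl⟩ := mem_map.1 hi
    obtain ⟨q, -, h⟩ := mem_map.1 hi'
    exact Sum.inr_ne_inl (e.injective h)
  · ext i
    obtain ⟨x, rfl⟩ := e.surjective i
    cases x <;> simp [inlE, inrE, hPY, hPZ]

/-- The slices of a GT vector are GT vectors.  HW part: `Eop_apply` and the weight of `w` (all
letters on `Y` are `< a` as soon as all letters on `Z` are `≥ a`).  Iso part: `exists_pre_inl`,
`Std.exists_tab`, `mapL_yc`, `slY_act`, `extremal_word`, `flt_act`. -/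
theorem isGT_slY (e : Y ⊕ Z ≃ ι) {τ : ι → ℤ} {T : ι → ℕ × ℕ} {TZ : Z → ℕ × ℕ}
    {κ κY κZ : YoungDiagram} {a : ℕ} (hT : Std τ T κ) (hY : ∀ y, (T (e (Sum.inl y))).1 < a)
    (hZ : ∀ z, T (e (Sum.inr z)) = ((TZ z).1 + a, (TZ z).2))
    (hκY : IsTab univ (fun y => T (e (Sum.inl y))) κY) (hκZ : IsTab univ TZ κZ)
    {w : WM ι} (hw : IsGT τ T κ w) (z : Z → ℕ) :
    IsGT (fun y => τ (e (Sum.inl y))) (fun y => T (e (Sum.inl y))) κY (slY e a z w) := by
  have hHW : w ∈ HW univ κ := Spec_le_HW _ _ hw.1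
  have hsm := fun y z => extRow_small e hY hZ hT.2.1 hHW (y := y) (z := z)
  obtain ⟨-, s1, -⟩ := extRow_shape e hY hZ (P := univ) (PY := univ) (PZ := univ) (by simp)
    (by simp) hT.2.1 hκY hκZ
  refine ⟨HW_le_Spec _ _ ⟨fun y hy r => ?_, fun i j hij => ?_⟩, fun PY μY hP hμY => ?_⟩
  · rw [slY_apply] at hy
    have h1 := hHW.1 _ hy r
    rw [extRow_wt_mrg] at h1
    rw [s1]
    split_ifs with hr
    · rw [← h1, filter_false_of_mem (s := univ) (p := fun q => z q + a = r) (by intros; omega)]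
      rfl
    · rw [wt, filter_false_of_mem, card_empty]
      intro p _
      have := hsm y z hy p
      omega
  · ext y
    rw [Eop_apply, Finsupp.zero_apply]
    by_cases hj : j < a
    · have h1 := DFunLike.congr_fun (hHW.2 i j hij) (mrg e a y z)
      rw [Eop_apply, extRow_sum_split e, Finsupp.zero_apply,
        filter_false_of_mem (s := (univ : Finset Z)) (by simp only [mrg_inr]; intros; omega),
        sum_empty, add_zero] at h1
      simp only [mrg_inl, extRow_update_inl] at h1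
      exact h1
    · refine sum_eq_zero fun p _ => ?_
      by_contra h
      have := hsm _ z h p
      rw [Function.update_self] at this
      exact hj this
  · obtain ⟨P, hP', hPY⟩ := exists_pre_inl e hP
    obtain ⟨μZ, hμZ, -⟩ := (extRow_std_inr e hT hZ hκZ).exists_tab (extRow_pre_inr e hP')
    have key := (extRow_extremal e hT hY hZ hw hP' hPY (by simp) hμY hμZ).1
    intro T' ν hT' hne
    obtain ⟨T'', h1, h2⟩ := mapL_yc e hT'
    have h3 : slY e a z w = slY e a z (flt (extRowQ e a PY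
        (univ.filter fun z => e (Sum.inr z) ∈ P)) w) := by
      ext y
      rw [slY_apply, slY_apply, extRow_flt e hY hZ hT.2.1 hHW]
    rw [h3, ← slY_act, h2, key T'' ν h1 hne, map_zero]

theorem isGT_slZ (e : Y ⊕ Z ≃ ι) {τ : ι → ℤ} {T : ι → ℕ × ℕ} {TZ : Z → ℕ × ℕ}
    {κ κY κZ : YoungDiagram} {a : ℕ} (hT : Std τ T κ) (hY : ∀ y, (T (e (Sum.inl y))).1 < a)
    (hZ : ∀ z, T (e (Sum.inr z)) = ((TZ z).1 + a, (TZ z).2))
    (hκY : IsTab univ (fun y => T (e (Sum.inl y))) κY) (hκZ : IsTab univ TZ κZ)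
    {w : WM ι} (hw : IsGT τ T κ w) (y : Y → ℕ) :
    IsGT (fun z => τ (e (Sum.inr z))) TZ κZ (slZ e a y w) := by
  have hHW : w ∈ HW univ κ := Spec_le_HW _ _ hw.1
  have hsm := fun y z => extRow_small e hY hZ hT.2.1 hHW (y := y) (z := z)
  obtain ⟨-, -, s2⟩ := extRow_shape e hY hZ (P := univ) (PY := univ) (PZ := univ) (by simp)
    (by simp) hT.2.1 hκY hκZ
  refine ⟨HW_le_Spec _ _ ⟨fun z hz r => ?_, fun i j hij => ?_⟩, fun PZ μZ hP hμZ => ?_⟩
  · rw [slZ_apply] at hz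
    have h1 := hHW.1 _ hz (r + a)
    rw [extRow_wt_mrg] at h1
    rw [s2, ← h1, wt, wt, filter_false_of_mem (s := (univ : Finset Y)), card_empty, zero_add]
    · simp only [Nat.add_right_cancel_iff]
    · intro p _
      have := hsm y z hz p
      omega
  · ext z
    rw [Eop_apply, Finsupp.zero_apply]
    have h1 := DFunLike.congr_fun (hHW.2 (i + a) (j + a) (by omega)) (mrg e a y z)
    rw [Eop_apply, extRow_sum_split e, Finsupp.zero_apply, sum_eq_zero, zero_add] at h1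
    · simp only [mrg_inr, extRow_update_inr, Nat.add_right_cancel_iff] at h1
      exact h1
    · intro p _
      rw [extRow_update_inl]
      by_contra h
      have := hsm _ z h p
      rw [Function.update_self] at this
      omega
  · obtain ⟨P, hP', hPZ⟩ := exists_pre_inr e hP
    obtain ⟨μY, hμY, -⟩ := (extRow_std_inl e hT hκY).exists_tab (extRow_pre_inl e hP')
    have key := (extRow_extremal e hT hY hZ hw hP' (by simp) hPZ hμY hμZ).2
    intro T' ν hT' hne
    obtain ⟨T'', h1, h2⟩ := mapR_yc e hT'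
    have h3 : slZ e a y w = slZ e a y (flt (extRowQ e a
        (univ.filter fun y => e (Sum.inl y) ∈ P) PZ) w) := by
      ext z
      rw [slZ_apply, slZ_apply, extRow_flt e hY hZ hT.2.1 hHW]
    rw [h3, ← slZ_act, h2, key T'' ν h1 hne, map_zero]

/-- `ext_of_kernel` with `ϑ y z v = v (mrg e a y z)`; bound from `small_le_of_mem_Iso` -/
theorem ext_row (e : Y ⊕ Z ≃ ι) {τ : ι → ℤ} {T : ι → ℕ × ℕ} {TZ : Z → ℕ × ℕ}
    {κ κY κZ : YoungDiagram} {a : ℕ} (hT : Std τ T κ) (hY : ∀ y, (T (e (Sum.inl y))).1 < a)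
    (hZ : ∀ z, T (e (Sum.inr z)) = ((TZ z).1 + a, (TZ z).2))
    (hκY : IsTab univ (fun y => T (e (Sum.inl y))) κY) (hκZ : IsTab univ TZ κZ) :
    Ext τ T κ e (fun y => T (e (Sum.inl y))) κY TZ κZ := by
  obtain ⟨w, hw, hw1⟩ := exists_GT hT
  have hrow : mrg e a (rowf fun y => T (e (Sum.inl y))) (rowf TZ) = rowf T := by
    funext i
    obtain ⟨x, rfl⟩ := e.surjective i
    cases x with
    | inl y => rw [mrg_inl]; rfl
    | inr z => rw [mrg_inr, rowf, rowf, hZ]
  have hsY := extRow_std_inl e hT hκY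
  have hwY := isGT_slY e hT hY hZ hκY hκZ hw (rowf TZ)
  have hwY1 : slY e a (rowf TZ) w (rowf fun y => T (e (Sum.inl y))) = 1 := by
    rw [slY_apply, hrow, hw1]
  refine ext_of_kernel e hsY (extRow_std_inr e hT hZ hκZ) hw hwY hwY1
    (isGT_slZ e hT hY hZ hκY hκZ hw (rowf fun y => T (e (Sum.inl y))))
    (by rw [slZ_apply, hrow, hw1]) (fun y z => Finsupp.lapply (mrg e a y z)) 1 one_ne_zero
    (fun y z => ?_) (fun gY gZ y z => ?_) (fun y z g hg P hP => ?_)
  · have h1 := DFunLike.congr_fun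
      (GT_eq_smul hsY (isGT_slY e hT hY hZ hκY hκZ hw z) hwY hwY1) y
    rw [Finsupp.smul_apply, smul_eq_mul, slY_apply, slY_apply e a z] at h1
    rw [Finsupp.lapply_apply, h1, slZ_apply]
    ring
  · rw [Finsupp.lapply_apply, Finsupp.lapply_apply, wrep_apply, mrg_comp_jj]
  · rw [Finsupp.lapply_apply] at hg
    have hHW : wrep ι g w ∈ HW univ κ := by
      rw [← act_el]
      exact HW_act (Or.inl subset_rfl) (mem_GP_univ _) (Spec_le_HW _ _ hw.1)
    have hsm := extRow_small e hY hZ hT.2.1 hHW hg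
    rw [wrep_apply] at hg
    obtain ⟨μ, hμ, -⟩ := hT.exists_tab hP
    have h1 := small_le_of_mem_Iso (hw.2 P μ hP hμ) hg a
    rw [← extRow_card_lt hμ] at h1
    convert h1 using 2
    · refine filter_congr fun i _ => ?_
      obtain ⟨x, hx⟩ := e.surjective (g i)
      rw [Function.comp_apply, ← hx, symm_apply_apply]
      cases x with
      | inl p => simpa using hsm p
      | inr q => simp
    · refine filter_congr fun i _ => ?_
      obtain ⟨x, rfl⟩ := e.surjective i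
      rw [symm_apply_apply]
      cases x with
      | inl p => simpa [rowf] using hY p
      | inr q => simp [rowf, hZ]

/-- from `ext_row` for the transposed tableaux by `twist_mcs` (three times) and `sg_jj` -/
theorem ext_col (e : Y ⊕ Z ≃ ι) {τ : ι → ℤ} {T : ι → ℕ × ℕ} {TZ : Z → ℕ × ℕ}
    {κ κY κZ : YoungDiagram} {a : ℕ} (hT : Std τ T κ) (hY : ∀ y, (T (e (Sum.inl y))).2 < a)
    (hZ : ∀ z, T (e (Sum.inr z)) = ((TZ z).1, (TZ z).2 + a))
    (hκY : IsTab univ (fun y => T (e (Sum.inl y))) κY) (hκZ : IsTab univ TZ κZ) :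
    Ext τ T κ e (fun y => T (e (Sum.inl y))) κY TZ κZ := by
  intro αY hαY αZ hαZ
  have h := ext_row e (T := Prod.swap ∘ T) (TZ := Prod.swap ∘ TZ) (a := a) hT.swap hY
    (fun z => by rw [Function.comp_apply, hZ]; rfl) hκY.swap hκZ.swap
  obtain ⟨α, hα, h1, h2⟩ := h _ (twist_mcs hκY hαY) _ (twist_mcs hκZ hαZ)
  have h3 := twist_mcs hT.swap.2.1 hα
  rw [YoungDiagram.transpose_transpose] at h3
  refine ⟨_, h3, fun gY gZ => ?_, fun g hg => h2 g (right_ne_zero_of_mul hg)⟩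
  rw [h1, sg_jj]
  linear_combination (sg gZ * sg gZ * αY gY * αZ gZ) * sg_mul_self gY +
    (αY gY * αZ gZ) * sg_mul_self gZ

end Crest.Agent.R195
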