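/- Row 195, task ExtHook0: the hook extraction functional: equivariance and forcing bound. -/
import Crest.Agent.R195.ExtRow

set_option autoImplicit false

namespace Crest.Agent.R195

open Equiv Finset

variable {ι : Type} [Fintype ι] [DecidableEq ι]

variable {Y Z : Type} [Fintype Y] [DecidableEq Y] [Fintype Z] [DecidableEq Z]

open Classical in
/-- the extraction functional: for a word `y` of weight `κY`, antisymmetrise over the positions
with nonzero letters and read the coefficient of the merged word -/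
noncomputable def hkFun (e : Y ⊕ Z ≃ ι) (κY : YoungDiagram) (y : Y → ℕ) (z : Z → ℕ) :
    Module.Dual ℂ (WM ι) :=
  if ∀ r, wt univ y r = κY.rowLen r then
    (Finsupp.lapply (mrg e 1 y z)).comp
      (act (alt ((univ.filter fun p => y p ≠ 0).map (inlE e))) : WM ι →ₗ[ℂ] WM ι)
  else 0

theorem ExtHook0_alt_wrep (g : Perm ι) (L : Finset ι) (v : WM ι) :
    act (alt (L.map g.toEmbedding)) (wrep ι g v) = wrep ι g (act (alt L) v) := by
  have h := el_mul_palt_conj g L (fun _ => 0)
  rw [← act_el, ← act_el, ← act_mul_apply, ← act_mul_apply, alt, alt, h]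
  rfl

/-- a coefficient of `alt L • w` at a word that is constant on `Q` factors through
`sym Q' * alt L'` -/
theorem ExtHook0_factor {Q L L' : Finset ι} (hL : L' ⊆ L) (hQL : Disjoint Q L) {w : WM ι}
    {x : ι → ℕ} (hx : ∀ i ∈ Q, x i = 0) (h : act (alt L) w x ≠ 0) :
    act (sym Q * alt L') w ≠ 0 := by
  intro h0
  have hsub : stab L' (fun _ => 0) ⊆ stab L (fun _ => 0) := fun σ hσ =>
    mem_stab_zero.2 (SP_mono hL (mem_stab_zero.1 hσ))
  have h1 : alt L * (sym Q * alt L') =
      ((stab L' (fun _ => 0)).card : ℂ) • (sym Q * alt L) := by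
    have hc : alt L * sym Q = sym Q * alt L :=
      GP_commute hQL.symm (palt_mem_GP L _) (psym_mem_GP Q _)
    rw [← mul_assoc, hc, mul_assoc]
    have := palt_mul_palt hsub
    unfold alt
    rw [this, mul_smul_comm]
  have h2 : act (alt L * (sym Q * alt L')) w = 0 := by
    rw [act_mul_apply, h0, map_zero]
  rw [h1, map_smul, LinearMap.smul_apply, smul_eq_zero] at h2
  rcases h2 with h2 | h2
  · exact card_stab_ne_zero _ _ h2
  · rw [act_mul_apply] at h2
    have h3 := congrArg (fun u : WM ι => u x) h2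
    simp only [Finsupp.coe_zero, Pi.zero_apply] at h3
    rw [sym, act_psym_apply] at h3
    have h4 : ∀ σ ∈ stab Q (fun _ => 0), act (alt L) w (x ∘ σ) = act (alt L) w x := by
      intro σ hσ
      congr 1
      funext i
      by_cases hi : i ∈ Q
      · rw [Function.comp_apply, hx i hi,
          hx _ ((SP_apply_mem_iff (mem_stab_zero.1 hσ) i).2 hi)]
      · rw [Function.comp_apply, mem_SP.1 (mem_stab_zero.1 hσ) i hi]
    rw [Finset.sum_congr rfl h4, Finset.sum_const, nsmul_eq_mul, mul_eq_zero] at h3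
    rcases h3 with h3 | h3
    · exact card_stab_ne_zero _ _ h3
    · exact h h3

variable (e : Y ⊕ Z ≃ ι) {τ : ι → ℤ} {T : ι → ℕ × ℕ} {TZ : Z → ℕ × ℕ} {κ κY κZ : YoungDiagram}

theorem hkFun_equiv (κY : YoungDiagram) (gY : Perm Y) (gZ : Perm Z) (y : Y → ℕ) (z : Z → ℕ)
    (v : WM ι) : hkFun e κY y z (wrep ι (jj e gY gZ) v) = hkFun e κY (y ∘ gY) (z ∘ gZ) v := by
  classical
  have hw : (∀ r, wt univ (y ∘ gY) r = κY.rowLen r) ↔ ∀ r, wt univ y r = κY.rowLen r := by
    refine forall_congr' fun r => ?_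
    rw [wt_comp (P := univ) (g := gY) (fun i => by simp) y r]
  unfold hkFun
  by_cases h : ∀ r, wt univ y r = κY.rowLen r
  · rw [if_pos h, if_pos (hw.2 h)]
    have hL : ((univ.filter fun p => (y ∘ gY) p ≠ 0).map (inlE e)).map
        (jj e gY gZ).toEmbedding = (univ.filter fun p => y p ≠ 0).map (inlE e) := by
      ext i
      simp only [mem_map, mem_filter, mem_univ, true_and, inlE, Function.Embedding.coeFn_mk,
        Function.comp_apply]
      constructor
      · rintro ⟨_, ⟨p, hp, rfl⟩, rfl⟩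
        exact ⟨gY p, hp, (jj_inl e gY gZ p).symm⟩
      · rintro ⟨p, hp, rfl⟩
        refine ⟨_, ⟨gY.symm p, by simpa using hp, rfl⟩, ?_⟩
        rw [jj_inl]; simp
    simp only [LinearMap.comp_apply, Finsupp.lapply_apply]
    rw [← hL, ExtHook0_alt_wrep, wrep_apply, mrg_comp_jj]
  · rw [if_neg h, if_neg (fun h' => h (hw.1 h'))]
    rfl

/-- The functional `v ↦ hkFun e κY y z (wrep g v)` is invariant under permutations of
`Q = g⁻¹ {y = 0}` and anti-invariant under permutations of `L = g⁻¹ {y ≠ 0}`, so it factors through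
`sym (Q ∩ P) * alt (L ∩ P)`; use `hook_bound`, and `|Y ∩ P| + 1 = μ.rowLen 0 + μ.colLen 0` for the
shape `μ` of `T` on a nonempty prefix `P`. -/
theorem hkFun_bound (hT : Std τ T κ)
    (hY : ∀ y, (T (e (Sum.inl y))).1 = 0 ∨ (T (e (Sum.inl y))).2 = 0)
    (hZ : ∀ z, T (e (Sum.inr z)) = ((TZ z).1 + 1, (TZ z).2 + 1))
    {w : WM ι} (hw : IsGT τ T κ w) (y : Y → ℕ) (z : Z → ℕ) (g : Perm ι)
    (h : hkFun e κY y z (wrep ι g w) ≠ 0) : Bound τ e g := by
  classical
  have _ := hY
  intro P hP
  rcases P.eq_empty_or_nonempty with rfl | hne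
  · simp
  obtain ⟨μ, hμ, -⟩ := hT.exists_tab hP
  have hI : w ∈ Iso P μ := hw.2 P μ hP hμ
  unfold hkFun at h
  split_ifs at h with hc
  swap
  · exact absurd rfl h
  set L0 : Finset ι := (univ.filter fun p => y p ≠ 0).map (inlE e) with hL0
  set L : Finset ι := L0.map g.symm.toEmbedding with hL
  have hLL : L.map g.toEmbedding = L0 := by
    rw [hL, Finset.map_map]
    ext i
    simp
  have hmemL : ∀ i, i ∈ L ↔ ∃ p, y p ≠ 0 ∧ e (Sum.inl p) = g i := by
    intro i
    rw [hL, Finset.mem_map_equiv, hL0]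
    simp [inlE]
  set Q : Finset ι := P.filter fun i => ∃ p, y p = 0 ∧ e (Sum.inl p) = g i with hQ
  simp only [LinearMap.comp_apply, Finsupp.lapply_apply] at h
  rw [← hLL, ExtHook0_alt_wrep, wrep_apply] at h
  have hQL : Disjoint Q L := by
    rw [Finset.disjoint_left]
    intro i hi hi'
    obtain ⟨p, hp, hp'⟩ := (mem_filter.1 hi).2
    obtain ⟨q, hq, hq'⟩ := (hmemL i).1 hi'
    have : p = q := Sum.inl_injective (e.injective (hp'.trans hq'.symm))
    exact hq (this ▸ hp)
  have hx : ∀ i ∈ Q, (mrg e 1 y z ∘ g) i = 0 := by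
    intro i hi
    obtain ⟨p, hp, hp'⟩ := (mem_filter.1 hi).2
    rw [Function.comp_apply, ← hp', mrg_inl, hp]
  have hne' := ExtHook0_factor (L' := L ∩ P) inter_subset_left hQL hx h
  have hb := hook_bound (P := P) (Q := Q) (filter_subset _ _) inter_subset_right
    (hQL.mono_right inter_subset_left) hne hI hne'
  have h1 : (P.filter fun i => (e.symm (g i)).isLeft).card ≤ Q.card + (L ∩ P).card := by
    refine le_trans (card_le_card ?_) (card_union_le _ _)
    intro i hi
    obtain ⟨hiP, hi⟩ := mem_filter.1 hi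
    obtain ⟨p, hp⟩ := Sum.isLeft_iff.1 hi
    have hp' : e (Sum.inl p) = g i := by rw [← hp]; simp
    by_cases h0 : y p = 0
    · exact mem_union_left _ (mem_filter.2 ⟨hiP, p, h0, hp'⟩)
    · exact mem_union_right _ (mem_inter.2 ⟨(hmemL i).2 ⟨p, h0, hp'⟩, hiP⟩)
  have h2 : μ.rowLen 0 + μ.colLen 0 ≤ (P.filter fun i => (e.symm i).isLeft).card + 1 := by
    rw [← hμ.wt_rowf 0, ← hμ.wt_colf 0, wt, wt, ← card_union_add_card_inter]
    refine Nat.add_le_add (card_le_card ?_) ?_
    · intro i hi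
      have hi' : i ∈ P ∧ ((T i).1 = 0 ∨ (T i).2 = 0) := by
        rcases mem_union.1 hi with hi | hi
        · exact ⟨(mem_filter.1 hi).1, Or.inl (mem_filter.1 hi).2⟩
        · exact ⟨(mem_filter.1 hi).1, Or.inr (mem_filter.1 hi).2⟩
      refine mem_filter.2 ⟨hi'.1, ?_⟩
      obtain ⟨s, rfl⟩ := e.surjective i
      cases s with
      | inl p => simp
      | inr q =>
        have := hi'.2
        rw [hZ q] at this
        simp at this
    · refine card_le_one.2 fun i hi j hj => ?_
      obtain ⟨hi1, hi2⟩ := mem_inter.1 hi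
      obtain ⟨hj1, hj2⟩ := mem_inter.1 hj
      refine hμ.inj (mem_filter.1 hi1).1 (mem_filter.1 hj1).1 (Prod.ext ?_ ?_)
      · exact ((mem_filter.1 hi1).2).trans ((mem_filter.1 hj1).2).symm
      · exact ((mem_filter.1 hi2).2).trans ((mem_filter.1 hj2).2).symm
  omega

end Crest.Agent.R195
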