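/- Row 195, task ExtHookN: the hook extraction functional does not kill the GT vector. -/
import Crest.Agent.R195.ExtHook0

set_option autoImplicit false

namespace Crest.Agent.R195

open Equiv Finset

variable {ι : Type} [Fintype ι] [DecidableEq ι]

variable {Y Z : Type} [Fintype Y] [DecidableEq Y] [Fintype Z] [DecidableEq Z]

variable (e : Y ⊕ Z ≃ ι) {τ : ι → ℤ} {T : ι → ℕ × ℕ} {TZ : Z → ℕ × ℕ} {κ κY κZ : YoungDiagram}

omit [Fintype ι] [DecidableEq ι] [DecidableEq Y] [Fintype Z] [DecidableEq Z] in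
theorem extHookN_wt (s : Finset Y) (t : Finset ℕ) (f : Y → ℕ) (hf : Set.BijOn f s t)
    (hf0 : ∀ p, f p = 0 ↔ p ∉ s) {r : ℕ} (hr : r ≠ 0) :
    wt univ f r = if r ∈ t then 1 else 0 := by
  unfold wt
  split_ifs with h
  · obtain ⟨p, hp, rfl⟩ := hf.surjOn (Finset.mem_coe.2 h)
    rw [Finset.card_eq_one]
    refine ⟨p, ?_⟩
    ext q
    simp only [mem_filter, mem_univ, true_and, mem_singleton]
    refine ⟨fun hq => hf.injOn ?_ hp hq, fun hq => by rw [hq]⟩
    by_contra hq'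
    exact hr (hq ▸ (hf0 q).2 hq')
  · rw [Finset.card_eq_zero, Finset.filter_eq_empty_iff]
    intro q _ hq
    by_cases hq' : q ∈ s
    · exact h (hq ▸ hf.mapsTo hq')
    · exact hr (hq ▸ (hf0 q).2 hq')

omit [Fintype ι] [DecidableEq ι] [DecidableEq Y] [Fintype Z] [DecidableEq Z] in
theorem extHookN_wt_eq (s : Finset Y) (t : Finset ℕ) (f g : Y → ℕ) (hf : Set.BijOn f s t)
    (hg : Set.BijOn g s t) (hf0 : ∀ p, f p = 0 ↔ p ∉ s) (hg0 : ∀ p, g p = 0 ↔ p ∉ s) (r : ℕ) :
    wt univ f r = wt univ g r := by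
  by_cases hr : r = 0
  · subst hr
    unfold wt
    congr 1
    ext p
    simp only [mem_filter, mem_univ, true_and, hf0, hg0]
  · rw [extHookN_wt s t f hf hf0 hr, extHookN_wt s t g hg hg0 hr]

/-- first row of a diagram -/
def extHookN_top (κ : YoungDiagram) : YoungDiagram where
  cells := κ.cells.filter fun c => c.1 = 0
  isLowerSet := by
    rintro ⟨a, b⟩ ⟨c, d⟩ ⟨h1, h2⟩ h
    simp only [coe_filter, YoungDiagram.mem_cells, Set.mem_ofPred_eq] at *
    exact ⟨κ.up_left_mem h1 h2 h.1, by omega⟩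

/-- a diagram without its first row -/
def extHookN_rest (κ : YoungDiagram) : YoungDiagram where
  cells := κ.cells.filter fun c => (c.1 + 1, c.2) ∈ κ
  isLowerSet := by
    rintro ⟨a, b⟩ ⟨c, d⟩ ⟨h1, h2⟩ h
    simp only [coe_filter, YoungDiagram.mem_cells, Set.mem_ofPred_eq] at *
    exact ⟨κ.up_left_mem h1 h2 h.1, κ.up_left_mem (by omega) h2 h.2⟩

theorem extHookN_mem_top (κ : YoungDiagram) (c : ℕ × ℕ) :
    c ∈ extHookN_top κ ↔ c ∈ κ ∧ c.1 = 0 := by
  rw [← YoungDiagram.mem_cells, extHookN_top, mem_filter, YoungDiagram.mem_cells]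

theorem extHookN_mem_rest (κ : YoungDiagram) (c : ℕ × ℕ) :
    c ∈ extHookN_rest κ ↔ (c.1 + 1, c.2) ∈ κ := by
  rw [← YoungDiagram.mem_cells, extHookN_rest, mem_filter, YoungDiagram.mem_cells]
  exact ⟨fun h => h.2, fun h => ⟨κ.up_left_mem (Nat.le_succ _) le_rfl h, h⟩⟩

/-- a word with letters `0` exactly on the first row on which the antisymmetrised vector does not
vanish -/
theorem extHookN_word (hT : Std τ T κ) {w : WM ι} (hw : IsGT τ T κ w) (h0 : w ≠ 0) :
    ∃ X : ι → ℕ, (∀ i, X i = 0 ↔ (T i).1 = 0) ∧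
      act (alt (univ.filter fun i => (T i).1 ≠ 0 ∧ (T i).2 = 0)) w X ≠ 0 := by
  classical
  let e' : {i // (T i).1 = 0} ⊕ {i // ¬ (T i).1 = 0} ≃ ι := Equiv.sumCompl fun i => (T i).1 = 0
  have hl : ∀ q, e' (Sum.inl q) = q.1 := fun q => rfl
  have hr : ∀ q, e' (Sum.inr q) = q.1 := fun q => rfl
  let TR : {i // ¬ (T i).1 = 0} → ℕ × ℕ := fun r => ((T r.1).1 - 1, (T r.1).2)
  have hR : ∀ z, T (e' (Sum.inr z)) = ((TR z).1 + 1, (TR z).2) := by
    intro z
    rw [hr]
    have := z.2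
    refine Prod.ext ?_ rfl
    simp only [TR]
    omega
  have hQ : ∀ y, (T (e' (Sum.inl y))).1 < 1 := by
    intro y
    rw [hl, y.2]
    exact Nat.one_pos
  have hκQ : IsTab univ (fun y => T (e' (Sum.inl y))) (extHookN_top κ) := by
    refine isTab_of (fun i _ => ?_) (fun i _ j _ hij => ?_) fun c hc => ?_
    · rw [extHookN_mem_top]
      exact ⟨hT.2.1.mem (mem_univ _), i.2⟩
    · exact Subtype.ext (hT.2.1.inj (mem_univ _) (mem_univ _) hij)
    · rw [extHookN_mem_top] at hc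
      obtain ⟨i, -, hi⟩ := hT.2.1.surj hc.1
      exact ⟨⟨i, by rw [hi]; exact hc.2⟩, mem_univ _, hi⟩
  have hκR : IsTab univ TR (extHookN_rest κ) := by
    refine isTab_of (fun i _ => ?_) (fun i _ j _ hij => ?_) fun c hc => ?_
    · rw [extHookN_mem_rest, ← hR]
      exact hT.2.1.mem (mem_univ _)
    · refine Subtype.ext (hT.2.1.inj (mem_univ _) (mem_univ _) ?_)
      rw [← hr, ← hr, hR, hR, hij]
    · rw [extHookN_mem_rest] at hc
      obtain ⟨i, -, hi⟩ := hT.2.1.surj hc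
      refine ⟨⟨i, by rw [hi]; exact Nat.succ_ne_zero _⟩, mem_univ _, ?_⟩
      simp only [TR, hi, Nat.add_sub_cancel]
  have hstd : Std (fun z => τ (e' (Sum.inr z))) TR (extHookN_rest κ) := by
    refine ⟨fun i j hij => Sum.inr_injective (e'.injective (hT.1 hij)), hκR, fun i j hij => ?_⟩
    refine hT.2.2 _ _ ?_
    rw [hR, hR]
    exact ⟨Nat.succ_le_succ hij.1, hij.2⟩
  have hgt := isGT_slZ e' hT hQ hR hκQ hκR hw (fun _ => 0)
  have hne : slZ e' 1 (fun _ => 0) w ≠ 0 := by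
    intro h
    have h1 : slZ e' 1 (fun _ => 0) w (rowf TR) = 0 := by rw [h]; rfl
    rw [slZ_apply] at h1
    have h2 : mrg e' 1 (fun _ => 0) (rowf TR) = rowf T := by
      funext i
      obtain ⟨x, rfl⟩ := e'.surjective i
      cases x with
      | inl q => rw [mrg_inl]; exact q.2.symm
      | inr q => rw [mrg_inr, rowf, rowf, hR]
    rw [h2] at h1
    exact h0 (GT_unique hT hw h1)
  have hp := GT_palt_ne_zero hstd hgt hne
  let L' : Finset {i // ¬ (T i).1 = 0} := univ.filter fun r => (T r.1).2 = 0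
  have hsub : stab L' (fun _ => 0) ⊆ stab univ (colf TR) := by
    intro σ hσ
    have hσ' := mem_stab_zero.1 hσ
    refine mem_stab.2 ⟨fun i hi => absurd (mem_univ i) hi, fun i => ?_⟩
    by_cases hi : i ∈ L'
    · have h1 := (SP_apply_mem_iff hσ' i).2 hi
      simp only [L', mem_filter, mem_univ, true_and] at hi h1
      simp only [colf, TR, hi, h1]
    · rw [mem_SP.1 hσ' i hi]
  have ha : act (alt L') (slZ e' 1 (fun _ => 0) w) ≠ 0 := by
    intro h
    have h1 := act_mul_apply (palt univ (colf TR)) (alt L') (slZ e' 1 (fun _ => 0) w)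
    rw [h, map_zero, alt, palt_mul_palt hsub, map_smul, LinearMap.smul_apply] at h1
    exact hp ((smul_eq_zero.1 h1).resolve_left (card_stab_ne_zero _ _))
  rw [← slZ_act] at ha
  have hm : mapR e' (alt L') = alt (univ.filter fun i => (T i).1 ≠ 0 ∧ (T i).2 = 0) := by
    have h1 := mapR_palt e' L' (fun _ => 0)
    rw [alt, h1, alt]
    congr 1
    ext i
    simp only [L', mem_map, mem_filter, mem_univ, true_and]
    constructor
    · rintro ⟨a, ha, rfl⟩
      exact ⟨a.2, ha⟩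
    · rintro ⟨h2, h3⟩
      exact ⟨⟨i, h2⟩, h3, rfl⟩
  rw [hm] at ha
  obtain ⟨x, hx⟩ := Finsupp.ne_iff.1 ha
  refine ⟨mrg e' 1 (fun _ => 0) x, fun i => ?_, hx⟩
  obtain ⟨j, rfl⟩ := e'.surjective i
  cases j with
  | inl q => rw [mrg_inl]; exact ⟨fun _ => q.2, fun _ => rfl⟩
  | inr q => rw [mrg_inr]; exact ⟨fun h => absurd h (Nat.succ_ne_zero _), fun h => absurd h q.2⟩

/-- Nonvanishing.  Split `ι` into `Q` = first row of `T` and its complement (subtypes,
`Equiv.sumCompl`); `w⁻ = slZ _ 1 0 w` is a GT vector (`isGT_slZ`, `a = 1`) with coefficient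
`w (rowf T) ≠ 0`, so `GT_palt_ne_zero` and `palt_mul_palt` give `act (alt L) w⁻ ≠ 0` for the first
column `L` below the corner; a word in its support has distinct letters on `L`, which are exactly
`1, …, |L|`, so it is `mrg e 1 y z` with `y` of weight `κY`. -/
theorem hkFun_ne_zero (hT : Std τ T κ)
    (hY : ∀ y, (T (e (Sum.inl y))).1 = 0 ∨ (T (e (Sum.inl y))).2 = 0)
    (hZ : ∀ z, T (e (Sum.inr z)) = ((TZ z).1 + 1, (TZ z).2 + 1))
    (hκY : IsTab univ (fun y => T (e (Sum.inl y))) κY) (hκZ : IsTab univ TZ κZ)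
    {w : WM ι} (hw : IsGT τ T κ w) (h0 : w ≠ 0) : ∃ y z, hkFun e κY y z w ≠ 0 := by
  classical
  have _ := hκZ
  obtain ⟨X, hX0, hX⟩ := extHookN_word hT hw h0
  set L : Finset ι := univ.filter fun i => (T i).1 ≠ 0 ∧ (T i).2 = 0 with hL
  have hXinj : ∀ i ∈ L, ∀ j ∈ L, X i = X j → i = j := by
    intro i hi j hj hij
    by_contra hne
    exact hX (act_palt_apply_eq_zero (f := fun _ => 0) hne hi hj rfl hij w)
  have hXwt : ∀ r, wt univ X r = κ.rowLen r :=
    (Spec_le_HW _ _ (Spec_act (Or.inl (subset_univ L)) (palt_mem_GP L _) hw.1)).1 X hX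
  have hXlt : ∀ i, X i < κ.colLen 0 := by
    intro i
    rw [← YoungDiagram.mem_iff_lt_colLen, YoungDiagram.mem_iff_lt_rowLen, ← hXwt]
    exact Finset.card_pos.2 ⟨i, by simp⟩
  let y : Y → ℕ := fun p => X (e (Sum.inl p))
  let z : Z → ℕ := fun q => X (e (Sum.inr q)) - 1
  have hmrg : mrg e 1 y z = X := by
    funext i
    obtain ⟨j, rfl⟩ := e.surjective i
    cases j with
    | inl p => rw [mrg_inl]
    | inr q =>
      rw [mrg_inr]
      have h1 : X (e (Sum.inr q)) ≠ 0 := by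
        rw [Ne, hX0, hZ]
        exact Nat.succ_ne_zero _
      simp only [z]
      omega
  have hmemL : ∀ p, e (Sum.inl p) ∈ L ↔ (T (e (Sum.inl p))).1 ≠ 0 := by
    intro p
    simp only [hL, mem_filter, mem_univ, true_and]
    exact ⟨fun h => h.1, fun h => ⟨h, (hY p).resolve_left h⟩⟩
  have hLinl : ∀ i ∈ L, ∃ p, e (Sum.inl p) = i := by
    intro i hi
    obtain ⟨j, rfl⟩ := e.surjective i
    cases j with
    | inl p => exact ⟨p, rfl⟩
    | inr q =>
      simp only [hL, mem_filter, mem_univ, true_and, hZ] at hi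
      exact absurd hi.2 (Nat.succ_ne_zero _)
  have hset : (univ.filter fun p => y p ≠ 0).map (inlE e) = L := by
    ext i
    simp only [mem_map, mem_filter, mem_univ, true_and]
    constructor
    · rintro ⟨p, hp, rfl⟩
      exact (hmemL p).2 fun h => hp ((hX0 _).2 h)
    · intro hi
      obtain ⟨p, rfl⟩ := hLinl i hi
      exact ⟨p, fun h => (hmemL p).1 hi ((hX0 _).1 h), rfl⟩
  let s : Finset Y := univ.filter fun p => (T (e (Sum.inl p))).1 ≠ 0
  have hs : ∀ p, p ∈ s ↔ (T (e (Sum.inl p))).1 ≠ 0 := fun p => by simp [s]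
  have hrow : Set.BijOn (rowf fun p => T (e (Sum.inl p))) s (Finset.Ico 1 (κ.colLen 0)) := by
    refine ⟨fun p hp => ?_, fun p hp q hq hpq => ?_, fun r hr => ?_⟩
    · have h1 := (hs p).1 hp
      have h2 : T (e (Sum.inl p)) ∈ κ := hT.2.1.mem (mem_univ _)
      have h3 : ((T (e (Sum.inl p))).1, 0) ∈ κ := κ.up_left_mem le_rfl (Nat.zero_le _) h2
      rw [YoungDiagram.mem_iff_lt_colLen] at h3
      simp only [coe_Ico, Set.mem_Ico, rowf]
      omega
    · refine hκY.inj (mem_univ _) (mem_univ _) (Prod.ext hpq ?_)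
      rw [(hY p).resolve_left ((hs p).1 hp), (hY q).resolve_left ((hs q).1 hq)]
    · simp only [coe_Ico, Set.mem_Ico] at hr
      obtain ⟨i, -, hi⟩ := hT.2.1.surj (YoungDiagram.mem_iff_lt_colLen.2 hr.2)
      have h1 : i ∈ L := by
        simp only [hL, mem_filter, mem_univ, true_and, hi]
        exact ⟨by omega, trivial⟩
      obtain ⟨p, rfl⟩ := hLinl i h1
      exact ⟨p, (hs p).2 ((hmemL p).1 h1), by simp only [rowf, hi]⟩
  have hcard : (Finset.Ico 1 (κ.colLen 0)).card ≤ s.card :=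
    (Finset.card_nbij _ hrow.mapsTo hrow.injOn hrow.surjOn).ge
  have hymaps : Set.MapsTo y s (Finset.Ico 1 (κ.colLen 0)) := by
    intro p hp
    have h1 : X (e (Sum.inl p)) ≠ 0 := fun h => (hs p).1 hp ((hX0 _).1 h)
    have h2 := hXlt (e (Sum.inl p))
    simp only [coe_Ico, Set.mem_Ico, y]
    omega
  have hyinj : Set.InjOn y s := fun p hp q hq hpq =>
    Sum.inl_injective (e.injective
      (hXinj _ ((hmemL p).2 ((hs p).1 hp)) _ ((hmemL q).2 ((hs q).1 hq)) hpq))
  have hybij : Set.BijOn y s (Finset.Ico 1 (κ.colLen 0)) :=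
    ⟨hymaps, hyinj, Finset.surjOn_of_injOn_of_card_le y hymaps hyinj hcard⟩
  have hywt : ∀ r, wt univ y r = κY.rowLen r := by
    intro r
    rw [← hκY.wt_rowf]
    refine extHookN_wt_eq s _ _ _ hybij hrow (fun p => ?_) (fun p => ?_) r
    · rw [hs, not_not]
      exact hX0 _
    · rw [hs, not_not]
      rfl
  refine ⟨y, z, ?_⟩
  rw [hkFun, if_pos hywt, hset, hmrg]
  exact hX

end Crest.Agent.R195
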