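/- Row 195, task ExtHookY: `Y`-slices of the hook extraction functional. -/
import Crest.Agent.R195.ExtHook0

set_option autoImplicit false

namespace Crest.Agent.R195

open Equiv Finset

variable {ι : Type} [Fintype ι] [DecidableEq ι]

variable {Y Z : Type} [Fintype Y] [DecidableEq Y] [Fintype Z] [DecidableEq Z]

variable (e : Y ⊕ Z ≃ ι) {τ : ι → ℤ} {T : ι → ℕ × ℕ} {TZ : Z → ℕ × ℕ} {κ κY κZ : YoungDiagram}

/-- raising operators `E_{ij}`, `1 ≤ i < j`, kill the antisymmetrised slice -/
theorem ExtHookY_pos (u : WM Y) (κY : YoungDiagram) (s : WM Y)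
    (hs : ∀ y, (∀ r, wt univ y r = κY.rowLen r) →
      s y = act (alt (univ.filter fun p => y p ≠ 0)) u y)
    (hs0 : ∀ y, ¬ (∀ r, wt univ y r = κY.rowLen r) → s y = 0)
    {i j : ℕ} (hi : i ≠ 0) (hij : i < j) : Eop univ i j s = 0 := by
  ext x
  rw [Eop_apply, Finsupp.zero_apply]
  by_cases hc : ∃ p, x p = i ∧ ∀ r, wt univ (Function.update x p j) r = κY.rowLen r
  · obtain ⟨p, hp, hw⟩ := hc
    have hall : ∀ q, x q = i → ∀ r, wt univ (Function.update x q j) r = κY.rowLen r := by
      intro q hq r
      have : Function.update x q j = Function.update x p j ∘ swap p q := by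
        funext k
        simp only [Function.comp_apply, Function.update_apply, swap_apply_def]
        split_ifs <;> simp_all
      rw [this, wt_comp (fun _ => by simp), hw]
    have hL : ∀ q, x q = i → (univ.filter fun k => Function.update x q j k ≠ 0) =
        univ.filter fun k => x k ≠ 0 := by
      intro q hq
      refine Finset.filter_congr fun k _ => ?_
      rw [Function.update_apply]
      split_ifs with h
      · subst h; omega
      · rfl
    obtain ⟨q, hqp, hq⟩ : ∃ q, q ≠ p ∧ x q = i := by
      have h1 : 0 < wt univ (Function.update x p j) j :=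
        Finset.card_pos.2 ⟨p, by simp⟩
      have h2 : 0 < wt univ (Function.update x p j) i := by
        rw [hw] at h1 ⊢
        exact h1.trans_le (κY.rowLen_anti _ _ hij.le)
      obtain ⟨q, hq⟩ := Finset.card_pos.1 h2
      have hq' := (Finset.mem_filter.1 hq).2
      by_cases hqp : q = p
      · subst hqp
        rw [Function.update_self] at hq'
        omega
      · rw [Function.update_of_ne hqp] at hq'
        exact ⟨q, hqp, hq'⟩
    set L : Finset Y := univ.filter fun k => x k ≠ 0 with hLdef
    have h1 : ∑ q ∈ univ.filter (fun q => x q = i), s (Function.update x q j) =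
        Eop L i j (act (alt L) u) x := by
      rw [Eop_apply]
      refine Finset.sum_congr ?_ fun q hq => ?_
      · ext k
        simp only [hLdef, mem_filter, mem_univ, true_and]
        constructor
        · intro h; exact ⟨by omega, h⟩
        · exact fun h => h.2
      · have hq' := (Finset.mem_filter.1 hq).2
        rw [hs _ (hall q hq'), hL q hq']
    rw [h1, alt, Eop_act (Or.inl subset_rfl) (palt_mem_GP _ _)]
    exact act_palt_apply_eq_zero hqp (by simp [hLdef]; omega) (by simp [hLdef]; omega) rfl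
      (hq.trans hp.symm) _
  · refine Finset.sum_eq_zero fun p hp => hs0 _ fun h => hc ⟨p, (Finset.mem_filter.1 hp).2, h⟩

/-- raising operators `E_{0j}` kill the antisymmetrised slice -/
theorem ExtHookY_zero (u : WM Y) (hu : ∀ b, b ≠ 0 → Eop univ 0 b u = 0) (κY : YoungDiagram)
    (s : WM Y)
    (hs : ∀ y, (∀ r, wt univ y r = κY.rowLen r) →
      s y = act (alt (univ.filter fun p => y p ≠ 0)) u y)
    (hs0 : ∀ y, ¬ (∀ r, wt univ y r = κY.rowLen r) → s y = 0)
    {j : ℕ} (hj : j ≠ 0) : Eop univ 0 j s = 0 := by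
  ext x
  rw [Eop_apply, Finsupp.zero_apply]
  by_cases hc : ∃ p, x p = 0 ∧ ∀ r, wt univ (Function.update x p j) r = κY.rowLen r
  · obtain ⟨p, hp, hw⟩ := hc
    have hsw : ∀ q, x q = 0 → Function.update x q j ∘ swap p q = Function.update x p j := by
      intro q hq
      funext k
      simp only [Function.comp_apply, Function.update_apply, swap_apply_def]
      split_ifs <;> simp_all
    have hall : ∀ q, x q = 0 → ∀ r, wt univ (Function.update x q j) r = κY.rowLen r := by
      intro q hq r
      rw [← hw, ← hsw q hq, wt_comp (fun _ => by simp)]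
    set M : Finset Y := univ.filter fun k => Function.update x p j k ≠ 0 with hM
    have hMmem : ∀ k, k ∈ M ↔ k = p ∨ x k ≠ 0 := by
      intro k
      simp only [hM, mem_filter, mem_univ, true_and, Function.update_apply]
      split_ifs with h <;> simp [h, hj]
    have hmap : ∀ q, x q = 0 → M.map (swap p q).toEmbedding =
        univ.filter fun k => Function.update x q j k ≠ 0 := by
      intro q hq
      ext k
      rw [Finset.mem_map_equiv, symm_swap, hM, ← hsw q hq]
      simp
    have h1 : ∀ q ∈ univ.filter (fun q => x q = 0), s (Function.update x q j) =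
        ∑ σ ∈ stab M (fun _ => 0), sg σ * u ((Function.update x p j ∘ σ) ∘ swap p q) := by
      intro q hq
      have hq' := (Finset.mem_filter.1 hq).2
      have h2 := el_mul_palt_conj (swap p q) M (fun _ => 0)
      rw [hmap q hq'] at h2
      have h3 : alt (univ.filter fun k => Function.update x q j k ≠ 0) =
          el (swap p q) * palt M (fun _ => 0) * el (swap p q) := by
        rw [h2, mul_assoc, ← el_mul, swap_mul_self, el_one, mul_one]
        rfl
      rw [hs _ (hall q hq'), h3, act_mul_apply, act_mul_apply, act_el, act_el, wrep_apply, hsw q hq',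
        act_palt_apply]
      simp only [wrep_apply]
    rw [Finset.sum_congr rfl h1, Finset.sum_comm]
    refine Finset.sum_eq_zero fun σ hσ => ?_
    rw [← Finset.mul_sum]
    have hσ' := mem_SP_of_mem_stab hσ
    set W : Y → ℕ := Function.update x p j ∘ σ with hW
    have hW1 : ∀ k, k ∈ M → W k ≠ 0 := by
      intro k hk
      have := (SP_apply_mem_iff hσ' k).2 hk
      exact (Finset.mem_filter.1 this).2
    have hW2 : ∀ k, k ∉ M → W k = 0 := by
      intro k hk
      have h4 := mem_SP.1 hσ' k hk
      rw [hW, Function.comp_apply, h4]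
      simpa [hM] using hk
    have hb : W p ≠ 0 := hW1 p ((hMmem p).2 (Or.inl rfl))
    have h5 := congrArg (fun v : WM Y => v (Function.update W p 0)) (hu _ hb)
    simp only [Eop_apply, Finsupp.zero_apply] at h5
    have h6 : ∑ q ∈ univ.filter (fun q => x q = 0), u (W ∘ swap p q) = 0 := by
      rw [← h5]
      refine Finset.sum_congr ?_ fun q hq => ?_
      · ext k
        simp only [mem_filter, mem_univ, true_and, Function.update_apply]
        split_ifs with h
        · simp [h, hp]
        · constructor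
          · intro hk
            exact hW2 k fun hm => ((hMmem k).1 hm).elim h fun h' => h' hk
          · intro hk
            by_contra hx
            exact hW1 k ((hMmem k).2 (Or.inr hx)) hk
      · have hq' := (Finset.mem_filter.1 hq).2
        congr 1
        funext k
        simp only [Function.comp_apply, Function.update_apply, swap_apply_def] at hq' ⊢
        split_ifs at hq' ⊢ <;> simp_all
    rw [h6, mul_zero]
  · refine Finset.sum_eq_zero fun p hp => hs0 _ fun h => hc ⟨p, (Finset.mem_filter.1 hp).2, h⟩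

theorem ExtHookY_act (κY : YoungDiagram) (z : Z → ℕ) (w : WM ι) (s : WM Y)
    (hs : ∀ y, s y = hkFun e κY y z w) (a : GA Y) (y : Y → ℕ) :
    act a s y = hkFun e κY y z (act (mapL e a) w) := by
  rw [act_apply]
  conv_rhs => rw [eq_sum_el a]
  simp only [map_sum, map_smul, mapL_el, LinearMap.sum_apply, LinearMap.smul_apply, act_el,
    hkFun_equiv, smul_eq_mul, hs]
  rfl

omit [Fintype Z] [DecidableEq Z] in
theorem ExtHookY_val (κY : YoungDiagram) (z : Z → ℕ) (w : WM ι) (y : Y → ℕ)
    (hy : ∀ r, wt univ y r = κY.rowLen r) :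
    hkFun e κY y z w = act (alt (univ.filter fun p => y p ≠ 0)) (slY e 1 z w) y := by
  rw [hkFun, if_pos hy, ← slY_act, slY_apply]
  have := mapL_palt e (univ.filter fun p => y p ≠ 0) (fun _ => 0)
  rw [alt, alt, ← this]
  rfl

omit [Fintype Z] [DecidableEq Z] in
theorem ExtHookY_exists (κY : YoungDiagram) (z : Z → ℕ) (w : WM ι) :
    ∃ s : WM Y, ∀ y, s y = hkFun e κY y z w := by
  classical
  refine ⟨∑ L : Finset Y, flt (fun y => (∀ r, wt univ y r = κY.rowLen r) ∧
    (univ.filter fun p => y p ≠ 0) = L) (act (alt L) (slY e 1 z w)), fun y => ?_⟩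
  rw [Finsupp.finsetSum_apply]
  simp only [flt_apply]
  by_cases hy : ∀ r, wt univ y r = κY.rowLen r
  · rw [ExtHookY_val e κY z w y hy, Finset.sum_eq_single (univ.filter fun p => y p ≠ 0)]
    · rw [if_pos ⟨hy, rfl⟩]
    · intro L _ hL
      rw [if_neg fun h => hL h.2.symm]
    · intro h; exact absurd (mem_univ _) h
  · rw [hkFun, if_neg hy, LinearMap.zero_apply]
    exact Finset.sum_eq_zero fun L _ => if_neg fun h => hy h.1

omit [Fintype Z] [DecidableEq Z] in
theorem ExtHookY_slE (z : Z → ℕ) {w : WM ι} {b : ℕ} (hw : Eop univ 0 b w = 0) :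
    Eop univ 0 b (slY e 1 z w) = 0 := by
  ext y
  have h := congrArg (fun v : WM ι => v (mrg e 1 y z)) hw
  simp only [Eop_apply, Finsupp.zero_apply] at h ⊢
  rw [← h]
  refine Finset.sum_bij (fun p _ => e (Sum.inl p)) (fun p hp => ?_) (fun p _ q _ hpq => ?_)
    (fun i hi => ?_) (fun p _ => ?_)
  · simpa using hp
  · exact Sum.inl_injective (e.injective hpq)
  · obtain ⟨t, rfl⟩ := e.surjective i
    rcases t with p | q
    · exact ⟨p, by simpa using hi, rfl⟩
    · simp at hi
  · rw [slY_apply]
    congr 1
    funext i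
    obtain ⟨t, rfl⟩ := e.surjective i
    rcases t with q | q
    · simp [Function.update_apply]
    · simp

/-- The `Y`-slices.  HW: `E_{ij}` with `1 ≤ i < j` by anti-invariance; `E_{0j}` by conjugating all
antisymmetrisers to a fixed one with `swap p₀ p` and `Eop univ 0 b w = 0`.  GT: `isGT_of_le`,
`yc_kill_of_sym`, `yc_kill_of_alt`, `sym_kill`, `alt_kill` (a sub-hook of the same size as the hook
of `μ` that fits in the bounding box of `μ` is that hook). -/
theorem hkFun_sliceY (hT : Std τ T κ)
    (hY : ∀ y, (T (e (Sum.inl y))).1 = 0 ∨ (T (e (Sum.inl y))).2 = 0)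
    (hZ : ∀ z, T (e (Sum.inr z)) = ((TZ z).1 + 1, (TZ z).2 + 1))
    (hκY : IsTab univ (fun y => T (e (Sum.inl y))) κY) (hκZ : IsTab univ TZ κZ)
    {w : WM ι} (hw : IsGT τ T κ w) (z : Z → ℕ) :
    ∃ s : WM Y, (∀ y, s y = hkFun e κY y z w) ∧
      IsGT (fun y => τ (e (Sum.inl y))) (fun y => T (e (Sum.inl y))) κY s := by
  have _ := hκZ
  obtain ⟨s, hs⟩ := ExtHookY_exists e κY z w
  have hs1 : ∀ y, (∀ r, wt univ y r = κY.rowLen r) →
      s y = act (alt (univ.filter fun p => y p ≠ 0)) (slY e 1 z w) y := fun y hy => by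
    rw [hs, ExtHookY_val e κY z w y hy]
  have hs0 : ∀ y, ¬ (∀ r, wt univ y r = κY.rowLen r) → s y = 0 := fun y hy => by
    rw [hs, hkFun, if_neg hy, LinearMap.zero_apply]
  have hHW := Spec_le_HW _ _ hw.1
  refine ⟨s, hs, isGT_of_le (HW_le_Spec _ _ ⟨fun y hy => ?_, fun i j hij => ?_⟩) ?_⟩
  · by_contra h
    exact hy (hs0 y h)
  · by_cases hi : i = 0
    · subst hi
      exact ExtHookY_zero _ (fun b hb => ExtHookY_slE e z (hHW.2 0 b (Nat.pos_of_ne_zero hb))) κY s
        hs1 hs0 hij.ne'
    · exact ExtHookY_pos _ κY s hs1 hs0 hi hij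
  · intro PY μY ρ T' hPY hμY hT' hρ hne
    obtain ⟨P, hP, hPP⟩ := exists_pre_inl e hPY
    obtain ⟨μ, hμ, -⟩ := hT.exists_tab hP
    have hiso := hw.2 P μ hP hμ
    have hsub : ∀ S ⊆ PY, S.map (inlE e) ⊆ P := by
      intro S hS i hi
      obtain ⟨y, hy, rfl⟩ := Finset.mem_map.1 hi
      exact (hPP y).2 (hS hy)
    have hcell : ∀ c ∈ μ, c.1 = 0 ∨ c.2 = 0 → c ∈ μY := by
      intro c hc h0
      obtain ⟨i, hi, rfl⟩ := hμ.surj hc
      obtain ⟨t, rfl⟩ := e.surjective i
      rcases t with y | q
      · exact hμY.mem ((hPP y).1 hi)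
      · rw [hZ] at h0
        simp at h0
    by_cases h1 : μY.rowLen 0 < ρ.rowLen 0
    · refine yc_kill_of_sym (fun S hS hcard => ?_) hT' h1
      have hle : μ.rowLen 0 ≤ μY.rowLen 0 := by
        by_contra hlt
        have := hcell (0, μY.rowLen 0) (YoungDiagram.mem_iff_lt_rowLen.2 (by omega)) (Or.inl rfl)
        exact lt_irrefl _ (YoungDiagram.mem_iff_lt_rowLen.1 this)
      ext y
      have h2 := mapL_psym e S (fun _ => 0)
      rw [ExtHookY_act e κY z w s hs, sym, h2, ← sym,
        sym_kill (hsub S hS) (by rw [Finset.card_map]; omega) hiso, map_zero, Finsupp.zero_apply]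
    by_cases h2 : μY.colLen 0 < ρ.colLen 0
    · refine yc_kill_of_alt (fun S hS hcard => ?_) hT' h2
      have hle : μ.colLen 0 ≤ μY.colLen 0 := by
        by_contra hlt
        have := hcell (μY.colLen 0, 0) (YoungDiagram.mem_iff_lt_colLen.2 (by omega)) (Or.inr rfl)
        exact lt_irrefl _ (YoungDiagram.mem_iff_lt_colLen.1 this)
      ext y
      have h2 := mapL_palt e S (fun _ => 0)
      rw [ExtHookY_act e κY z w s hs, alt, h2, ← alt,
        alt_kill (hsub S hS) (by rw [Finset.card_map]; omega) hiso, map_zero, Finsupp.zero_apply]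
    exfalso
    refine hne (YoungDiagram.ext (Finset.eq_of_subset_of_card_le (fun c hc => ?_) ?_))
    · obtain ⟨y, -, hy⟩ := hκY.surj (hρ hc)
      have h3 := hY y
      have hc' : c ∈ ρ := hc
      obtain ⟨a, b⟩ := c
      have hy' : T (e (Sum.inl y)) = (a, b) := hy
      rw [hy'] at h3
      rcases h3 with h3 | h3
      · obtain rfl : a = 0 := h3
        have := YoungDiagram.mem_iff_lt_rowLen.1 hc'
        exact YoungDiagram.mem_iff_lt_rowLen.2 (by omega)
      · obtain rfl : b = 0 := h3
        have := YoungDiagram.mem_iff_lt_colLen.1 hc'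
        exact YoungDiagram.mem_iff_lt_colLen.2 (by omega)
    · exact (hμY.card_eq.symm.trans hT'.card_eq).le

end Crest.Agent.R195
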