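/- Row 195, task ExtHookZ: `Z`-slices of the hook extraction functional, and `ext_hook` ingredients. -/
import Crest.Agent.R195.ExtHook0

set_option autoImplicit false

namespace Crest.Agent.R195

open Equiv Finset

variable {ι : Type} [Fintype ι] [DecidableEq ι]

variable {Y Z : Type} [Fintype Y] [DecidableEq Y] [Fintype Z] [DecidableEq Z]

variable (e : Y ⊕ Z ≃ ι) {τ : ι → ℤ} {T : ι → ℕ × ℕ} {TZ : Z → ℕ × ℕ} {κ κY κZ : YoungDiagram}

omit [Fintype ι] [DecidableEq ι] [Fintype Y] [DecidableEq Y] [Fintype Z] [DecidableEq Z] in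
theorem ExtHookZ_mem_inl (S : Finset Y) (y : Y) : e (Sum.inl y) ∈ S.map (inlE e) ↔ y ∈ S :=
  Finset.mem_map' (inlE e)

omit [Fintype ι] [DecidableEq ι] [Fintype Y] [DecidableEq Y] [Fintype Z] [DecidableEq Z] in
theorem ExtHookZ_mem_inr (S : Finset Z) (z : Z) : e (Sum.inr z) ∈ S.map (inrE e) ↔ z ∈ S :=
  Finset.mem_map' (inrE e)

omit [Fintype ι] [DecidableEq ι] [Fintype Y] [DecidableEq Y] [Fintype Z] [DecidableEq Z] in
theorem ExtHookZ_not_mem_inl (S : Finset Y) (z : Z) : e (Sum.inr z) ∉ S.map (inlE e) := by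
  intro h
  obtain ⟨y, -, hy⟩ := Finset.mem_map.1 h
  exact Sum.inl_ne_inr (e.injective hy)

omit [Fintype ι] [DecidableEq ι] [Fintype Y] [DecidableEq Y] [Fintype Z] [DecidableEq Z] in
theorem ExtHookZ_not_mem_inr (S : Finset Z) (y : Y) : e (Sum.inl y) ∉ S.map (inrE e) := by
  intro h
  obtain ⟨z, -, hz⟩ := Finset.mem_map.1 h
  exact Sum.inr_ne_inl (e.injective hz)

omit [Fintype ι] [DecidableEq ι] [Fintype Y] [DecidableEq Y] [Fintype Z] [DecidableEq Z] in
theorem ExtHookZ_cases {p : ι → Prop} (h1 : ∀ y, p (e (Sum.inl y))) (h2 : ∀ z, p (e (Sum.inr z)))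
    (i : ι) : p i := by
  obtain ⟨x, rfl⟩ := e.surjective i
  cases x with
  | inl y => exact h1 y
  | inr z => exact h2 z

omit [DecidableEq Y] [DecidableEq Z] in
theorem ExtHookZ_univ : (univ : Finset ι) = (univ : Finset Y).map (inlE e) ∪ univ.map (inrE e) := by
  ext i
  induction i using ExtHookZ_cases e with
  | h1 y => simp only [Finset.mem_union, ExtHookZ_mem_inl, mem_univ, true_or]
  | h2 z => simp only [Finset.mem_union, ExtHookZ_mem_inr, mem_univ, or_true]

omit [Fintype ι] [DecidableEq ι] [Fintype Y] [DecidableEq Y] [Fintype Z] [DecidableEq Z] in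
theorem ExtHookZ_disj (S : Finset Y) (S' : Finset Z) :
    Disjoint (S.map (inlE e)) (S'.map (inrE e)) := by
  rw [Finset.disjoint_left]
  intro i hi hi'
  obtain ⟨y, -, rfl⟩ := Finset.mem_map.1 hi
  exact ExtHookZ_not_mem_inr e S' y hi'

omit [DecidableEq Y] [DecidableEq Z] in
theorem ExtHookZ_wt (y : Y → ℕ) (z : Z → ℕ) (r : ℕ) :
    wt univ (mrg e 1 y z) (r + 1) = wt univ y (r + 1) + wt univ z r := by
  unfold wt
  rw [ExtHookZ_univ e, Finset.filter_union,
    Finset.card_union_of_disjoint (Finset.disjoint_filter_filter (ExtHookZ_disj e _ _)),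
    Finset.filter_map, Finset.filter_map, Finset.card_map, Finset.card_map]
  congr 2
  · ext p; simp [inlE]
  · ext p; simp [inrE]

omit [Fintype ι] [Fintype Y] [DecidableEq Y] [Fintype Z] in
theorem ExtHookZ_update (y : Y → ℕ) (z : Z → ℕ) (q : Z) (j : ℕ) :
    mrg e 1 y (Function.update z q j) = Function.update (mrg e 1 y z) (e (Sum.inr q)) (j + 1) := by
  funext i
  induction i using ExtHookZ_cases e with
  | h1 p =>
    rw [Function.update_of_ne (fun h => Sum.inl_ne_inr (e.injective h))]
    simp
  | h2 p =>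
    by_cases h : p = q
    · subst h; simp
    · rw [Function.update_of_ne (fun h' => h (Sum.inr_injective (e.injective h'))), mrg_inr, mrg_inr,
        Function.update_of_ne h]

/-- The `Z`-slices `slZ e 1 y (act (alt L) w)`.  HW: `E^Z w = -E^L w - E^Q w`, and the `L`-term has a
repeated letter on `L` or a letter that is not a row of `κ`.  Iso: `extremal_hook`. -/
theorem hkFun_sliceZ (hT : Std τ T κ)
    (hY : ∀ y, (T (e (Sum.inl y))).1 = 0 ∨ (T (e (Sum.inl y))).2 = 0)
    (hZ : ∀ z, T (e (Sum.inr z)) = ((TZ z).1 + 1, (TZ z).2 + 1))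
    (hκY : IsTab univ (fun y => T (e (Sum.inl y))) κY) (hκZ : IsTab univ TZ κZ)
    {w : WM ι} (hw : IsGT τ T κ w) (y : Y → ℕ) :
    ∃ s : WM Z, (∀ z, s z = hkFun e κY y z w) ∧ IsGT (fun z => τ (e (Sum.inr z))) TZ κZ s := by
  classical
  by_cases hy : ∀ r, wt univ y r = κY.rowLen r
  swap
  · refine ⟨0, fun z => ?_, IsGT.zero _ _ _⟩
    unfold hkFun
    rw [if_neg hy]
    rfl
  set L : Finset ι := (univ.filter fun p => y p ≠ 0).map (inlE e) with hL
  set u : WM ι := act (alt L) w with hu
  have haltL : alt L ∈ GP L := palt_mem_GP L _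
  have huHW : u ∈ HW univ κ := HW_act (Or.inl (subset_univ L)) haltL (Spec_le_HW _ _ hw.1)
  have hTt : IsTab univ T κ := hT.2.1
  have hrowT : rowf T = mrg e 1 (rowf fun y => T (e (Sum.inl y))) (rowf TZ) := by
    funext i
    induction i using ExtHookZ_cases e with
    | h1 p => simp [rowf]
    | h2 q => simp [rowf, hZ]
  have hrow : ∀ r, κ.rowLen (r + 1) = κY.rowLen (r + 1) + κZ.rowLen r := by
    intro r
    rw [← hTt.wt_rowf, hrowT, ExtHookZ_wt, hκY.wt_rowf, hκZ.wt_rowf]
  refine ⟨slZ e 1 y u, fun z => ?_, ?_, ?_⟩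
  · unfold hkFun
    rw [if_pos hy]
    rfl
  · -- highest weight part
    apply HW_le_Spec
    refine ⟨fun z hz r => ?_, fun i j hij => ?_⟩
    · rw [slZ_apply] at hz
      have h1 := huHW.1 _ hz (r + 1)
      rw [ExtHookZ_wt, hy, hrow] at h1
      omega
    · ext z
      rw [Eop_apply]
      have h0 : Eop univ (i + 1) (j + 1) u (mrg e 1 y z) = 0 := by
        rw [huHW.2 (i + 1) (j + 1) (by omega)]; rfl
      rw [ExtHookZ_univ e, Eop_union (ExtHookZ_disj e _ _), Finsupp.add_apply, Eop_apply,
        Eop_apply] at h0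
      have hY0 : ∑ p ∈ ((univ : Finset Y).map (inlE e)).filter (fun p => mrg e 1 y z p = i + 1),
          u (Function.update (mrg e 1 y z) p (j + 1)) = 0 := by
        refine Finset.sum_eq_zero fun p hp => ?_
        obtain ⟨hp1, hp2⟩ := Finset.mem_filter.1 hp
        obtain ⟨p, -, rfl⟩ := Finset.mem_map.1 hp1
        change mrg e 1 y z (e (Sum.inl p)) = i + 1 at hp2
        rw [mrg_inl] at hp2
        change u (Function.update (mrg e 1 y z) (e (Sum.inl p)) (j + 1)) = 0
        by_cases hex : ∃ p', y p' = j + 1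
        · obtain ⟨p', hp'⟩ := hex
          have hne : p ≠ p' := by
            rintro rfl
            omega
          have hne' : e (Sum.inl p) ≠ e (Sum.inl p') := fun h =>
            hne (Sum.inl_injective (e.injective h))
          refine act_palt_apply_eq_zero hne' ?_ ?_ rfl ?_ w
          · rw [hL, ExtHookZ_mem_inl]; simp; omega
          · rw [hL, ExtHookZ_mem_inl]; simp; omega
          · rw [Function.update_self, Function.update_of_ne hne'.symm, mrg_inl, hp']
        · by_contra hne
          have h1 := huHW.1 _ hne (j + 1)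
          have h2 : κY.rowLen (j + 1) = 0 := by
            rw [← hy]
            unfold wt
            rw [Finset.card_eq_zero, Finset.filter_eq_empty_iff]
            intro p' _ h
            exact hex ⟨p', h⟩
          have h3 : κ.rowLen (j + 1) = 0 := by
            by_contra h3
            have h4 : (j + 1, 0) ∈ κ := YoungDiagram.mem_iff_lt_rowLen.2 (by omega)
            obtain ⟨k, -, hk⟩ := hTt.surj h4
            induction k using ExtHookZ_cases e with
            | h1 p' =>
              have h5 := hκY.mem (mem_univ p')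
              rw [hk, YoungDiagram.mem_iff_lt_rowLen] at h5
              omega
            | h2 q =>
              rw [hZ] at hk
              simp at hk
          rw [h3] at h1
          unfold wt at h1
          rw [Finset.card_eq_zero, Finset.filter_eq_empty_iff] at h1
          exact h1 (mem_univ (e (Sum.inl p))) (by simp)
      rw [hY0, zero_add, Finset.filter_map, Finset.sum_map] at h0
      rw [Finsupp.zero_apply, ← h0]
      refine Finset.sum_congr ?_ fun q _ => ?_
      · ext q; simp [inrE]
      · rw [slZ_apply, ExtHookZ_update]; rfl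
  · -- isotypic part
    intro PZ μZ hPZ hμZ T' ν hT' hne
    rcases PZ.eq_empty_or_nonempty with rfl | hPZne
    · exfalso
      apply hne
      ext c
      constructor
      · intro hc
        obtain ⟨k, hk, -⟩ := hT'.surj hc
        simp at hk
      · intro hc
        obtain ⟨k, hk, -⟩ := hμZ.surj hc
        simp at hk
    obtain ⟨P, hP, hPt⟩ := exists_pre_inr e hPZ
    obtain ⟨μ, hμ, -⟩ := hT.exists_tab hP
    have hwI : w ∈ Iso P μ := hw.2 P μ hP hμ
    obtain ⟨T'', hT'', hmap⟩ := mapR_yc e hT'
    rw [← slZ_act, hmap]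
    set PZ' : Finset ι := PZ.map (inrE e) with hPZ'
    set QP : Finset ι := (univ.filter fun p => y p = 0 ∧ e (Sum.inl p) ∈ P).map (inlE e) with hQP
    set LP : Finset ι := (univ.filter fun p => y p ≠ 0 ∧ e (Sum.inl p) ∈ P).map (inlE e) with hLP
    have hQPP : QP ⊆ P := by
      intro k hk
      obtain ⟨p, hp, rfl⟩ := Finset.mem_map.1 hk
      exact (Finset.mem_filter.1 hp).2.2
    have hLPP : LP ⊆ P := by
      intro k hk
      obtain ⟨p, hp, rfl⟩ := Finset.mem_map.1 hk
      exact (Finset.mem_filter.1 hp).2.2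
    have hQL : Disjoint QP L := by
      rw [Finset.disjoint_left]
      intro k hk hk'
      obtain ⟨p, hp, rfl⟩ := Finset.mem_map.1 hk
      change e (Sum.inl p) ∈ L at hk'
      rw [hL, ExtHookZ_mem_inl] at hk'
      exact (Finset.mem_filter.1 hk').2 (Finset.mem_filter.1 hp).2.1
    have hLPL : LP ⊆ L := by
      apply Finset.map_subset_map.2
      intro p hp
      exact Finset.mem_filter.2 ⟨mem_univ _, (Finset.mem_filter.1 hp).2.1⟩
    have hQLP : Disjoint QP LP := hQL.mono_right hLPL
    have hdiff : P \ (QP ∪ LP) = PZ' := by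
      ext k
      induction k using ExtHookZ_cases e with
      | h1 p =>
        simp only [hQP, hLP, hPZ', Finset.mem_sdiff, Finset.mem_union, ExtHookZ_mem_inl,
          ExtHookZ_not_mem_inr, Finset.mem_filter, mem_univ, true_and, iff_false]
        tauto
      | h2 q =>
        simp only [hQP, hLP, hPZ', Finset.mem_sdiff, Finset.mem_union, ExtHookZ_mem_inr,
          ExtHookZ_not_mem_inl, hPt]
        tauto
    have hν : ∀ c : ℕ × ℕ, c ∈ μZ ↔ (c.1 + 1, c.2 + 1) ∈ μ := by
      intro c
      constructor
      · intro hc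
        obtain ⟨q, hq, rfl⟩ := hμZ.surj hc
        rw [← hZ]
        exact hμ.mem ((hPt q).2 hq)
      · intro hc
        obtain ⟨k, hk, hk'⟩ := hμ.surj hc
        induction k using ExtHookZ_cases e with
        | h1 p =>
          have := hY p
          rw [hk'] at this
          simp at this
        | h2 q =>
          rw [hZ] at hk'
          have h1 : TZ q = c := by
            simp only [Prod.mk.injEq, add_left_inj] at hk'
            exact Prod.ext hk'.1 hk'.2
          rw [← h1]
          exact hμZ.mem ((hPt q).1 hk)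
    have h00 : (0, 0) ∈ μ := by
      obtain ⟨q, hq⟩ := hPZne
      have := hμ.mem ((hPt q).2 hq)
      exact μ.up_left_mem (Nat.zero_le _) (Nat.zero_le _) this
    have hcard : QP.card + LP.card + 1 = μ.rowLen 0 + μ.colLen 0 := by
      rw [← hμ.wt_rowf, ← hμ.wt_colf, ← Finset.card_union_of_disjoint hQLP]
      unfold wt
      rw [← Finset.card_union_add_card_inter]
      congr 1
      · congr 1
        ext k
        induction k using ExtHookZ_cases e with
        | h1 p =>
          have := hY p
          simp only [hQP, hLP, Finset.mem_union, ExtHookZ_mem_inl, Finset.mem_filter, mem_univ,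
            true_and, rowf, colf]
          tauto
        | h2 q =>
          simp only [hQP, hLP, Finset.mem_union, ExtHookZ_not_mem_inl, Finset.mem_filter, rowf,
            colf, hZ]
          simp
      · obtain ⟨k, hk, hk'⟩ := hμ.surj h00
        symm
        rw [Finset.card_eq_one]
        refine ⟨k, ?_⟩
        ext k'
        simp only [Finset.mem_inter, Finset.mem_filter, Finset.mem_singleton, rowf, colf]
        constructor
        · rintro ⟨⟨h1, h2⟩, -, h3⟩
          exact hμ.inj h1 hk (by rw [hk']; exact Prod.ext h2 h3)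
        · rintro rfl
          rw [hk']
          exact ⟨⟨hk, rfl⟩, hk, rfl⟩
    have hiso := extremal_hook hQPP hLPP hQLP hcard hν hwI
    rw [hdiff] at hiso
    have hkill : act (yc PZ' T'') (act (sym QP * alt LP) w) = 0 := hiso T'' ν hT'' hne
    have hycG : yc PZ' T'' ∈ GP PZ' := yc_mem_GP _ _
    have hsymG : sym QP ∈ GP QP := psym_mem_GP _ _
    have hc1 : sym QP * yc PZ' T'' = yc PZ' T'' * sym QP :=
      GP_commute (ExtHookZ_disj e _ _) hsymG hycG
    have hc2 : alt L * yc PZ' T'' = yc PZ' T'' * alt L :=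
      GP_commute (ExtHookZ_disj e _ _) haltL hycG
    have hc3 : sym QP * alt L = alt L * sym QP := GP_commute hQL hsymG haltL
    have hc4 : alt L * alt LP = ((stab LP (fun _ => 0)).card : ℂ) • alt L :=
      palt_mul_palt fun σ hσ => mem_stab_zero.2 (SP_mono hLPL (mem_stab_zero.1 hσ))
    have hzero : act (sym QP) (act (yc PZ' T'') u) = 0 := by
      have h1 : ((stab LP (fun _ => 0)).card : ℂ) • (sym QP * (yc PZ' T'' * alt L)) =
          alt L * (yc PZ' T'' * (sym QP * alt LP)) := by
        rw [← mul_smul_comm, ← mul_smul_comm, ← hc4, ← mul_assoc, ← mul_assoc, ← mul_assoc,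
          ← mul_assoc, hc1, hc2, mul_assoc (yc PZ' T''), hc3, ← mul_assoc]
      have h2 : ((stab LP (fun _ => 0)).card : ℂ) • act (sym QP) (act (yc PZ' T'') u) = 0 := by
        rw [hu, ← act_mul_apply, ← act_mul_apply, ← LinearMap.smul_apply, ← map_smul,
          mul_assoc, h1, act_mul_apply, act_mul_apply, hkill, map_zero]
      exact (smul_eq_zero.1 h2).resolve_left (card_stab_ne_zero _ _)
    ext z
    rw [slZ_apply, Finsupp.zero_apply]
    have h3 := congrArg (fun v : WM ι => v (mrg e 1 y z)) hzero
    simp only [sym, act_psym_apply, Finsupp.zero_apply] at h3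
    rw [Finset.sum_congr rfl (g := fun _ => act (yc PZ' T'') u (mrg e 1 y z)), Finset.sum_const,
      nsmul_eq_mul] at h3
    · exact (mul_eq_zero.1 h3).resolve_left (card_stab_ne_zero _ _)
    · intro σ hσ
      have hσ' := mem_stab_zero.1 hσ
      congr 1
      funext k
      by_cases hk : k ∈ QP
      · have hk' : σ k ∈ QP := (SP_apply_mem_iff hσ' k).2 hk
        obtain ⟨p, hp, hp'⟩ := Finset.mem_map.1 hk
        obtain ⟨p2, hp2, hp2'⟩ := Finset.mem_map.1 hk'
        rw [Function.comp_apply, ← hp2', ← hp']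
        change mrg e 1 y z (e (Sum.inl p2)) = mrg e 1 y z (e (Sum.inl p))
        rw [mrg_inl, mrg_inl, (Finset.mem_filter.1 hp).2.1, (Finset.mem_filter.1 hp2).2.1]
      · rw [Function.comp_apply, hσ' k hk]

end Crest.Agent.R195
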