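/- Row 195, task ExtHook: extraction of the outer hook. -/
import Crest.Agent.R195.ExtHookY
import Crest.Agent.R195.ExtHookZ
import Crest.Agent.R195.ExtHookN

set_option autoImplicit false

namespace Crest.Agent.R195

open Equiv Finset

variable {ι : Type} [Fintype ι] [DecidableEq ι]

variable {Y Z : Type} [Fintype Y] [DecidableEq Y] [Fintype Z] [DecidableEq Z]

variable (e : Y ⊕ Z ≃ ι) {τ : ι → ℤ} {T : ι → ℕ × ℕ} {TZ : Z → ℕ × ℕ} {κ κY κZ : YoungDiagram}

/-- `ext_of_kernel` with `ϑ = hkFun e κY`; the product formula as in `ext_row` -/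
theorem ext_hook (hT : Std τ T κ)
    (hY : ∀ y, (T (e (Sum.inl y))).1 = 0 ∨ (T (e (Sum.inl y))).2 = 0)
    (hZ : ∀ z, T (e (Sum.inr z)) = ((TZ z).1 + 1, (TZ z).2 + 1))
    (hκY : IsTab univ (fun y => T (e (Sum.inl y))) κY) (hκZ : IsTab univ TZ κZ) :
    Ext τ T κ e (fun y => T (e (Sum.inl y))) κY TZ κZ := by
  have hSY : Std (fun y => τ (e (Sum.inl y))) (fun y => T (e (Sum.inl y))) κY :=
    ⟨fun a b h => Sum.inl_injective (e.injective (hT.1 h)), hκY,
      fun a b h => hT.2.2 _ _ h⟩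
  have hSZ : Std (fun z => τ (e (Sum.inr z))) TZ κZ := by
    refine ⟨fun a b h => Sum.inr_injective (e.injective (hT.1 h)), hκZ, fun a b h => ?_⟩
    refine hT.2.2 _ _ ?_
    rw [hZ, hZ]
    exact ⟨Nat.succ_le_succ h.1, Nat.succ_le_succ h.2⟩
  obtain ⟨w, hw, hw1⟩ := exists_GT hT
  obtain ⟨wY, hwY, hwY1⟩ := exists_GT hSY
  obtain ⟨wZ, hwZ, hwZ1⟩ := exists_GT hSZ
  have hw0 : w ≠ 0 := by
    intro h
    rw [h] at hw1
    simp at hw1
  have hval : ∀ y z, hkFun e κY y z w =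
      hkFun e κY (rowf fun y => T (e (Sum.inl y))) (rowf TZ) w * wY y * wZ z := by
    intro y z
    obtain ⟨s, hs, hsG⟩ := hkFun_sliceY e hT hY hZ hκY hκZ hw z
    obtain ⟨s', hs', hsG'⟩ :=
      hkFun_sliceZ e hT hY hZ hκY hκZ hw (rowf fun y => T (e (Sum.inl y)))
    have h1 := congrArg (fun u : WM Y => u y) (GT_eq_smul hSY hsG hwY hwY1)
    have h2 := congrArg (fun u : WM Z => u z) (GT_eq_smul hSZ hsG' hwZ hwZ1)
    simp only [Finsupp.smul_apply, smul_eq_mul] at h1 h2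
    rw [← hs y, h1, hs, ← hs' z, h2, hs']
    ring
  have hc : hkFun e κY (rowf fun y => T (e (Sum.inl y))) (rowf TZ) w ≠ 0 := by
    obtain ⟨y, z, h⟩ := hkFun_ne_zero e hT hY hZ hκY hκZ hw hw0
    intro h0
    rw [hval, h0, zero_mul, zero_mul] at h
    exact h rfl
  exact ext_of_kernel e hSY hSZ hw hwY hwY1 hwZ hwZ1 (hkFun e κY) _ hc hval
    (fun gY gZ y z => hkFun_equiv e κY gY gZ y z w)
    (fun y z g h => hkFun_bound e hT hY hZ hw y z g h)

end Crest.Agent.R195
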