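/- Row 195, task Final: from `Good` to intertwining maps; irreducibility. -/
import Crest.Agent.R195.Twist

set_option autoImplicit false

namespace Crest.Agent.R195

open Equiv Finset

variable {ι : Type} [Fintype ι] [DecidableEq ι]

open Crest.AlgebraR.Specht

theorem Final_rep_eq (n : ℕ) (g : Perm (Fin n)) (v : WM (Fin n)) :
    rowWordRep n g v = wrep (Fin n) g v := rfl

theorem Final_poly_eq (κ : YoungDiagram) (t : κ.cells ≃ Fin κ.cells.card) :
    (polytabloid t : WM (Fin κ.card)) =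
      ptab (univ : Finset (Fin κ.card)) (fun i => ((t.symm i : κ.cells) : ℕ × ℕ)) := by
  unfold ptab
  rw [act_palt_eq]
  unfold polytabloid
  refine Finset.sum_congr ?_ fun σ _ => ?_
  · ext σ
    rw [mem_stab]
    simp only [columnGroup, mem_filter, mem_univ, true_and, colf, not_true_eq_false,
      IsEmpty.forall_iff, implies_true]
  · rw [wrep_single]
    rfl

theorem Final_isTab (κ : YoungDiagram) (t : κ.cells ≃ Fin κ.cells.card) :
    IsTab (univ : Finset (Fin κ.card)) (fun i => ((t.symm i : κ.cells) : ℕ × ℕ)) κ := by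
  refine isTab_of (fun i _ => (t.symm i).2) (fun i _ j _ hij => ?_) fun c hc => ?_
  · exact t.symm.injective (Subtype.ext hij)
  · exact ⟨t ⟨c, hc⟩, mem_univ _, by simp⟩

theorem Final_exists_equiv (κ : YoungDiagram) {T : Fin κ.card → ℕ × ℕ}
    (hT : IsTab univ T κ) : ∃ t : κ.cells ≃ Fin κ.cells.card,
      T = fun i => ((t.symm i : κ.cells) : ℕ × ℕ) := by
  let f : Fin κ.cells.card → κ.cells := fun i => ⟨T i, hT.mem (mem_univ i)⟩
  have hf : Function.Bijective f := by
    refine ⟨fun i j hij => hT.inj (mem_univ i) (mem_univ j) (congrArg Subtype.val hij),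
      fun c => ?_⟩
    obtain ⟨i, _, hi⟩ := hT.surj (c := c.1) c.2
    exact ⟨i, Subtype.ext hi⟩
  exact ⟨(Equiv.ofBijective f hf).symm, rfl⟩

theorem Final_act_eq (a : GA ι) (v : WM ι) :
    act a v = ∑ g : Perm ι, a.coeff g • wrep ι g v := by
  conv_lhs => rw [eq_sum_el a]
  rw [map_sum, LinearMap.sum_apply]
  refine Finset.sum_congr rfl fun g _ => ?_
  rw [map_smul, LinearMap.smul_apply, act_el]

theorem Spec_eq_specht (κ : YoungDiagram) :
    Spec (univ : Finset (Fin κ.card)) κ = (spechtSubrep κ.cells).toSubmodule := by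
  apply le_antisymm
  · refine Submodule.span_le.2 ?_
    rintro _ ⟨T, hT, rfl⟩
    obtain ⟨t, rfl⟩ := Final_exists_equiv κ hT
    rw [← Final_poly_eq]
    have h1 : polytabloid t ∈ (spechtSubrep κ.cells).toSubmodule :=
      Submodule.mem_sInf.2 fun p hp => hp.1 ⟨t, rfl⟩
    exact h1
  · intro x hx
    let S : Submodule ℂ (RowWord κ.cells.card →₀ ℂ) := Spec (univ : Finset (Fin κ.card)) κ
    have h1 : (Set.range fun t : κ.cells ≃ Fin κ.cells.card => polytabloid t) ⊆ S := by
      rintro _ ⟨t, rfl⟩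
      have := ptab_mem_Spec (Final_isTab κ t)
      rw [← Final_poly_eq] at this
      exact this
    have h2 : ∀ (g : Perm (Fin κ.card)), ∀ v ∈ Spec (univ : Finset (Fin κ.card)) κ,
        wrep (Fin κ.card) g v ∈ Spec (univ : Finset (Fin κ.card)) κ := by
      intro g v hv
      rw [← act_el]
      exact Spec_act (P := univ) (Q := univ) (Or.inl (Finset.Subset.refl _))
        (mem_GP_univ (el g)) hv
    have hx' : x ∈ (spechtSubrep κ.cells).toSubmodule := hx
    have h3 : ∀ p ∈ {p : Submodule ℂ (RowWord κ.cells.card →₀ ℂ) |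
        (Set.range fun t : κ.cells ≃ Fin κ.cells.card => polytabloid t) ⊆ p ∧
          ∀ g, ∀ v ∈ p, rowWordRep κ.cells.card g v ∈ p}, _ ∈ p := Submodule.mem_sInf.1 hx'
    exact h3 S ⟨h1, h2⟩

theorem specht_finite (κ : YoungDiagram) :
    FiniteDimensional ℂ (spechtSubrep κ.cells).toSubmodule := by
  have h : (spechtSubrep κ.cells).toSubmodule =
      Submodule.span ℂ (Set.range fun t : κ.cells ≃ Fin κ.cells.card => polytabloid t) := by
    rw [← Spec_eq_specht]
    unfold Spec
    refine congrArg _ (Set.ext fun v => ⟨?_, ?_⟩)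
    · rintro ⟨T, hT, rfl⟩
      obtain ⟨t, rfl⟩ := Final_exists_equiv κ hT
      exact ⟨t, Final_poly_eq κ t⟩
    · rintro ⟨t, rfl⟩
      exact ⟨_, Final_isTab κ t, Final_poly_eq κ t⟩
  rw [h]
  exact FiniteDimensional.span_of_finite ℂ (Set.finite_range _)

theorem specht_irreducible (κ : YoungDiagram) :
    Representation.IsIrreducible (k := ℂ) (V := (spechtSubrep κ.cells).toSubmodule)
      (spechtRep κ.cells) := by
  obtain ⟨T, hT⟩ := exists_isTab (P := (univ : Finset (Fin κ.card))) (μ := κ) (by simp)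
  have hmem : ∀ {v : WM (Fin κ.card)}, v ∈ Spec (univ : Finset (Fin κ.card)) κ ↔
      v ∈ (spechtSubrep κ.cells).toSubmodule := by
    intro v
    rw [Spec_eq_specht]
    exact Iff.rfl
  have h0 : ptab univ T ≠ 0 := by
    intro h
    have := ptab_apply_row hT
    rw [h] at this
    exact zero_ne_one this
  let p : (spechtSubrep κ.cells).toSubmodule := ⟨ptab univ T, hmem.1 (ptab_mem_Spec hT)⟩
  refine { exists_pair_ne := ⟨⊥, ⊤, fun h => ?_⟩, eq_bot_or_eq_top := fun S => ?_ }
  · have h1 : p ∈ (⊤ : Subrepresentation (spechtRep κ.cells)).toSubmodule := Submodule.mem_top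
    rw [← h] at h1
    exact h0 (congrArg Subtype.val ((Submodule.mem_bot ℂ).1 h1))
  · by_cases hS : S.toSubmodule = ⊥
    · exact Or.inl (Subrepresentation.ext hS)
    · refine Or.inr (Subrepresentation.ext ?_)
      obtain ⟨v, hv, hv0⟩ := Submodule.exists_mem_ne_zero_of_ne_bot hS
      refine Submodule.eq_top_iff'.2 fun w => ?_
      obtain ⟨a, ha⟩ := Spec_irred (ι := Fin κ.card) (hmem.2 v.2)
        (fun h => hv0 (Subtype.ext h)) (hmem.2 w.2)
      have e : w = ∑ g : Perm (Fin κ.card), a.coeff g • spechtRep κ.cells g v := by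
        apply Subtype.ext
        rw [← ha, Submodule.coe_sum]
        exact Final_act_eq a _
      rw [e]
      exact Submodule.sum_mem _ fun g _ => Submodule.smul_mem _ _ (S.apply_mem_toSubmodule g hv)

/-- `exists_yc_rep` gives a shape `l`; `Good` gives `a = Aelt α β` with `a * yc T' ≠ 0`;
`exists_left_inv` and conjugation give `σ(a) ≠ 0`; choose `x`, `f` with `f (σ(a) x) ≠ 0`; the map
`x ↦ ∑ g, f (σ g⁻¹ x) • (ρ g u ⊗ ρ g w)` is a nonzero intertwiner. -/
theorem final (κ : YoungDiagram)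
    (h : ∀ l : YoungDiagram, l.card = κ.card →
      ∃ (τ : Fin κ.card → ℤ) (T1 T2 : Fin κ.card → ℕ × ℕ), Good τ T1 T2 κ κ l)
    (W : Type) [AddCommGroup W] [Module ℂ W]
    (σ : Representation ℂ (Perm (Fin κ.card)) W) (hσ : σ.IsIrreducible) :
    Nontrivial (Representation.IntertwiningMap σ
      (Representation.tprod (spechtRep κ.cells) (spechtRep κ.cells))) := by
  have hW : Nontrivial W := by
    by_contra hW
    rw [not_nontrivial_iff_subsingleton] at hW
    obtain ⟨S, S', hne⟩ := hσ.toNontrivial.exists_pair_ne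
    exact hne (Subrepresentation.ext (Subsingleton.elim _ _))
  obtain ⟨T, l, hT, hne⟩ := exists_yc_rep σ
  have hl : l.card = κ.card := by
    rw [← hT.card_eq]; simp
  obtain ⟨τ, T1, T2, α, ⟨u, φ, hu, hα⟩, β, ⟨w, ψ, hw, hβ⟩, T', hT', h'⟩ := h l hl
  obtain ⟨b, hb⟩ := exists_left_inv hT' h'
  obtain ⟨g, hg, hgT⟩ := hT'.exists_perm hT
  have hTT : T = T' ∘ g.symm := funext fun i => hgT i (mem_univ i)
  have hyc : yc univ T = el g * yc univ T' * el g⁻¹ := by
    rw [el_mul_yc hg, mul_assoc, ← el_mul, mul_inv_cancel, el_one, mul_one, hTT]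
  have ha : σ.asAlgebraHom (Aelt α β) ≠ 0 := by
    intro h0
    apply hne
    rw [hyc, ← hb, map_mul, map_mul, map_mul, map_mul, h0, mul_zero, zero_mul, mul_zero, zero_mul]
  obtain ⟨x, hx⟩ : ∃ x, σ.asAlgebraHom (Aelt α β) x ≠ 0 := by
    by_contra hc
    push Not at hc
    exact ha (LinearMap.ext hc)
  obtain ⟨f, hf⟩ : ∃ f : Module.Dual ℂ W, f (σ.asAlgebraHom (Aelt α β) x) ≠ 0 := by
    by_contra hc
    push Not at hc
    exact hx ((Module.forall_dual_apply_eq_zero_iff ℂ _).1 hc)
  have hmem : ∀ {v : WM (Fin κ.card)}, v ∈ Spec (univ : Finset (Fin κ.card)) κ →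
      v ∈ (spechtSubrep κ.cells).toSubmodule := by
    intro v hv
    rw [Spec_eq_specht] at hv
    exact hv
  let u' : (spechtSubrep κ.cells).toSubmodule := ⟨u, hmem hu.1⟩
  let w' : (spechtSubrep κ.cells).toSubmodule := ⟨w, hmem hw.1⟩
  let ρ := Representation.tprod (spechtRep κ.cells) (spechtRep κ.cells)
  let F : W →ₗ[ℂ] TensorProduct ℂ (spechtSubrep κ.cells).toSubmodule
      (spechtSubrep κ.cells).toSubmodule :=
    ∑ g : Perm (Fin κ.card), LinearMap.smulRight (f ∘ₗ σ g⁻¹) (ρ g (u' ⊗ₜ[ℂ] w'))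
  have hF : ∀ y, F y = ∑ g : Perm (Fin κ.card), f (σ g⁻¹ y) • ρ g (u' ⊗ₜ[ℂ] w') := by
    intro y
    simp only [F, LinearMap.sum_apply, LinearMap.smulRight_apply, LinearMap.comp_apply]
  have hint : ∀ (k : Perm (Fin κ.card)) (y : W), F (σ k y) = ρ k (F y) := by
    intro k y
    rw [hF, hF, map_sum, ← Equiv.sum_comp (Equiv.mulLeft k)]
    refine Finset.sum_congr rfl fun g _ => ?_
    rw [Equiv.coe_mulLeft, map_smul, map_mul, Module.End.mul_apply, ← Module.End.mul_apply (σ _),
      ← map_mul, mul_inv_rev, inv_mul_cancel_right]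
  let φ' : (spechtSubrep κ.cells).toSubmodule →ₗ[ℂ] ℂ :=
    φ ∘ₗ (spechtSubrep κ.cells).toSubmodule.subtype
  let ψ' : (spechtSubrep κ.cells).toSubmodule →ₗ[ℂ] ℂ :=
    ψ ∘ₗ (spechtSubrep κ.cells).toSubmodule.subtype
  let c := (TensorProduct.lid ℂ ℂ).toLinearMap ∘ₗ TensorProduct.map φ' ψ'
  have hc : ∀ g, c (ρ g (u' ⊗ₜ[ℂ] w')) = α g * β g := by
    intro g
    rw [hα, hβ]
    simp only [c, ρ, Representation.tprod_apply, TensorProduct.map_tmul, LinearMap.comp_apply,
      LinearEquiv.coe_coe, TensorProduct.lid_tmul, smul_eq_mul]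
    rfl
  have hcF : c (F x) = f (σ.asAlgebraHom (Aelt α β) x) := by
    rw [hF, map_sum, Aelt, map_sum, LinearMap.sum_apply, map_sum]
    refine Finset.sum_congr rfl fun g _ => ?_
    rw [map_smul, hc, map_smul, LinearMap.smul_apply, map_smul, el,
      Representation.asAlgebraHom_single_one, smul_eq_mul, smul_eq_mul, mul_comm]
  refine ⟨⟨LinearMap.intertwiningMap_of_isIntertwiningMap σ ρ F hint, 0, fun h0 => hf ?_⟩⟩
  have h1 : F x = 0 := congrArg (fun G : Representation.IntertwiningMap σ ρ => G.toLinearMap x) h0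
  rw [← hcF, h1, map_zero]

end Crest.Agent.R195
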