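/- Row 195, task HookPos: positivity of the mixed discriminant. -/
import Crest.Agent.R195.Domino

set_option autoImplicit false

namespace Crest.Agent.R195

open Equiv Finset

variable {ι : Type} [Fintype ι] [DecidableEq ι]

/-- site of the pair `k` selected by the flag `b` -/
def hookPos_st {a : ℕ} (k : Fin a) (b : Bool) : Fin (2 * a + 1) := if b then sy k else sx k

theorem hookPos_st_false {a : ℕ} (k : Fin a) : hookPos_st k false = sx k := rfl
theorem hookPos_st_true {a : ℕ} (k : Fin a) : hookPos_st k true = sy k := rfl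

theorem hookPos_st_not {a : ℕ} (k : Fin a) (b : Bool) :
    hookPos_st k (!b) = if b then sx k else sy k := by
  cases b <;> rfl

theorem hookPos_st_val {a : ℕ} (k : Fin a) (b : Bool) :
    ((hookPos_st k b : Fin (2 * a + 1)) : ℕ) = 2 * k + (if b then 2 else 1) := by
  cases b <;> rfl

theorem hookPos_st_inj {a : ℕ} {k l : Fin a} {b b' : Bool}
    (h : hookPos_st k b = hookPos_st l b') : k = l ∧ b = b' := by
  have h1 := congrArg Fin.val h
  rw [hookPos_st_val, hookPos_st_val] at h1
  cases b <;> cases b' <;> simp at h1 <;> first | exact ⟨Fin.ext (by omega), rfl⟩ | omega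

theorem hookPos_st_ne_zero {a : ℕ} (k : Fin a) (b : Bool) : hookPos_st k b ≠ 0 := by
  intro h
  have h1 := congrArg Fin.val h
  rw [hookPos_st_val] at h1
  cases b <;> simp at h1

theorem hookPos_cases {a : ℕ} (s : Fin (2 * a + 1)) : s = 0 ∨ ∃ k b, s = hookPos_st k b := by
  by_cases h : (s : ℕ) = 0
  · exact Or.inl (Fin.ext h)
  · right
    have hs := s.isLt
    by_cases h2 : (s : ℕ) % 2 = 1
    · refine ⟨⟨(s : ℕ) / 2, by omega⟩, false, Fin.ext ?_⟩
      rw [hookPos_st_val]; simp; omega
    · refine ⟨⟨(s : ℕ) / 2 - 1, by omega⟩, true, Fin.ext ?_⟩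
      rw [hookPos_st_val]; simp; omega

/-- the sites as `Option (pair × flag)` -/
noncomputable def hookPos_e (a : ℕ) : Option (Fin a × Bool) ≃ Fin (2 * a + 1) :=
  Equiv.ofBijective (fun o => o.elim 0 fun p => hookPos_st p.1 p.2) (by
    constructor
    · rintro (_ | ⟨k, b⟩) (_ | ⟨l, b'⟩) h
      · rfl
      · exact absurd h.symm (hookPos_st_ne_zero _ _)
      · exact absurd h (hookPos_st_ne_zero _ _)
      · obtain ⟨h1, h2⟩ := hookPos_st_inj h
        simp only at h1 h2
        rw [h1, h2]
    · intro s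
      rcases hookPos_cases s with rfl | ⟨k, b, rfl⟩
      · exact ⟨none, rfl⟩
      · exact ⟨some (k, b), rfl⟩)

theorem hookPos_e_none (a : ℕ) : hookPos_e a none = 0 := rfl
theorem hookPos_e_some {a : ℕ} (k : Fin a) (b : Bool) :
    hookPos_e a (some (k, b)) = hookPos_st k b := rfl

/-- flips -/
def hookPos_fl {a : ℕ} (ε : Fin a → Bool) : Perm (Fin a × Bool) :=
  prodCongrRight fun k => if ε k then swap false true else 1

theorem hookPos_fl_apply {a : ℕ} (ε : Fin a → Bool) (k : Fin a) (b : Bool) :
    hookPos_fl ε (k, b) = (k, if b then !(ε k) else ε k) := by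
  unfold hookPos_fl
  rw [prodCongrRight_apply]
  cases h : ε k <;> cases b <;> simp

theorem hookPos_sign_fl {a : ℕ} (ε : Fin a → Bool) :
    ((Perm.sign (hookPos_fl ε) : ℤˣ) : ℤ) = ∏ k, if ε k then -1 else 1 := by
  unfold hookPos_fl
  rw [Perm.sign_prodCongrRight]
  push_cast
  refine Finset.prod_congr rfl fun k _ => ?_
  cases h : ε k
  · simp
  · simp

/-- Sign lemma: `σ` written as flips composed with a permutation of the pairs on each side. -/
theorem sign_pairs {a : ℕ} (σ : Perm (Fin (2 * a + 1))) (π₀ π₁ : Perm (Fin a)) (ε ε' : Fin a → Bool)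
    (h0 : σ 0 = 0)
    (hc : ∀ k, σ (if ε' (π₀ k) then sy (π₀ k) else sx (π₀ k)) = if ε k then sy k else sx k)
    (hd : ∀ k, σ (if ε' (π₁ k) then sx (π₁ k) else sy (π₁ k)) = if ε k then sx k else sy k) :
    (Perm.sign σ : ℤ) = (Perm.sign π₀ : ℤ) * (Perm.sign π₁ : ℤ) *
      (∏ k, if ε k then -1 else 1) * ∏ k, if ε' k then -1 else 1 := by
  classical
  set X : Perm (Fin a × Bool) := prodCongrLeft fun b : Bool => if b then π₁ else π₀ with hX
  have hsX : ((Perm.sign X : ℤˣ) : ℤ) = (Perm.sign π₀ : ℤ) * (Perm.sign π₁ : ℤ) := by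
    rw [hX, Perm.sign_prodCongrLeft]
    simp [mul_comm]
  have key : σ * (hookPos_e a).permCongr ((hookPos_fl ε' * X).optionCongr) =
      (hookPos_e a).permCongr ((hookPos_fl ε).optionCongr) := by
    ext s : 1
    obtain ⟨o, rfl⟩ := (hookPos_e a).surjective s
    simp only [Perm.mul_apply, permCongr_apply, symm_apply_apply]
    rcases o with _ | ⟨k, b⟩
    · simpa [hookPos_e_none] using h0
    · simp only [optionCongr_apply, Option.map_some, Perm.mul_apply]
      cases b
      · have : X (k, false) = (π₀ k, false) := rfl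
        rw [this, hookPos_fl_apply, hookPos_fl_apply, hookPos_e_some, hookPos_e_some]
        exact hc k
      · have : X (k, true) = (π₁ k, true) := rfl
        rw [this, hookPos_fl_apply, hookPos_fl_apply, hookPos_e_some, hookPos_e_some]
        simp only [if_true, hookPos_st_not]
        exact hd k
  have hs := congrArg (fun g => ((Perm.sign g : ℤˣ) : ℤ)) key
  simp only [Perm.sign_mul, Perm.sign_permCongr, Equiv.optionCongr_sign, Units.val_mul] at hs
  rw [hookPos_sign_fl, hookPos_sign_fl, hsX] at hs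
  have h1 : ((Perm.sign π₀ : ℤˣ) : ℤ) * (Perm.sign π₀ : ℤ) = 1 := by
    rcases Int.units_eq_one_or (Perm.sign π₀) with h | h <;> simp [h]
  have h2 : ((Perm.sign π₁ : ℤˣ) : ℤ) * (Perm.sign π₁ : ℤ) = 1 := by
    rcases Int.units_eq_one_or (Perm.sign π₁) with h | h <;> simp [h]
  have h3 : (∏ k, if ε' k then (-1 : ℤ) else 1) * (∏ k, if ε' k then (-1 : ℤ) else 1) = 1 := by
    rw [← Finset.prod_mul_distrib]
    exact Finset.prod_eq_one fun k _ => by split_ifs <;> simp
  rw [← hs]
  set A := ((Perm.sign π₀ : ℤˣ) : ℤ)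
  set B := ((Perm.sign π₁ : ℤˣ) : ℤ)
  set E := ∏ k, if ε' k then (-1 : ℤ) else 1
  set S := ((Perm.sign σ : ℤˣ) : ℤ)
  calc S = S * (A * A) * (B * B) * (E * E) := by rw [h1, h2, h3]; ring
    _ = _ := by ring

theorem hookPos_d_zero {a : ℕ} (l : Fin a) : dmat a l 0 = 0 := by
  simp [dmat]

theorem hookPos_d_st {a : ℕ} (l k : Fin a) (b : Bool) :
    dmat a l (hookPos_st k b) = if k = l then (if b then -1 else 1) else 0 := by
  unfold dmat
  rw [hookPos_st_val]
  by_cases h : k = l
  · subst h; cases b <;> simp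
  · have h' : (k : ℕ) ≠ l := fun e => h (Fin.ext e)
    rw [if_neg h, if_neg, if_neg] <;> cases b <;> simp <;> omega

theorem hookPos_w_st {a : ℕ} (i : ℕ) (l k : Fin a) (b : Bool) :
    wmat a i l (hookPos_st k b) =
      if k = l then (if b then (if (l : ℕ) < i then 1 else -1) else 1) else 0 := by
  unfold wmat
  by_cases hl : (l : ℕ) < i
  · rw [if_pos hl, hookPos_st_val]
    by_cases h : k = l
    · subst h; cases b <;> simp [hl]
    · have h' : (k : ℕ) ≠ l := fun e => h (Fin.ext e)
      rw [if_neg h, if_neg, if_neg] <;> cases b <;> simp <;> omega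
  · rw [if_neg hl, hookPos_d_st]
    simp [hl]

theorem hookPos_sum_d {a : ℕ} (l : Fin a) (f : Fin (2 * a + 1) → ℤ) :
    ∑ s, dmat a l s * f s = f (sx l) - f (sy l) := by
  have hne : sx l ≠ sy l := fun h => by
    have := hookPos_st_inj (k := l) (l := l) (b := false) (b' := true) h
    simp at this
  rw [Finset.sum_eq_add_of_mem (sx l) (sy l) (mem_univ _) (mem_univ _) hne]
  · have h1 := hookPos_d_st l l false
    have h2 := hookPos_d_st l l true
    rw [hookPos_st_false] at h1
    rw [hookPos_st_true] at h2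
    rw [h1, h2]; simp; ring
  · intro s _ hs
    rcases hookPos_cases s with rfl | ⟨k, b, rfl⟩
    · rw [hookPos_d_zero, zero_mul]
    · rw [hookPos_d_st, if_neg, zero_mul]
      rintro rfl
      cases b
      · exact hs.1 rfl
      · exact hs.2 rfl

/-- the expanded factors -/
def hookPos_G {a : ℕ} (i : ℕ) (T : Fin (2 * a + 1) → ℕ × ℕ) (β : ℕ → ℤ)
    (c : Perm (Fin (2 * a + 1))) (l l' k : Fin a) (b : Bool) : ℤ :=
  if β (T (sx k)).1 ≠ 0 then
    (if b then 0 else
      β (T (c (sx l))).1 * wmat a i l' (sx l) - β (T (c (sy l))).1 * wmat a i l' (sy l))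
  else if b = true ∧ (k : ℕ) < i then 0
  else dmat a l (c.symm (hookPos_st k b)) * wmat a i l' (c.symm (hookPos_st k (!b)))

theorem hookPos_sum2 {a : ℕ} (c : Perm (Fin (2 * a + 1))) (f g : Fin (2 * a + 1) → ℤ)
    (x y : Fin (2 * a + 1)) :
    ∑ s, ∑ s', f s * (if c s = x ∧ c s' = y then 1 else 0) * g s' =
      f (c.symm x) * g (c.symm y) := by
  rw [Finset.sum_eq_single (c.symm x), Finset.sum_eq_single (c.symm y)]
  · simp
  · intro s' _ hs'
    have : c s' ≠ y := fun h => hs' (by rw [← h]; simp)
    simp [this]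
  · simp
  · intro s _ hs
    have : c s ≠ x := fun h => hs (by rw [← h]; simp)
    simp [this]
  · simp

theorem hookPos_F_eq {a : ℕ} (i : ℕ) (T : Fin (2 * a + 1) → ℕ × ℕ) (β : ℕ → ℤ)
    (c : Perm (Fin (2 * a + 1))) (l l' k : Fin a) :
    ∑ s, ∑ s', dmat a l s * tM i T β k (c s) (c s') * wmat a i l' s' =
      ∑ b : Bool, hookPos_G i T β c l l' k b := by
  have hne : sx k ≠ sy k := fun h => by
    have := hookPos_st_inj (k := k) (l := k) (b := false) (b' := true) h
    simp at this
  unfold tM hookPos_G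
  by_cases hev : β (T (sx k)).1 ≠ 0
  · simp only [if_pos hev, Fintype.sum_bool, if_true, zero_add, Bool.false_eq_true, if_false]
    rw [← hookPos_sum_d l (fun s => β (T (c s)).1 * wmat a i l' s)]
    refine Finset.sum_congr rfl fun s _ => ?_
    rw [Finset.sum_eq_single s]
    · simp [mul_assoc]
    · intro s' _ hs'
      have : c s ≠ c s' := fun h => hs' (c.injective h).symm
      simp [this]
    · simp
  · simp only [if_neg hev, Fintype.sum_bool, Bool.false_eq_true, false_and, if_false, true_and,
      Bool.not_true, Bool.not_false, hookPos_st_false, hookPos_st_true]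
    by_cases hk : (k : ℕ) < i
    · simp only [if_pos hk, zero_add]
      exact hookPos_sum2 c _ _ _ _
    · simp only [if_neg hk]
      rw [← hookPos_sum2 c, ← hookPos_sum2 c, ← Finset.sum_add_distrib]
      refine Finset.sum_congr rfl fun s _ => ?_
      rw [← Finset.sum_add_distrib]
      refine Finset.sum_congr rfl fun s' _ => ?_
      by_cases h1 : c s = sx k ∧ c s' = sy k
      · have h2 : ¬ (c s = sy k ∧ c s' = sx k) := fun h2 => hne (h1.1.symm.trans h2.1)
        simp [h1, hne, hne.symm]
      · by_cases h2 : c s = sy k ∧ c s' = sx k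
        · simp [h2, hne, hne.symm]
        · rw [if_neg (by tauto), if_neg h1, if_neg h2]; ring

/-- the factors of the base term -/
def hookPos_B {a : ℕ} (i : ℕ) (T : Fin (2 * a + 1) → ℕ × ℕ) (β : ℕ → ℤ) (k : Fin a) : ℤ :=
  if β (T (sx k)).1 ≠ 0 then (if (k : ℕ) < i then 2 else 2 * β (T (sx k)).1)
  else (if (k : ℕ) < i then 1 else -1)

theorem hookPos_B_ne {a : ℕ} (i : ℕ) (T : Fin (2 * a + 1) → ℕ × ℕ) (β : ℕ → ℤ) (k : Fin a) :
    hookPos_B i T β k ≠ 0 := by
  unfold hookPos_B
  split_ifs with h1 h2 h3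
  · norm_num
  · exact mul_ne_zero (by norm_num) h1
  · norm_num
  · norm_num

theorem hookPos_base {a i : ℕ} {T : Fin (2 * a + 1) → ℕ × ℕ} {β : ℕ → ℤ} (h : Domino a i T β)
    (k : Fin a) : hookPos_G i T β 1 k k k false = hookPos_B i T β k := by
  have hw1 := hookPos_w_st i k k false
  have hw2 := hookPos_w_st i k k true
  have hd1 := hookPos_d_st k k false
  rw [hookPos_st_false] at hw1 hd1
  rw [hookPos_st_true] at hw2
  unfold hookPos_G hookPos_B
  by_cases hev : β (T (sx k)).1 ≠ 0
  · simp only [if_pos hev, Bool.false_eq_true, if_false, Perm.coe_one, id, hw1, hw2, if_true]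
    by_cases hk : (k : ℕ) < i
    · obtain ⟨h1, h2⟩ := h.hωev k hk hev
      have hev2 : β (T (sy k)).1 ≠ 0 := fun e => hev ((h.hev k).2 e)
      rw [h1] at hev ⊢
      rw [h2] at hev2 ⊢
      have e0 : β 0 = 1 := by rcases h.hβ 0 with e | e | e <;> simp_all
      have e1 : β 1 = -1 := by rcases h.hβ 1 with e | e | e <;> simp_all
      simp [hk, e0, e1]
    · rw [← h.hq k (by omega)]
      simp only [if_neg hk]; ring
  · simp only [if_neg hev, Bool.false_eq_true, false_and, if_false, Bool.not_false,
      hookPos_st_false, hookPos_st_true]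
    have : (1 : Perm (Fin (2 * a + 1))).symm = 1 := rfl
    simp only [this, Perm.coe_one, id, hd1, hw2, if_true, Bool.false_eq_true, if_false, one_mul]

theorem hookPos_odd {a i : ℕ} {T : Fin (2 * a + 1) → ℕ × ℕ} {β : ℕ → ℤ}
    {c : Perm (Fin (2 * a + 1))} (hc0 : c 0 = 0) {l l' k : Fin a} {e : Bool}
    (hk : β (T (sx k)).1 = 0) (hG : hookPos_G i T β c l l' k e ≠ 0) :
    (e = true → i ≤ (k : ℕ)) ∧ ∃ b b' : Bool, c (hookPos_st l b) = hookPos_st k e ∧
      c (hookPos_st l' b') = hookPos_st k (!e) ∧
      hookPos_G i T β c l l' k e = (if b then -1 else 1) *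
        (if b' then (if (l' : ℕ) < i then 1 else -1) else 1) := by
  unfold hookPos_G at hG ⊢
  rw [if_neg (by simpa using hk)] at hG ⊢
  by_cases h1 : e = true ∧ (k : ℕ) < i
  · rw [if_pos h1] at hG; exact absurd rfl hG
  rw [if_neg h1] at hG ⊢
  refine ⟨fun he => by by_contra hh; exact h1 ⟨he, by omega⟩, ?_⟩
  have hnz : ∀ b, c.symm (hookPos_st k b) ≠ 0 := fun b hb => by
    have := congrArg c hb
    rw [apply_symm_apply, hc0] at this
    exact hookPos_st_ne_zero _ _ this
  rcases hookPos_cases (c.symm (hookPos_st k e)) with h0 | ⟨k1, b1, h1⟩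
  · exact absurd h0 (hnz _)
  rcases hookPos_cases (c.symm (hookPos_st k (!e))) with h0 | ⟨k2, b2, h2⟩
  · exact absurd h0 (hnz _)
  rw [h1, h2, hookPos_d_st, hookPos_w_st] at hG ⊢
  have e1 : k1 = l := by by_contra hh; rw [if_neg hh, zero_mul] at hG; exact hG rfl
  have e2 : k2 = l' := by by_contra hh; rw [if_neg hh, mul_zero] at hG; exact hG rfl
  subst e1 e2
  refine ⟨b1, b2, ?_, ?_, by simp⟩
  · rw [← h1, apply_symm_apply]
  · rw [← h2, apply_symm_apply]

theorem hookPos_even {a i : ℕ} {T : Fin (2 * a + 1) → ℕ × ℕ} {β : ℕ → ℤ}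
    {c : Perm (Fin (2 * a + 1))} {l l' k : Fin a} {e : Bool}
    (hk : β (T (sx k)).1 ≠ 0) (hG : hookPos_G i T β c l l' k e ≠ 0) :
    e = false ∧ l = l' ∧ hookPos_G i T β c l l' k e =
      β (T (c (sx l))).1 - β (T (c (sy l))).1 * (if (l : ℕ) < i then 1 else -1) := by
  unfold hookPos_G at hG ⊢
  rw [if_pos hk] at hG ⊢
  cases e
  swap
  · simp at hG
  have hw1 := hookPos_w_st i l' l false
  have hw2 := hookPos_w_st i l' l true
  rw [hookPos_st_false] at hw1
  rw [hookPos_st_true] at hw2
  simp only [Bool.false_eq_true, if_false] at hG ⊢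
  rw [hw1, hw2] at hG ⊢
  have e1 : l = l' := by
    by_contra hh
    simp [hh] at hG
  subst e1
  simp

theorem hookPos_row {a i : ℕ} {T : Fin (2 * a + 1) → ℕ × ℕ} {β : ℕ → ℤ} (h : Domino a i T β)
    {r : ℕ} (hr : β r ≠ 0) : (r = 0 ∧ β r = 1) ∨ (r = 1 ∧ β r = -1) := by
  rcases h.hβ r with e | e | e
  · exact absurd e hr
  · exact Or.inl e
  · exact Or.inr e

theorem hookPos_ev_st {a i : ℕ} {T : Fin (2 * a + 1) → ℕ × ℕ} {β : ℕ → ℤ} (h : Domino a i T β)
    (k : Fin a) (b : Bool) : β (T (hookPos_st k b)).1 = 0 ↔ β (T (sx k)).1 = 0 := by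
  cases b
  · rfl
  · exact (h.hev k).symm

theorem hookPos_term {a i : ℕ} {T : Fin (2 * a + 1) → ℕ × ℕ} {β : ℕ → ℤ} (h : Domino a i T β)
    {c : Perm (Fin (2 * a + 1))} (hc : ∀ s, (T (c s)).2 = (T s).2) (π π' : Perm (Fin a))
    (ε : Fin a → Bool) (hG : ∀ k, hookPos_G i T β c (π k) (π' k) k (ε k) ≠ 0) :
    (Perm.sign c : ℤ) * ((Perm.sign π : ℤ) * (Perm.sign π' : ℤ) *
      ∏ k, hookPos_G i T β c (π k) (π' k) k (ε k)) = ∏ k, hookPos_B i T β k := by
  classical
  have hc0 : c 0 = 0 := h.h0 _ (hc 0)
  -- even and odd indices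
  have hev : ∀ k, β (T (sx k)).1 ≠ 0 → ε k = false ∧ π k = π' k ∧
      hookPos_G i T β c (π k) (π' k) k (ε k) =
      β (T (c (sx (π k)))).1 - β (T (c (sy (π k)))).1 * (if (π k : ℕ) < i then 1 else -1) :=
    fun k hk => hookPos_even hk (hG k)
  have hodd : ∀ k, β (T (sx k)).1 = 0 → (ε k = true → i ≤ (k : ℕ)) ∧
      ∃ b b' : Bool, c (hookPos_st (π k) b) = hookPos_st k (ε k) ∧
      c (hookPos_st (π' k) b') = hookPos_st k (!(ε k)) ∧
      hookPos_G i T β c (π k) (π' k) k (ε k) = (if b then -1 else 1) *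
        (if b' then (if (π' k : ℕ) < i then 1 else -1) else 1) :=
    fun k hk => hookPos_odd hc0 hk (hG k)
  -- the pairs `π k`, `k` even, are mapped to even sites
  have hE : ∀ k, β (T (sx k)).1 ≠ 0 → ∀ b, β (T (c (hookPos_st (π k) b))).1 ≠ 0 := by
    intro k hk b hb
    rcases hookPos_cases (c (hookPos_st (π k) b)) with h0 | ⟨k1, b1, h1⟩
    · exact hookPos_st_ne_zero _ _ (c.injective (h0.trans hc0.symm))
    rw [h1, hookPos_ev_st h] at hb
    obtain ⟨-, b2, b3, h2, h3, -⟩ := hodd k1 hb
    by_cases hb1 : b1 = ε k1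
    · rw [hb1, ← h2] at h1
      have := π.injective (hookPos_st_inj (c.injective h1)).1
      rw [this] at hk; exact hk hb
    · have hb1' : b1 = !(ε k1) := by
        clear h1
        revert hb1
        cases b1 <;> cases ε k1 <;> simp
      rw [hb1', ← h3] at h1
      have := (hookPos_st_inj (c.injective h1)).1
      rw [(hev k hk).2.1] at this
      have := π'.injective this
      rw [this] at hk; exact hk hb
  -- `π⁻¹ π'` preserves parity
  have hpar : ∀ k k', π k = π' k' → β (T (sx k')).1 = 0 → β (T (sx k)).1 = 0 := by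
    intro k k' hkk hk'
    by_contra hk
    rw [(hev k hk).2.1] at hkk
    rw [π'.injective hkk] at hk
    exact hk hk'
  have hpar' : ∀ k k', π k = π' k' → β (T (sx k)).1 = 0 → β (T (sx k')).1 = 0 := by
    intro k k' hkk hk
    by_contra hk'
    rw [← (hev k' hk').2.1] at hkk
    rw [π.injective hkk] at hk
    exact hk' hk
  -- the pairs `π k`, `k` odd, are mapped to odd sites
  have hO : ∀ k, β (T (sx k)).1 = 0 → ∀ b, β (T (c (hookPos_st (π k) b))).1 = 0 := by
    intro k hk b
    obtain ⟨-, b2, -, h2, -, -⟩ := hodd k hk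
    by_cases hb : b = b2
    · rw [hb, h2, hookPos_ev_st h]; exact hk
    · set k' := π'.symm (π k) with hk'
      have e : π k = π' k' := by rw [hk', apply_symm_apply]
      have hk'o := hpar' k k' e hk
      obtain ⟨-, -, b3, -, h3, -⟩ := hodd k' hk'o
      rw [← e] at h3
      have hb3 : b3 ≠ b2 := by
        rintro rfl
        obtain ⟨e1, e2⟩ := hookPos_st_inj (h2.symm.trans h3)
        rw [← e1] at e2
        cases hε : ε k <;> simp [hε] at e2
      have : b = b3 := by
        clear h2 h3
        revert hb hb3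
        cases b <;> cases b2 <;> cases b3 <;> simp
      rw [this, h3, hookPos_ev_st h]; exact hk'o
  -- the matching of the even pairs
  have hmatch : ∀ k, ∃ (k' : Fin a) (b : Bool),
      (β (T (sx k)).1 ≠ 0 → β (T (sx k')).1 ≠ 0 ∧ ((k' : ℕ) < i ↔ (π k : ℕ) < i) ∧
        c (hookPos_st (π k) b) = sx k' ∧ c (hookPos_st (π k) (!b)) = sy k' ∧
        (if b then -1 else 1) * hookPos_G i T β c (π k) (π' k) k (ε k) = hookPos_B i T β k') ∧
      (β (T (sx k)).1 = 0 → k' = k ∧ c (hookPos_st (π k) b) = hookPos_st k (ε k)) := by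
    intro k
    by_cases hk : β (T (sx k)).1 = 0
    · obtain ⟨-, b2, -, h2, -, -⟩ := hodd k hk
      exact ⟨k, b2, fun h' => absurd hk h', fun _ => ⟨rfl, h2⟩⟩
    have hx := hE k hk false
    have hy := hE k hk true
    rw [hookPos_st_false] at hx
    rw [hookPos_st_true] at hy
    obtain ⟨-, -, hGk⟩ := hev k hk
    have hGn := hG k
    rw [hGk] at hGn ⊢
    by_cases hl : (π k : ℕ) < i
    · rw [if_pos hl] at hGn ⊢
      have hcol := h.hω _ hl
      -- the exceptional case is impossible
      have hexc : ¬ ((T (sx (π k))).2 = 0 ∧ (∃ t, (T t).2 = 1 ∧ β (T t).1 ≠ 0) ∧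
          ∀ t, (T t).2 = 1 → ∃ l₂ : Fin a, t = sy l₂ ∧ (T (sx l₂)).2 = 0) := by
        rintro ⟨e0, ⟨t, ht1, ht2⟩, hall⟩
        obtain ⟨l3, hl3, hl3'⟩ := hall (c.symm t) (by rw [← hc, apply_symm_apply]; exact ht1)
        have ht : c (sy l3) = t := by rw [← hl3, apply_symm_apply]
        set k3 := π.symm l3 with hk3
        have e3 : π k3 = l3 := by rw [hk3, apply_symm_apply]
        have hk3e : β (T (sx k3)).1 ≠ 0 := by
          intro hh
          have := hO k3 hh true
          rw [hookPos_st_true, e3, ht] at this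
          exact ht2 this
        have hz := hE k3 hk3e false
        rw [hookPos_st_false, e3] at hz
        have hne : l3 ≠ π k := by
          intro e
          have h1 : (T (sy l3)).2 = 1 := by rw [← hc, ht]; exact ht1
          rw [e, ← hcol, e0] at h1
          exact absurd h1 (by norm_num)
        have c1 : (T (c (sx (π k)))).2 = 0 := by rw [hc, e0]
        have c2 : (T (c (sy (π k)))).2 = 0 := by rw [hc, ← hcol, e0]
        have c3 : (T (c (sx l3))).2 = 0 := by rw [hc, hl3']
        have n12 : T (c (sx (π k))) ≠ T (c (sy (π k))) := fun e => by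
          have := hookPos_st_inj (k := π k) (l := π k) (b := false) (b' := true)
            (c.injective (h.inj e))
          simp at this
        have n13 : T (c (sx (π k))) ≠ T (c (sx l3)) := fun e =>
          hne (hookPos_st_inj (k := π k) (l := l3) (b := false) (b' := false)
            (c.injective (h.inj e))).1.symm
        have n23 : T (c (sy (π k))) ≠ T (c (sx l3)) := fun e =>
          hne (hookPos_st_inj (k := π k) (l := l3) (b := true) (b' := false)
            (c.injective (h.inj e))).1.symm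
        rcases hookPos_row h hx with ⟨r1, -⟩ | ⟨r1, -⟩ <;>
          rcases hookPos_row h hy with ⟨r2, -⟩ | ⟨r2, -⟩ <;>
          rcases hookPos_row h hz with ⟨r3, -⟩ | ⟨r3, -⟩ <;>
          first
            | exact n12 (Prod.ext (r1.trans r2.symm) (c1.trans c2.symm))
            | exact n13 (Prod.ext (r1.trans r3.symm) (c1.trans c3.symm))
            | exact n23 (Prod.ext (r2.trans r3.symm) (c2.trans c3.symm))
      rcases hookPos_row h hx with ⟨r1, b1⟩ | ⟨r1, b1⟩ <;>
        rcases hookPos_row h hy with ⟨r2, b2⟩ | ⟨r2, b2⟩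
      · rw [b1, b2] at hGn; exact absurd (by norm_num) hGn
      · rcases h.hθω _ hl (c (sx (π k))) (c (sy (π k))) (hc _) (by rw [hc, hcol]) r1 r2
          (by rw [← r2]; exact hy) with ⟨l', hl', e1, e2⟩ | hh
        · have hl'e : β (T (sx l')).1 ≠ 0 := by rw [← e1]; exact hx
          refine ⟨l', false, fun _ => ⟨hl'e, iff_of_true hl' hl, e1, e2, ?_⟩,
            fun hh => absurd hh hk⟩
          rw [b1, b2]
          unfold hookPos_B
          rw [if_pos hl'e, if_pos hl']; norm_num
        · exact absurd hh hexc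
      · rcases h.hθω _ hl (c (sy (π k))) (c (sx (π k))) (by rw [hc, hcol]) (hc _) r2 r1
          (by rw [← r1]; exact hx) with ⟨l', hl', e1, e2⟩ | hh
        · have hl'e : β (T (sx l')).1 ≠ 0 := by rw [← e1]; exact hy
          refine ⟨l', true, fun _ => ⟨hl'e, iff_of_true hl' hl, e1, e2, ?_⟩,
            fun hh => absurd hh hk⟩
          rw [b1, b2]
          unfold hookPos_B
          rw [if_pos hl'e, if_pos hl']; norm_num
        · exact absurd hh hexc
      · rw [b1, b2] at hGn; exact absurd (by norm_num) hGn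
    · rw [if_neg hl] at hGn ⊢
      have hrow : (T (c (sx (π k)))).1 = (T (c (sy (π k)))).1 := by
        rcases hookPos_row h hx with ⟨r1, b1⟩ | ⟨r1, b1⟩ <;>
          rcases hookPos_row h hy with ⟨r2, b2⟩ | ⟨r2, b2⟩
        · rw [r1, r2]
        · rw [b1, b2] at hGn; exact absurd (by norm_num) hGn
        · rw [b1, b2] at hGn; exact absurd (by norm_num) hGn
        · rw [r1, r2]
      obtain ⟨l', hl', e1, e2⟩ := h.hθq _ (by omega) (c (sx (π k))) (c (sy (π k))) (hc _) (hc _)
        hx hrow
      have hl'e : β (T (sx l')).1 ≠ 0 := by rw [← e1]; exact hx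
      refine ⟨l', false, fun _ => ⟨hl'e, iff_of_false (by omega) hl, e1, e2, ?_⟩,
        fun hh => absurd hh hk⟩
      unfold hookPos_B
      rw [if_pos hl'e, if_neg (show ¬ (l' : ℕ) < i by omega), ← hrow, e1]
      simp only [Bool.false_eq_true, if_false]; ring
  choose τ b hτe hτo using hmatch
  have hτinj : Function.Injective τ := by
    intro k1 k2 e
    by_cases h1 : β (T (sx k1)).1 = 0 <;> by_cases h2 : β (T (sx k2)).1 = 0
    · rw [← (hτo k1 h1).1, ← (hτo k2 h2).1, e]
    · have := (hτe k2 h2).1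
      rw [← e, (hτo k1 h1).1] at this
      exact absurd h1 this
    · have := (hτe k1 h1).1
      rw [e, (hτo k2 h2).1] at this
      exact absurd h2 this
    · have e1 := (hτe k1 h1).2.2.1
      have e2 := (hτe k2 h2).2.2.1
      rw [e, ← e2] at e1
      exact π.injective (hookPos_st_inj (c.injective e1)).1
  set τe : Perm (Fin a) := Equiv.ofBijective τ (Finite.injective_iff_bijective.1 hτinj) with hτdef
  have hτe_apply : ∀ k, τe k = τ k := fun k => rfl
  set ε' : Fin a → Bool := fun l => b (π.symm l) with hε'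
  have hε'π : ∀ k, ε' (π k) = b k := fun k => by simp [hε']
  -- the d-sites of the odd indices
  have hdodd : ∀ k, β (T (sx k)).1 = 0 →
      c (hookPos_st (π' k) (!(ε' (π' k)))) = hookPos_st k (!(ε k)) ∧
      hookPos_G i T β c (π k) (π' k) k (ε k) = (if b k then -1 else 1) *
        (if ε' (π' k) then 1 else (if (π' k : ℕ) < i then 1 else -1)) := by
    intro k hk
    obtain ⟨-, b2, b3, h2, h3, hGk⟩ := hodd k hk
    have e2 : b2 = b k :=
      (hookPos_st_inj (c.injective (h2.trans (hτo k hk).2.symm))).2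
    set k' := π.symm (π' k) with hk'
    have e : π k' = π' k := by rw [hk', apply_symm_apply]
    have hk'o := hpar k' k e hk
    have h4 := (hτo k' hk'o).2
    rw [e] at h4
    have hb3 : b3 ≠ b k' := by
      intro e3
      rw [e3] at h3
      obtain ⟨e1, e2⟩ := hookPos_st_inj (h3.symm.trans h4)
      rw [← e1] at e2
      cases hε : ε k <;> simp [hε] at e2
    have e4 : ε' (π' k) = b k' := rfl
    have e5 : b3 = !(b k') := by
      clear h3 hGk
      revert hb3
      cases b3 <;> cases b k' <;> simp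
    rw [e4, ← e5]
    refine ⟨h3, ?_⟩
    rw [hGk, e2, e5]
    cases b k' <;> simp
  have hsign := sign_pairs c (π * τe⁻¹) (π' * τe⁻¹) ε ε' hc0 (by
      intro k'
      obtain ⟨k, rfl⟩ := τe.surjective k'
      simp only [Perm.mul_apply, Perm.coe_inv, symm_apply_apply]
      rw [hε'π, hτe_apply]
      by_cases hk : β (T (sx k)).1 = 0
      · rw [(hτo k hk).1]; exact (hτo k hk).2
      · rw [(hev _ (hτe k hk).1).1]; exact (hτe k hk).2.2.1) (by
      intro k'
      obtain ⟨k, rfl⟩ := τe.surjective k'
      simp only [Perm.mul_apply, Perm.coe_inv, symm_apply_apply]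
      rw [hτe_apply, ← hookPos_st_not, ← hookPos_st_not]
      by_cases hk : β (T (sx k)).1 = 0
      · rw [(hτo k hk).1]; exact (hdodd k hk).1
      · rw [(hev _ (hτe k hk).1).1, ← (hev k hk).2.1, hε'π]; exact (hτe k hk).2.2.2.1)
  -- the flips of the odd indices
  have hflip : ∀ k, β (T (sx k)).1 = 0 → (ε k = true ↔ (i ≤ (π k : ℕ) ∧ b k = true)) := by
    intro k hk
    have hcs := (hτo k hk).2
    have hcol : (T (hookPos_st k (ε k))).2 = (T (hookPos_st (π k) (b k))).2 := by
      rw [← hcs, hc]
    have o1 := h.hodd _ (hO k hk false)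
    have o2 := h.hodd _ (hO k hk true)
    rw [hc, hookPos_st_false] at o1
    rw [hc, hookPos_st_true] at o2
    have o3 := h.hodd _ hk
    have o4 := h.hodd _ ((h.hev k).1 hk)
    have hk1 : (T (hookPos_st k (ε k))).2 = if ε k then 1 else 0 := by
      by_cases hki : (k : ℕ) < i
      · have : ε k = false := by
          cases hε : ε k
          · rfl
          · have := (hodd k hk).1 hε; omega
        rw [this, hookPos_st_false]
        simpa using h.hω0 k hki o3
      · obtain ⟨q1, q2⟩ := h.hq01 k (by omega) o3 o4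
        cases ε k
        · simpa [hookPos_st_false] using q1
        · simpa [hookPos_st_true] using q2
    rw [hk1] at hcol
    by_cases hl : (π k : ℕ) < i
    · have q1 := h.hω0 _ hl o1
      have q2 := h.hω _ hl
      have : (T (hookPos_st (π k) (b k))).2 = 0 := by
        cases b k
        · exact q1
        · rw [hookPos_st_true, ← q2, q1]
      rw [this] at hcol
      constructor
      · intro hε; simp [hε] at hcol
      · intro hh; omega
    · obtain ⟨q1, q2⟩ := h.hq01 _ (by omega) o1 o2
      cases hb : b k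
      · rw [hb, hookPos_st_false, q1] at hcol
        constructor
        · intro hε; simp [hε] at hcol
        · intro hh; simp at hh
      · rw [hb, hookPos_st_true, q2] at hcol
        constructor
        · intro _; exact ⟨by omega, rfl⟩
        · intro _
          cases hε : ε k
          · simp [hε] at hcol
          · rfl
  -- bookkeeping
  set η : Fin a → ℤ := fun l => if (l : ℕ) < i then 1 else -1 with hη
  have hηη : ∀ l, η l * η l = 1 := fun l => by simp only [hη]; split_ifs <;> norm_num
  set W : Fin a → ℤ := fun l =>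
    if β (T (sx (π.symm l))).1 = 0 then (if ε' l then 1 else η l) else 1 with hW
  set H : Fin a → ℤ := fun k =>
    if β (T (sx k)).1 = 0 then (if b k then -1 else 1)
    else hookPos_G i T β c (π k) (π' k) k (ε k) with hH
  have hGW : ∀ k, hookPos_G i T β c (π k) (π' k) k (ε k) = H k * W (π' k) := by
    intro k
    by_cases hk : β (T (sx k)).1 = 0
    · have hk' := hpar (π.symm (π' k)) k (by rw [apply_symm_apply]) hk
      simp only [hH, hW, if_pos hk, if_pos hk']
      exact (hdodd k hk).2
    · have hk' : ¬ β (T (sx (π.symm (π' k)))).1 = 0 := by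
        rw [← (hev k hk).2.1, symm_apply_apply]; exact hk
      simp only [hH, hW, if_neg hk, if_neg hk', mul_one]
  have hWW : ∏ k, W (π' k) = ∏ k, W (π k) := by
    rw [Equiv.prod_comp π' W, Equiv.prod_comp π W]
  have hε'prod : (∏ l, if ε' l then (-1 : ℤ) else 1) = ∏ k, if b k then (-1 : ℤ) else 1 := by
    rw [← Equiv.prod_comp π (fun l => if ε' l then (-1 : ℤ) else 1)]
    exact Finset.prod_congr rfl fun k _ => by rw [hε'π]
  have hfac : ∀ k, (if ε k then (-1 : ℤ) else 1) * (if b k then (-1 : ℤ) else 1) * (H k * W (π k)) =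
      hookPos_B i T β (τe k) * η (τe k) * η (π k) := by
    intro k
    rw [hτe_apply]
    by_cases hk : β (T (sx k)).1 = 0
    · have hB : hookPos_B i T β k = η k := by
        unfold hookPos_B; rw [if_neg (by simpa using hk)]
      rw [(hτo k hk).1, hB, hηη]
      simp only [hH, hW, symm_apply_apply, if_pos hk, hε'π]
      have hf := hflip k hk
      by_cases hl : (π k : ℕ) < i
      · have : ε k = false := by
          cases hε : ε k
          · rfl
          · have := (hf.1 hε).1; omega
        cases hb : b k <;> simp [this, hη, hl]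
      · cases hb : b k
        · have : ε k = false := by
            cases hε : ε k
            · rfl
            · have := (hf.1 hε).2; simp [hb] at this
          simp [this]
        · have : ε k = true := hf.2 ⟨by omega, hb⟩
          simp [this, hη, hl]
    · obtain ⟨-, h2, -, -, h5⟩ := hτe k hk
      have hηe : η (τ k) = η (π k) := by
        simp only [hη]
        by_cases hl : (π k : ℕ) < i
        · rw [if_pos hl, if_pos (h2.2 hl)]
        · rw [if_neg hl, if_neg (fun hh => hl (h2.1 hh))]
      rw [hηe, mul_assoc (hookPos_B i T β (τ k)), hηη, ← h5, (hev k hk).1]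
      simp only [hH, hW, symm_apply_apply, if_neg hk, (hev k hk).1]
      simp
  have hsτ : ((Perm.sign τe : ℤˣ) : ℤ) * (Perm.sign τe : ℤ) = 1 := by
    rcases Int.units_eq_one_or (Perm.sign τe) with h | h <;> simp [h]
  have hsπ : ((Perm.sign π : ℤˣ) : ℤ) * (Perm.sign π : ℤ) = 1 := by
    rcases Int.units_eq_one_or (Perm.sign π) with h | h <;> simp [h]
  have hsπ' : ((Perm.sign π' : ℤˣ) : ℤ) * (Perm.sign π' : ℤ) = 1 := by
    rcases Int.units_eq_one_or (Perm.sign π') with h | h <;> simp [h]
  have hηprod : (∏ k, η k) * (∏ k, η k) = 1 := by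
    rw [← Finset.prod_mul_distrib]; exact Finset.prod_eq_one fun k _ => hηη k
  have hall := Finset.prod_congr (rfl : (univ : Finset (Fin a)) = univ) fun k _ => hfac k
  simp only [Finset.prod_mul_distrib] at hall
  rw [Equiv.prod_comp τe (hookPos_B i T β), Equiv.prod_comp τe η, Equiv.prod_comp π η,
    mul_assoc (∏ k, hookPos_B i T β k), hηprod, mul_one] at hall
  rw [← hall, hsign, hε'prod, Finset.prod_congr rfl fun k _ => hGW k, Finset.prod_mul_distrib, hWW]
  simp only [Perm.sign_mul, Perm.sign_inv, Units.val_mul]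
  set A := ((Perm.sign π : ℤˣ) : ℤ)
  set A' := ((Perm.sign π' : ℤˣ) : ℤ)
  set D := ((Perm.sign τe : ℤˣ) : ℤ)
  set E1 := ∏ k, if ε k then (-1 : ℤ) else 1
  set E2 := ∏ k, if b k then (-1 : ℤ) else 1
  set P := (∏ k, H k) * ∏ k, W (π k)
  calc A * D * (A' * D) * E1 * E2 * (A * A' * P)
      = (A * A) * (A' * A') * (D * D) * (E1 * E2 * P) := by ring
    _ = E1 * E2 * P := by rw [hsπ, hsπ', hsτ]; ring

/-- All terms of `tV` have the same sign and the term `c = 1, π = π' = 1` is nonzero.
Call a pair `k` even if `β (T (sx k)).1 ≠ 0`.  Expand the factor of an odd index `k ≥ i` into its two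
terms (`ε k`); for an odd index the "c-site" is `sx k` (or `sy k` if `ε k`), the "d-site" the other
one.  In a nonzero term: `c 0 = 0`; `π k = π' k` for even `k` (disjoint supports; `dmat` vanishes
at `0`); `c⁻¹` of the c-site of `k` lies in the pair `π k`, `c⁻¹` of the d-site in the pair `π' k`,
so the pairs `π k` (`k` odd) are mapped onto the odd sites and all other pairs onto even sites;
`hθq`/`hθω` match every even target pair with an even pair `θ l` of the same type (the exceptional
case of `hθω` would give three even sites in column `0`); redefine `π, π'` on even indices by `θ⁻¹`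
(the product of the signs is unchanged) and apply `sign_pairs`.  Counting in column `1`: the number
of `ε`-flips equals the number of flipped odd horizontal target pairs, and the number of odd
horizontal target pairs is the number of odd horizontal pairs. -/
theorem tV_ne_zero {a i : ℕ} {T : Fin (2 * a + 1) → ℕ × ℕ} {β : ℕ → ℤ} (h : Domino a i T β) :
    tV i T β ≠ 0 := by
  classical
  set V := ∏ k, hookPos_B i T β k with hV
  have hV0 : V ≠ 0 := Finset.prod_ne_zero_iff.2 fun k _ => hookPos_B_ne i T β k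
  have hexp : tV i T β = ∑ c ∈ stab univ (colf T), ∑ π : Perm (Fin a), ∑ π' : Perm (Fin a),
      ∑ ε : Fin a → Bool, (Perm.sign c : ℤ) * ((Perm.sign π : ℤ) * (Perm.sign π' : ℤ) *
        ∏ k, hookPos_G i T β c (π k) (π' k) k (ε k)) := by
    unfold tV
    refine Finset.sum_congr rfl fun c _ => ?_
    rw [Finset.mul_sum]
    refine Finset.sum_congr rfl fun π _ => ?_
    rw [Finset.mul_sum]
    refine Finset.sum_congr rfl fun π' _ => ?_
    simp only [hookPos_F_eq]
    rw [Finset.prod_univ_sum, Fintype.piFinset_univ, Finset.mul_sum, Finset.mul_sum]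
  have hnn : ∀ c ∈ stab univ (colf T), ∀ (π π' : Perm (Fin a)) (ε : Fin a → Bool),
      0 ≤ V * ((Perm.sign c : ℤ) * ((Perm.sign π : ℤ) * (Perm.sign π' : ℤ) *
        ∏ k, hookPos_G i T β c (π k) (π' k) k (ε k))) := by
    intro c hc π π' ε
    by_cases hG : ∀ k, hookPos_G i T β c (π k) (π' k) k (ε k) ≠ 0
    · rw [hookPos_term h (fun s => (mem_stab.1 hc).2 s) π π' ε hG]
      exact mul_self_nonneg _
    · push Not at hG
      obtain ⟨k, hk⟩ := hG
      rw [Finset.prod_eq_zero (mem_univ k) hk]
      simp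
  have hpos : 0 < V * tV i T β := by
    rw [hexp, Finset.mul_sum]
    refine Finset.sum_pos' (fun c hc => ?_) ⟨1, one_mem_stab _ _, ?_⟩
    · rw [Finset.mul_sum]
      refine Finset.sum_nonneg fun π _ => ?_
      rw [Finset.mul_sum]
      refine Finset.sum_nonneg fun π' _ => ?_
      rw [Finset.mul_sum]
      exact Finset.sum_nonneg fun ε _ => hnn c hc π π' ε
    · have h1 := hnn 1 (one_mem_stab _ _)
      rw [Finset.mul_sum]
      refine Finset.sum_pos' (fun π _ => ?_) ⟨1, mem_univ _, ?_⟩
      · rw [Finset.mul_sum]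
        refine Finset.sum_nonneg fun π' _ => ?_
        rw [Finset.mul_sum]
        exact Finset.sum_nonneg fun ε _ => h1 π π' ε
      · rw [Finset.mul_sum]
        refine Finset.sum_pos' (fun π' _ => ?_) ⟨1, mem_univ _, ?_⟩
        · rw [Finset.mul_sum]
          exact Finset.sum_nonneg fun ε _ => h1 1 π' ε
        · rw [Finset.mul_sum]
          refine Finset.sum_pos' (fun ε _ => h1 1 1 ε) ⟨fun _ => false, mem_univ _, ?_⟩
          simp only [Perm.sign_one, Units.val_one, one_mul, Perm.coe_one, id, hookPos_base h]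
          exact mul_self_pos.2 hV0
  intro h0
  rw [h0, mul_zero] at hpos
  exact lt_irrefl _ hpos

end Crest.Agent.R195
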