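/- Row 195, task HookTest: from the mixed discriminant to `GoodVec`. -/
import Crest.Agent.R195.HookPos

set_option autoImplicit false

namespace Crest.Agent.R195

open Equiv Finset

variable {ι : Type} [Fintype ι] [DecidableEq ι]

/-- the bilinear form attached to a family of matrices -/
noncomputable def HookTest_B {a : ℕ} (M : Fin a → ι → ι → ℂ) : WM ι →ₗ[ℂ] WM ι →ₗ[ℂ] ℂ :=
  ∑ p : Fin a ↪ ι, ∑ p' : Fin a ↪ ι, (∏ k, M k (p k) (p' k)) •
    (LinearMap.mul ℂ ℂ).compl₁₂ (Finsupp.lapply (wword p)) (Finsupp.lapply (wword p'))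

theorem HookTest_B_apply {a : ℕ} (M : Fin a → ι → ι → ℂ) (u w : WM ι) :
    HookTest_B M u w = ∑ p : Fin a ↪ ι, ∑ p' : Fin a ↪ ι,
      (∏ k, M k (p k) (p' k)) * (u (wword p) * w (wword p')) := by
  simp [HookTest_B, LinearMap.sum_apply]

theorem HookTest_B_wrep {a : ℕ} (M : Fin a → ι → ι → ℂ) (g : Perm ι) (u w : WM ι) :
    HookTest_B M (wrep ι g u) (wrep ι g w) =
      HookTest_B (fun k s s' => M k (g s) (g s')) u w := by
  rw [HookTest_B_apply, HookTest_B_apply,
    ← Equiv.sum_comp (Equiv.embeddingCongr (Equiv.refl (Fin a)) g)]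
  refine Finset.sum_congr rfl fun p _ => ?_
  rw [← Equiv.sum_comp (Equiv.embeddingCongr (Equiv.refl (Fin a)) g)]
  refine Finset.sum_congr rfl fun p' _ => ?_
  have key : ∀ q : Fin a ↪ ι,
      wword (Equiv.embeddingCongr (Equiv.refl (Fin a)) g q) ∘ g = wword q := by
    intro q
    rw [wword_comp]
    congr 1
    funext j
    simp
  rw [wrep_apply, wrep_apply, key, key]
  simp

omit [DecidableEq ι] in
theorem HookTest_sum_emb {a : ℕ} (f : (Fin a → ι) → ℂ)
    (hf : ∀ p, ¬ Function.Injective p → f p = 0) :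
    ∑ p : Fin a ↪ ι, f p = ∑ p : Fin a → ι, f p := by
  refine Fintype.sum_of_injective (fun p : Fin a ↪ ι => (p : Fin a → ι)) DFunLike.coe_injective
    _ _ (fun p hp => hf p fun h => hp ⟨⟨p, h⟩, rfl⟩) fun _ => rfl

omit [Fintype ι] [DecidableEq ι] in
theorem HookTest_det_zero {a : ℕ} (x : Matrix (Fin a) ι ℂ) (p : Fin a → ι)
    (hp : ¬ Function.Injective p) : (x.submatrix id p).det = 0 := by
  obtain ⟨j, j', h, hne⟩ := Function.not_injective_iff.1 hp
  exact Matrix.det_zero_of_column_eq hne fun k => by simp [h]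

theorem HookTest_B_wedge {a : ℕ} (M : Fin a → ι → ι → ℂ) (x y : Matrix (Fin a) ι ℂ) :
    HookTest_B M (wedge x) (wedge y) = ∑ π : Perm (Fin a), ∑ π' : Perm (Fin a),
      sg π * sg π' * ∏ k, ∑ s, ∑ s', x (π k) s * M k s s' * y (π' k) s' := by
  rw [HookTest_B_apply]
  simp only [wedge_apply]
  have h1 : ∀ p : Fin a → ι, ∑ p' : Fin a ↪ ι, (∏ k, M k (p k) (p' k)) *
      ((x.submatrix id p).det * (y.submatrix id p').det) = ∑ p' : Fin a → ι,
        (∏ k, M k (p k) (p' k)) * ((x.submatrix id p).det * (y.submatrix id p').det) := by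
    intro p
    exact HookTest_sum_emb (fun p' => (∏ k, M k (p k) (p' k)) *
      ((x.submatrix id p).det * (y.submatrix id p').det)) fun p' hp' => by
        simp only [HookTest_det_zero y p' hp', mul_zero]
  simp only [h1]
  rw [HookTest_sum_emb (fun p => ∑ p' : Fin a → ι,
        (∏ k, M k (p k) (p' k)) * ((x.submatrix id p).det * (y.submatrix id p').det))
      fun p hp => by simp only [HookTest_det_zero x p hp, zero_mul, mul_zero, Finset.sum_const_zero]]
  have h2 : ∀ π π' : Perm (Fin a), ∏ k, ∑ s, ∑ s', x (π k) s * M k s s' * y (π' k) s' =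
      ∑ p : Fin a → ι, ∑ p' : Fin a → ι, ∏ k, x (π k) (p k) * M k (p k) (p' k) * y (π' k) (p' k) := by
    intro π π'
    rw [Fintype.prod_sum]
    refine Finset.sum_congr rfl fun p _ => ?_
    rw [Fintype.prod_sum]
  simp only [h2, Finset.mul_sum, Matrix.det_apply', Finset.sum_mul]
  symm
  rw [Finset.sum_comm]
  conv_lhs => enter [2, π']; rw [Finset.sum_comm]
  rw [Finset.sum_comm]
  refine Finset.sum_congr rfl fun p _ => ?_
  conv_lhs => enter [2, π']; rw [Finset.sum_comm]
  rw [Finset.sum_comm]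
  refine Finset.sum_congr rfl fun p' _ => ?_
  refine Finset.sum_congr rfl fun π' _ => Finset.sum_congr rfl fun π _ => ?_
  simp only [Finset.prod_mul_distrib, sg, Matrix.submatrix_apply, id]
  ring

theorem HookTest_tM_row {a i : ℕ} {T : Fin (2 * a + 1) → ℕ × ℕ} {β : ℕ → ℤ} (h : Domino a i T β)
    {r : Perm (Fin (2 * a + 1))} (hr : ∀ s, (T (r s)).1 = (T s).1) (k : Fin a)
    (s s' : Fin (2 * a + 1)) : tM i T β k (r s) (r s') = tM i T β k s s' := by
  unfold tM
  by_cases h1 : β (T (sx k)).1 ≠ 0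
  · rw [if_pos h1, if_pos h1, hr]
    simp only [EmbeddingLike.apply_eq_iff_eq]
  · rw [if_neg h1, if_neg h1]
    have h1' : β (T (sx k)).1 = 0 := not_not.1 h1
    by_cases h2 : (k : ℕ) < i
    · rw [if_pos h2, if_pos h2]
      obtain ⟨hx, hy⟩ := h.hrowω k h2 h1'
      have e1 : ∀ t, r t = sx k ↔ t = sx k := fun t =>
        ⟨fun ht => hx t (by rw [← hr t, ht]), fun ht => hx _ (by rw [hr, ht])⟩
      have e2 : ∀ t, r t = sy k ↔ t = sy k := fun t =>
        ⟨fun ht => hy t (by rw [← hr t, ht]), fun ht => hy _ (by rw [hr, ht])⟩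
      simp only [e1, e2]
    · rw [if_neg h2, if_neg h2]
      have h2' : i ≤ (k : ℕ) := not_lt.1 h2
      have hrow := h.hrowq k h2' h1'
      have hq := h.hq k h2'
      have hne : sx k ≠ sy k := by
        intro h'
        have := congrArg Fin.val h'
        simp [sx, sy] at this
      have key : ∀ t t' : Fin (2 * a + 1),
          ((t = sx k ∧ t' = sy k) ∨ (t = sy k ∧ t' = sx k)) ↔
            (t ≠ t' ∧ (T t).1 = (T (sx k)).1 ∧ (T t').1 = (T (sx k)).1) := by
        intro t t'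
        constructor
        · rintro (⟨rfl, rfl⟩ | ⟨rfl, rfl⟩)
          · exact ⟨hne, rfl, hq.symm⟩
          · exact ⟨hne.symm, hq.symm, rfl⟩
        · rintro ⟨h3, h4, h5⟩
          rcases hrow t h4 with rfl | rfl <;> rcases hrow t' h5 with h6 | h6
          · exact absurd h6.symm h3
          · exact Or.inl ⟨rfl, h6⟩
          · exact Or.inr ⟨rfl, h6⟩
          · exact absurd h6.symm h3
      simp only [key, hr, ne_eq, EmbeddingLike.apply_eq_iff_eq]

/-- `goodVec_of_bilin` with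
`B u w = ∑ p p' : Fin a ↪ _, (∏ k, tM i T β k (p k) (p' k)) * u (wword p) * w (wword p')` -/
theorem goodVec_of_domino {a i : ℕ} {T : Fin (2 * a + 1) → ℕ × ℕ} {β : ℕ → ℤ} (h : Domino a i T β)
    {ν : YoungDiagram} (hT : IsTab univ T ν) :
    GoodVec (wedge ((dmat a).map (Int.cast : ℤ → ℂ))) (wedge ((wmat a i).map (Int.cast : ℤ → ℂ))) ν := by
  refine goodVec_of_bilin hT (HookTest_B fun k s s' => (tM i T β k s s' : ℂ)) ?_ 1 ?_
  · intro r hr u w
    rw [HookTest_B_wrep]
    have hr' : ∀ s, (T (r s)).1 = (T s).1 := (mem_stab.1 hr).2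
    simp only [HookTest_tM_row h hr']
  · have h1 : ((tV i T β : ℤ) : ℂ) ≠ 0 := Int.cast_ne_zero.2 (tV_ne_zero h)
    convert h1 using 1
    rw [tV]
    push_cast
    refine Finset.sum_congr rfl fun c _ => ?_
    rw [mul_one, HookTest_B_wrep, HookTest_B_wedge]
    simp only [sg, Matrix.map_apply]

end Crest.Agent.R195
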