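/- Row 195, task HookF: the hook step: all double hooks occur. -/
import Crest.Agent.R195.HookTest
import Crest.Agent.R195.DominoEx
import Crest.Agent.R195.Twist

set_option autoImplicit false

namespace Crest.Agent.R195

open Equiv Finset

variable {ι : Type} [Fintype ι] [DecidableEq ι]

theorem hookF_hk1_spec (a : ℕ) (p : Fin (2 * a + 1)) :
    ((p : ℕ) % 2 = 0 ∧ (hk1 a p).1 = 0 ∧ (hk1 a p).2 = (2 * a - p) / 2) ∨
      ((p : ℕ) % 2 = 1 ∧ (hk1 a p).1 = (2 * a + 1 - p) / 2 ∧ (hk1 a p).2 = 0) := by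
  unfold hk1
  split_ifs with h
  · exact Or.inl ⟨h, rfl, rfl⟩
  · exact Or.inr ⟨by omega, rfl, rfl⟩

theorem isTab_hk1 (a : ℕ) : IsTab univ (hk1 a) (hook a) := by
  refine isTab_of_card (fun p _ => ?_) (fun p _ q _ h => ?_) (by simp [card_hook])
  · rw [mem_hook]
    have := hookF_hk1_spec a p
    omega
  · have h1 := hookF_hk1_spec a p
    have h2 := hookF_hk1_spec a q
    have h3 := congrArg Prod.fst h
    have h4 := congrArg Prod.snd h
    have := p.isLt
    have := q.isLt
    exact Fin.ext (by omega)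
theorem std_hk1 (a : ℕ) {τ : Fin (2 * a + 1) → ℤ} (hτ : StrictMono τ) :
    Std (-τ) (hk1 a) (hook a) := by
  refine ⟨fun p q h => hτ.injective (neg_injective h), isTab_hk1 a, fun p q h => ?_⟩
  have h1 := hookF_hk1_spec a p
  have h2 := hookF_hk1_spec a q
  have h3 := h.1
  have h4 := h.2
  have := p.isLt
  have := q.isLt
  exact neg_le_neg (hτ.monotone (show (q : ℕ) ≤ p by omega))

/-- rows `η_k = ∑_{p > 2k+1} e_p - (2a - (2k+1)) e_{2k+1}` -/
noncomputable def etaMat (a : ℕ) : Matrix (Fin a) (Fin (2 * a + 1)) ℂ := fun k p =>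
  if (p : ℕ) = 2 * k + 1 then -((2 * a : ℂ) - (2 * k + 1)) else if 2 * k + 1 < (p : ℕ) then 1 else 0

theorem hookF_card_hookShape {μ : YoungDiagram} {a : ℕ} (h : μ ≤ hook a) (h0 : (0, 0) ∈ μ) :
    μ.card + 1 = μ.rowLen 0 + μ.colLen 0 := by
  have e1 : μ.row 0 ∪ μ.col 0 = μ.cells := by
    ext c
    simp only [mem_union, YoungDiagram.mem_row_iff, YoungDiagram.mem_col_iff,
      YoungDiagram.mem_cells]
    constructor
    · rintro (h' | h') <;> exact h'.1
    · intro hc
      rcases (mem_hook.1 (h hc)).2.2 with h' | h'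
      · exact Or.inl ⟨hc, h'⟩
      · exact Or.inr ⟨hc, h'⟩
  have e2 : μ.row 0 ∩ μ.col 0 = {(0, 0)} := by
    ext c
    simp only [mem_inter, YoungDiagram.mem_row_iff, YoungDiagram.mem_col_iff, mem_singleton]
    constructor
    · rintro ⟨h1, h2⟩
      exact Prod.ext h1.2 h2.2
    · rintro rfl
      exact ⟨⟨h0, rfl⟩, h0, rfl⟩
  have := card_union_add_card_inter (μ.row 0) (μ.col 0)
  rw [e1, e2, card_singleton, ← YoungDiagram.rowLen_eq_card, ← YoungDiagram.colLen_eq_card] at this
  exact this

theorem hookF_le_of_hookShape {ρ μ : YoungDiagram} {a : ℕ} (h : ρ ≤ hook a)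
    (h1 : ρ.rowLen 0 ≤ μ.rowLen 0) (h2 : ρ.colLen 0 ≤ μ.colLen 0) : ρ ≤ μ := by
  rintro ⟨x, y⟩ hc
  rcases (mem_hook.1 (h hc)).2.2 with h' | h'
  · obtain rfl : x = 0 := h'
    exact YoungDiagram.mem_iff_lt_rowLen.2 ((YoungDiagram.mem_iff_lt_rowLen.1 hc).trans_le h1)
  · obtain rfl : y = 0 := h'
    exact YoungDiagram.mem_iff_lt_colLen.2 ((YoungDiagram.mem_iff_lt_colLen.1 hc).trans_le h2)

theorem hookF_eta_sum (a : ℕ) (k : Fin a) : ∑ p, etaMat a k p = 0 := by
  have hk := k.isLt
  have e : ∀ p, etaMat a k p = (if p = sx k then -(2 * (a : ℂ) - 2 * k) else 0) +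
      (1 - if (p : ℕ) < 2 * k + 1 then 1 else 0) := fun p => by
    unfold etaMat
    by_cases h1 : (p : ℕ) = 2 * k + 1
    · rw [if_pos h1, if_pos (Fin.ext h1), if_neg (by omega)]
      ring
    · rw [if_neg h1, if_neg fun h => h1 (congrArg Fin.val h)]
      by_cases h2 : 2 * k + 1 < (p : ℕ)
      · rw [if_pos h2, if_neg (by omega)]
        ring
      · rw [if_neg h2, if_pos (by omega)]
        ring
  simp only [e, sum_add_distrib, sum_sub_distrib, sum_ite_eq', mem_univ, if_true, sum_boole,
    Fin.card_filter_val_lt, sum_const, card_univ, Fintype.card_fin]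
  rw [min_eq_right (by omega)]
  simp only [nsmul_eq_mul]
  push_cast
  ring

/-- `isGT_of_le`, `yc_kill_of_sym/alt`, `wedge_sym_kill`, `wedge_alt_kill` with
`K = {k | 2k+1 ∈ P}` for a suffix `P` -/
theorem isGT_eta (a : ℕ) {τ : Fin (2 * a + 1) → ℤ} (hτ : StrictMono τ) :
    IsGT (-τ) (hk1 a) (hook a) (wedge (etaMat a)) := by
  refine isGT_of_le (wedge_mem_Spec (by simp) (hookF_eta_sum a))
    fun P μ ρ T' hP hμ hρ hle hne => ?_
  have hup : ∀ p ∈ P, ∀ q : Fin (2 * a + 1), (p : ℕ) ≤ q → q ∈ P := fun p hp q hq =>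
    hP p hp q (neg_le_neg (hτ.monotone hq))
  set K : Finset (Fin a) := univ.filter fun k => sx k ∈ P with hK
  have hconst : ∀ k ∉ K, ∀ i ∈ P, ∀ j ∈ P, etaMat a k i = etaMat a k j := by
    have : ∀ k ∉ K, ∀ i ∈ P, etaMat a k i = 1 := fun k hk i hi => by
      have h1 : 2 * k + 1 < (i : ℕ) := by
        by_contra h
        exact hk (mem_filter.2 ⟨mem_univ _, hup i hi (sx k) (by simp only [sx]; omega)⟩)
      unfold etaMat
      rw [if_neg (by omega), if_pos h1]
    intro k hk i hi j hj
    rw [this k hk i hi, this k hk j hj]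
  have hsupp : ∀ k ∈ K, ∀ i ∉ P, etaMat a k i = 0 := fun k hk i hi => by
    have h1 : (i : ℕ) < 2 * k + 1 := by
      by_contra h
      exact hi (hup (sx k) (mem_filter.1 hk).2 i (by simp only [sx]; omega))
    unfold etaMat
    rw [if_neg (by omega), if_neg (by omega)]
  have hcard : P.card = μ.rowLen 0 + K.card := by
    rw [← hμ.wt_rowf 0, wt, ← card_filter_add_card_filter_not (s := P)
      (fun p => rowf (hk1 a) p = 0)]
    congr 1
    symm
    refine card_bij (fun k _ => sx k) (fun k hk => ?_) (fun k _ l _ h => ?_) fun p hp => ?_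
    · refine mem_filter.2 ⟨(mem_filter.1 hk).2, ?_⟩
      have h1 := hookF_hk1_spec a (sx k)
      have := k.isLt
      simp only [rowf]
      simp only [sx] at h1 ⊢
      omega
    · have := congrArg Fin.val h
      simp only [sx] at this
      exact Fin.ext (by omega)
    · obtain ⟨hp1, hp2⟩ := mem_filter.1 hp
      have h1 := hookF_hk1_spec a p
      have := p.isLt
      simp only [rowf] at hp2
      have e : sx (⟨(p : ℕ) / 2, by omega⟩ : Fin a) = p := Fin.ext (by simp only [sx]; omega)
      exact ⟨⟨(p : ℕ) / 2, by omega⟩, mem_filter.2 ⟨mem_univ _, by rw [e]; exact hp1⟩, e⟩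
  have hc1 := hμ.card_eq
  have hc2 := hρ.card_eq
  have hμle : μ ≤ hook a := fun c hc => by
    obtain ⟨p, -, rfl⟩ := hμ.surj hc
    exact (isTab_hk1 a).mem (mem_univ p)
  by_cases hr : μ.rowLen 0 < ρ.rowLen 0
  · refine yc_kill_of_sym (fun S hS hSc => ?_) hρ hr
    exact wedge_sym_kill K hconst hsupp (fun k _ => hookF_eta_sum a k) hS
      (card_pos.1 (by omega)) (by omega)
  by_cases hc : K.card + 1 < ρ.colLen 0
  · refine yc_kill_of_alt (fun S hS hSc => ?_) hρ hc
    exact wedge_alt_kill K (fun k hk i hi j hj => hconst k hk i (hS hi) j (hS hj)) (by omega)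
  exfalso
  apply hne
  have hle' : ρ ≤ μ := by
    rcases P.eq_empty_or_nonempty with rfl | ⟨p, hp⟩
    · intro c hc
      obtain ⟨p, hp, -⟩ := hρ.surj hc
      exact absurd hp (notMem_empty p)
    · have h0 : (0, 0) ∈ μ := μ.up_left_mem (Nat.zero_le _) (Nat.zero_le _) (hμ.mem hp)
      have := hookF_card_hookShape hμle h0
      exact hookF_le_of_hookShape hle (by omega) (by omega)
  ext1
  exact eq_of_subset_of_card_le hle' (by
    change μ.card ≤ ρ.card
    omega)

theorem hookF_w (a i : ℕ) (l : Fin a) (p : Fin (2 * a + 1)) :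
    (wmat a i).map (Int.cast : ℤ → ℂ) l p = (if p = sx l then 1 else 0) +
      (if p = sy l then (if (l : ℕ) < i then 1 else -1) else 0) +
      (if p = 0 then (if (l : ℕ) < i then -2 else 0) else 0) := by
  simp only [Matrix.map_apply, wmat, dmat, Fin.ext_iff, sx, sy, Fin.val_zero]
  split_ifs <;> first | omega | simp

theorem hookF_w_sum (a i : ℕ) (l : Fin a) : ∑ p, (wmat a i).map (Int.cast : ℤ → ℂ) l p = 0 := by
  simp only [hookF_w, sum_add_distrib, sum_ite_eq', mem_univ, if_true]
  split_ifs <;> ring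

theorem hookF_submatrix {a : ℕ} {x : Matrix (Fin a) (Fin (2 * a + 1)) ℂ} (k : Fin a)
    (h : ∀ l, l ≠ k → x l (sx k) = x l (sy k)) :
    x.submatrix id (swap (sx k) (sy k)).symm = x.updateRow k (x k ∘ swap (sx k) (sy k)) := by
  ext l p
  by_cases hl : l = k
  · subst hl
    simp
  · rw [Matrix.updateRow_ne hl, Matrix.submatrix_apply, symm_swap]
    exact apply_swap_eq_self (h l hl) p

/-- Replace the rows of `etaMat` one at a time by the rows of `dmat`: `t = swap (sx k) (sy k)` fixes
all rows of `etaMat`, `dmat`, `wmat` except row `k`, multiplies `wedge wmat` by `±1`, and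
`η_k - t η_k` is a nonzero multiple of `δ_k`; use `GoodVec.of_add_wrep`. -/
theorem goodVec_eta {a i : ℕ} {ν : YoungDiagram}
    (h : GoodVec (wedge ((dmat a).map (Int.cast : ℤ → ℂ)))
      (wedge ((wmat a i).map (Int.cast : ℤ → ℂ))) ν) :
    GoodVec (wedge (etaMat a)) (wedge ((wmat a i).map (Int.cast : ℤ → ℂ))) ν := by
  set W := (wmat a i).map (Int.cast : ℤ → ℂ) with hW
  set D := (dmat a).map (Int.cast : ℤ → ℂ) with hD
  let X : ℕ → Matrix (Fin a) (Fin (2 * a + 1)) ℂ := fun j =>
    Matrix.of fun k => if (k : ℕ) < j then etaMat a k else D k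
  have hX : ∀ j k, X j k = if (k : ℕ) < j then etaMat a k else D k := fun _ _ => rfl
  have key : ∀ j, j ≤ a → GoodVec (wedge (X j)) (wedge W) ν := by
    intro j
    induction j with
    | zero =>
      intro _
      have : X 0 = D := by
        ext k p
        rw [hX, if_neg (by omega)]
      rw [this]
      exact h
    | succ j ih =>
      intro hj
      have ih' := ih (by omega)
      set k : Fin a := ⟨j, by omega⟩ with hk
      have hkj : (k : ℕ) = j := rfl
      have hxy : sx k ≠ sy k := fun e => by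
        have := congrArg Fin.val e
        simp [sx, sy] at this
      have hWt : wrep _ (swap (sx k) (sy k)) (wedge W) =
          (if j < i then (1 : ℂ) else -1) • wedge W := by
        rw [wrep_wedge, hookF_submatrix k]
        · have : W k ∘ swap (sx k) (sy k) = (if j < i then (1 : ℂ) else -1) • W k := by
            funext p
            have hx0 : sx k ≠ 0 := fun e => by simpa [sx] using congrArg Fin.val e
            have hy0 : sy k ≠ 0 := fun e => by simpa [sy] using congrArg Fin.val e
            rw [Function.comp_apply, Pi.smul_apply, hW, hookF_w, hookF_w, hkj]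
            by_cases h1 : p = sx k
            · subst h1
              split_ifs <;> simp_all
            by_cases h2 : p = sy k
            · subst h2
              split_ifs <;> simp_all
            rw [swap_apply_of_ne_of_ne h1 h2]
            split_ifs <;> simp_all
          rw [this, wedge_updateRow_smul, Matrix.updateRow_eq_self]
        · intro l hl
          have hl' : (l : ℕ) ≠ j := fun e => hl (Fin.ext e)
          simp only [hW, Matrix.map_apply, wmat, dmat, sx, sy, hkj]
          split_ifs <;> first | omega | rfl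
      have hupd : ∀ u, (X (j + 1)).updateRow k u = (X j).updateRow k u := fun u => by
        ext l p
        by_cases hl : l = k
        · subst hl
          simp
        · have hl' : (l : ℕ) ≠ j := fun e => hl (Fin.ext e)
          rw [Matrix.updateRow_ne hl, Matrix.updateRow_ne hl, hX, hX]
          by_cases h1 : (l : ℕ) < j
          · rw [if_pos h1, if_pos (by omega)]
          · rw [if_neg h1, if_neg (by omega)]
      have hXk : X (j + 1) k = etaMat a k := by rw [hX, if_pos (by omega)]
      have hXk' : X j k = D k := by rw [hX, if_neg (by omega)]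
      have hXt : wedge (X (j + 1)) + (-1 : ℂ) • wrep _ (swap (sx k) (sy k)) (wedge (X (j + 1))) =
          (-(2 * (a : ℂ) - 2 * j)) • wedge (X j) := by
        rw [wrep_wedge, hookF_submatrix k]
        · conv_lhs => rw [← Matrix.updateRow_eq_self (X (j + 1)) k]
          rw [Matrix.updateRow_self, Matrix.updateRow_idem, hupd, hupd, hXk,
            ← wedge_updateRow_smul, ← wedge_updateRow_add]
          conv_rhs => rw [← Matrix.updateRow_eq_self (X j) k, hXk', ← wedge_updateRow_smul]
          congr 2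
          funext p
          simp only [Pi.add_apply, Pi.smul_apply, Function.comp_apply, smul_eq_mul]
          by_cases h1 : p = sx k
          · subst h1
            rw [swap_apply_left]
            simp [etaMat, hD, dmat, sx, sy, hkj]
            ring
          by_cases h2 : p = sy k
          · subst h2
            rw [swap_apply_right]
            simp [etaMat, hD, dmat, sx, sy, hkj]
            ring
          rw [swap_apply_of_ne_of_ne h1 h2]
          have h1' : (p : ℕ) ≠ 2 * j + 1 := fun e => h1 (Fin.ext e)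
          have h2' : (p : ℕ) ≠ 2 * j + 2 := fun e => h2 (Fin.ext e)
          simp [hD, dmat, hkj, h1', h2']
        · intro l hl
          have hl' : (l : ℕ) ≠ j := fun e => hl (Fin.ext e)
          rw [hX]
          split_ifs with h1
          · simp only [etaMat, sx, sy, hkj]
            split_ifs <;> first | omega | rfl
          · simp only [hD, Matrix.map_apply, dmat, sx, sy, hkj]
            split_ifs <;> first | omega | rfl
      have hc : (-(2 * (a : ℂ) - 2 * j)) ≠ 0 := by
        rw [neg_ne_zero, sub_ne_zero]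
        intro e
        have : 2 * a = 2 * j := by exact_mod_cast e
        omega
      refine GoodVec.of_add_wrep (c := -1) hWt ?_
      rw [hXt]
      refine GoodVec.of_smul (c := (-(2 * (a : ℂ) - 2 * j))⁻¹) (d := 1) ?_
      rwa [smul_smul, inv_mul_cancel₀ hc, one_smul, one_smul]
  have : X a = etaMat a := by
    ext k p
    rw [hX, if_pos k.isLt]
  rw [← this]
  exact key a le_rfl

/-- the triangular change of rows -/
noncomputable def hookF_M (a i : ℕ) : Matrix (Fin a) (Fin a) ℂ := fun l m =>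
  if (l : ℕ) < i then
    (if (m : ℕ) < l then 1 else if m = l then -((2 * (l : ℂ) + 1) / 2) else 0)
  else if m = l then 1 else 0

theorem hookF_M_zero {a i : ℕ} {l m : Fin a} (h : (l : ℕ) < m) : hookF_M a i l m = 0 := by
  have : m ≠ l := fun e => by rw [e] at h; omega
  unfold hookF_M
  rw [if_neg (show ¬ (m : ℕ) < l by omega), if_neg this, if_neg this, ite_self]

theorem hookF_M_det (a i : ℕ) : (hookF_M a i).det ≠ 0 := by
  rw [Matrix.det_of_isLowerTriangular _ fun l m h => hookF_M_zero h]
  refine prod_ne_zero_iff.2 fun l _ => ?_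
  unfold hookF_M
  rw [if_neg (lt_irrefl _), if_pos rfl, if_pos rfl]
  split_ifs
  · rw [neg_ne_zero]
    refine div_ne_zero ?_ two_ne_zero
    exact_mod_cast (by omega : 2 * (l : ℕ) + 1 ≠ 0)
  · exact one_ne_zero

theorem hookF_R_const {a i : ℕ} (l : Fin a) (p : Fin (2 * a + 1)) (hp : (p : ℕ) ≤ 2 * l) :
    (hookF_M a i * (wmat a i).map (Int.cast : ℤ → ℂ)) l p = if (l : ℕ) < i then 1 else 0 := by
  rw [Matrix.mul_apply]
  by_cases hl : (l : ℕ) < i
  · rw [if_pos hl]
    by_cases h0 : (p : ℕ) = 0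
    · have e : ∀ m, hookF_M a i l m * (wmat a i).map (Int.cast : ℤ → ℂ) m p =
          (-2) * (if (m : ℕ) < l then 1 else 0) + (if m = l then 2 * (l : ℂ) + 1 else 0) :=
        fun m => by
          simp only [hookF_M, Matrix.map_apply, wmat, if_pos hl, h0]
          by_cases h1 : (m : ℕ) < l
          · have h2 : m ≠ l := fun e => by rw [e] at h1; omega
            have h3 : (m : ℕ) < i := by omega
            simp [h1, h2, h3]
          · by_cases h2 : m = l
            · subst h2
              simp [hl]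
            · simp [h1, h2]
      simp only [e, sum_add_distrib, ← mul_sum, sum_ite_eq', mem_univ, if_true, sum_boole,
        Fin.card_filter_val_lt]
      rw [min_eq_right l.isLt.le]
      ring
    · have := l.isLt
      rw [sum_eq_single (⟨((p : ℕ) - 1) / 2, by omega⟩ : Fin a)]
      · have h1 : ((p : ℕ) - 1) / 2 < l := by omega
        have h2 : ((p : ℕ) - 1) / 2 < i := by omega
        have h3 : (p : ℕ) = 2 * (((p : ℕ) - 1) / 2) + 1 ∨ (p : ℕ) = 2 * (((p : ℕ) - 1) / 2) + 2 := by
          omega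
        simp only [hookF_M, Matrix.map_apply, wmat, if_pos hl, if_pos h1, if_pos h2, if_pos h3]
        simp
      · intro m _ hm
        have hm' : (m : ℕ) ≠ ((p : ℕ) - 1) / 2 := fun e => hm (Fin.ext e)
        have : (wmat a i).map (Int.cast : ℤ → ℂ) m p = 0 := by
          simp only [Matrix.map_apply, wmat, dmat]
          split_ifs <;> first | omega | simp
        rw [this, mul_zero]
      · intro h'
        exact absurd (mem_univ _) h'
  · rw [if_neg hl]
    refine sum_eq_zero fun m _ => ?_
    by_cases hm : m = l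
    · subst hm
      have : (wmat a i).map (Int.cast : ℤ → ℂ) m p = 0 := by
        simp only [Matrix.map_apply, wmat, dmat]
        split_ifs <;> first | omega | simp
      rw [this, mul_zero]
    · simp [hookF_M, hl, hm]

theorem hookF_R_supp {a i : ℕ} (l : Fin a) (p : Fin (2 * a + 1)) (hp : 2 * l + 2 < (p : ℕ)) :
    (hookF_M a i * (wmat a i).map (Int.cast : ℤ → ℂ)) l p = 0 := by
  rw [Matrix.mul_apply]
  refine sum_eq_zero fun m _ => ?_
  by_cases hm : (l : ℕ) < m
  · rw [hookF_M_zero hm, zero_mul]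
  · have : (wmat a i).map (Int.cast : ℤ → ℂ) m p = 0 := by
      simp only [Matrix.map_apply, wmat, dmat]
      split_ifs <;> first | omega | simp
    rw [this, mul_zero]

theorem hookF_R_sum {a i : ℕ} (l : Fin a) :
    ∑ p, (hookF_M a i * (wmat a i).map (Int.cast : ℤ → ℂ)) l p = 0 := by
  simp only [Matrix.mul_apply]
  rw [sum_comm]
  refine sum_eq_zero fun m _ => ?_
  rw [← mul_sum, hookF_w_sum, mul_zero]

/-- `wedge wmat` is a nonzero multiple of the wedge of the rows
`ρ_k = e_0 + ∑_{l<k} (e_{2l+1} + e_{2l+2}) - ((2k+1)/2) (e_{2k+1} + e_{2k+2})` (`k < i`), `δ_k` (`k ≥ i`)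
(`ρ = M * wmat` with `M` lower triangular); these rows are constant on earlier prefixes. -/
theorem wmat_kill {a i : ℕ} (k : ℕ) {S : Finset (Fin (2 * a + 1))} (hS : ∀ p ∈ S, (p : ℕ) ≤ 2 * k)
    (hcard : S.card = k + 2) :
    act (sym S) (wedge ((wmat a i).map (Int.cast : ℤ → ℂ))) = 0 ∧
      act (alt S) (wedge ((wmat a i).map (Int.cast : ℤ → ℂ))) = 0 := by
  set P : Finset (Fin (2 * a + 1)) := univ.filter fun p => (p : ℕ) < 2 * k + 1 with hP
  set K : Finset (Fin a) := univ.filter fun l => (l : ℕ) < k with hK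
  have hPc : P.card = min (2 * a + 1) (2 * k + 1) := Fin.card_filter_val_lt
  have hKc : K.card = min a k := Fin.card_filter_val_lt
  have hSP : S ⊆ P := fun p hp => mem_filter.2 ⟨mem_univ _, Nat.lt_succ_of_le (hS p hp)⟩
  have hconst : ∀ l ∉ K, ∀ p ∈ P, ∀ q ∈ P,
      (hookF_M a i * (wmat a i).map (Int.cast : ℤ → ℂ)) l p =
        (hookF_M a i * (wmat a i).map (Int.cast : ℤ → ℂ)) l q := fun l hl p hp q hq => by
    have h1 : ¬ (l : ℕ) < k := fun h => hl (mem_filter.2 ⟨mem_univ _, h⟩)
    have h2 := (mem_filter.1 hp).2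
    have h3 := (mem_filter.1 hq).2
    rw [hookF_R_const l p (by omega), hookF_R_const l q (by omega)]
  have h1 := wedge_sym_kill K hconst (fun l hl p hp => hookF_R_supp l p (by
      have h1 := (mem_filter.1 hl).2
      have h2 : ¬ (p : ℕ) < 2 * k + 1 := fun h => hp (mem_filter.2 ⟨mem_univ _, h⟩)
      omega)) (fun l _ => hookF_R_sum l) hSP (card_pos.1 (by omega)) (by omega)
  have h2 := wedge_alt_kill (S := S) K
    (fun l hl p hp q hq => hconst l hl p (hSP hp) q (hSP hq)) (by omega)
  rw [wedge_mul, map_smul] at h1 h2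
  exact ⟨(smul_eq_zero.1 h1).resolve_left (hookF_M_det a i),
    (smul_eq_zero.1 h2).resolve_left (hookF_M_det a i)⟩

theorem hookF_good {a i : ℕ} {τ : Fin (2 * a + 1) → ℤ} (hτ : StrictMono τ) {ν : YoungDiagram}
    (h : GoodVec (wedge (etaMat a)) (wedge ((wmat a i).map (Int.cast : ℤ → ℂ))) ν) :
    ∃ T2, Std τ T2 (hook a) ∧ (∀ p, max (T2 p).1 (T2 p).2 = ((p : ℕ) + 1) / 2) ∧
      Good τ (hk1 a) T2 (hook a) (hook a) ν := by
  obtain ⟨T2, hstd, hok, hg⟩ := good_of_GT_left hτ.injective (isGT_eta a hτ)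
    (wedge_mem_Spec (by simp) (hookF_w_sum a i))
    (fun P ρ => ∀ k : ℕ, (∀ p ∈ P, (p : ℕ) ≤ 2 * k) → ρ.rowLen 0 ≤ k + 1 ∧ ρ.colLen 0 ≤ k + 1)
    (fun P ρ T' _ hT' hn => by
      push Not at hn
      obtain ⟨k, hk, hk'⟩ := hn
      by_cases hr : k + 1 < ρ.rowLen 0
      · exact yc_kill_of_sym (fun S hS hc => (wmat_kill k (fun p hp => hk p (hS hp)) hc).1) hT' hr
      · exact yc_kill_of_alt (fun S hS hc => (wmat_kill k (fun p hp => hk p (hS hp)) hc).2) hT'
          (hk' (by omega))) h
  have hub : ∀ p, max (T2 p).1 (T2 p).2 ≤ ((p : ℕ) + 1) / 2 := fun p => by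
    have hP : IsPre τ (univ.filter fun q => q ≤ p) := fun q hq r hr => by
      simp only [mem_filter, mem_univ, true_and] at hq ⊢
      exact (hτ.le_iff_le.1 hr).trans hq
    obtain ⟨μ, hμ, -⟩ := hstd.exists_tab hP
    obtain ⟨h1, h2⟩ := hok _ μ hP hμ (((p : ℕ) + 1) / 2) fun q hq => by
      have : (q : ℕ) ≤ p := (mem_filter.1 hq).2
      omega
    have hm : ((T2 p).1, (T2 p).2) ∈ μ := hμ.mem (mem_filter.2 ⟨mem_univ _, le_rfl⟩)
    have a1 := YoungDiagram.mem_iff_lt_rowLen.1 (μ.up_left_mem (Nat.zero_le _) le_rfl hm)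
    have a2 := YoungDiagram.mem_iff_lt_colLen.1 (μ.up_left_mem le_rfl (Nat.zero_le _) hm)
    omega
  refine ⟨T2, hstd, fun p => le_antisymm (hub p) ?_, hg⟩
  by_contra hlt
  have hp := p.isLt
  set k := ((p : ℕ) + 1) / 2 - 1 with hk
  have hn : p ∉ univ.filter fun q : Fin (2 * a + 1) => (q : ℕ) < 2 * k + 1 := by
    simp only [mem_filter, mem_univ, true_and]
    omega
  have hc : (insert p (univ.filter fun q : Fin (2 * a + 1) => (q : ℕ) < 2 * k + 1)).card ≤
      (hook k).cells.card := by
    refine card_le_card_of_injOn T2 (fun q hq => ?_) fun q _ r _ e =>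
      hstd.2.1.inj (mem_univ _) (mem_univ _) e
    have h1 := (mem_hook.1 (hstd.2.1.mem (mem_univ q))).2.2
    have h2 : max (T2 q).1 (T2 q).2 ≤ k := by
      rcases mem_insert.1 (mem_coe.1 hq) with rfl | hq
      · omega
      · have := (mem_filter.1 hq).2
        have := hub q
        omega
    exact mem_coe.2 ((YoungDiagram.mem_cells _).2 (mem_hook.2 ⟨by omega, by omega, h1⟩))
  have h3 : (hook k).cells.card = 2 * k + 1 := card_hook k
  rw [card_insert_of_notMem hn, Fin.card_filter_val_lt, h3] at hc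
  omega

/-- `good_of_GT_left` with `ok P ρ := ∀ k, (∀ p ∈ P, p ≤ 2k) → ρ.rowLen 0 ≤ k+1 ∧ ρ.colLen 0 ≤ k+1`;
the lower bound on `max` follows by counting (the `2k+1` first positions fill the hook of size
`2k+1`); `good_twist` for the transposed case. -/
theorem good_hook (a : ℕ) {τ : Fin (2 * a + 1) → ℤ} (hτ : StrictMono τ) {ν : YoungDiagram}
    (hc : ν.card = 2 * a + 1) (h2 : (2, 2) ∉ ν) :
    ∃ T2, Std τ T2 (hook a) ∧ (∀ p, max (T2 p).1 (T2 p).2 = ((p : ℕ) + 1) / 2) ∧
      Good τ (hk1 a) T2 (hook a) (hook a) ν := by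
  obtain ⟨i, T, β, -, hD, hT | hT⟩ := exists_domino hc h2
  · exact hookF_good hτ (goodVec_eta (goodVec_of_domino hD hT))
  · obtain ⟨T2, hstd, hmax, hg⟩ := hookF_good hτ (goodVec_eta (goodVec_of_domino hD hT))
    have h1 := hstd.swap
    have h3 := good_twist hstd.2.1 hg
    rw [transpose_hook] at h1 h3
    rw [YoungDiagram.transpose_transpose] at h3
    refine ⟨Prod.swap ∘ T2, h1, fun p => ?_, h3⟩
    rw [← hmax p, max_comm]
    rfl

end Crest.Agent.R195
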