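/- Row 195, task Inter0: interleaving two time functions. -/
import Crest.Agent.R195.Alg1

set_option autoImplicit false

namespace Crest.Agent.R195

open Equiv Finset

variable {ι : Type} [Fintype ι] [DecidableEq ι]

omit [DecidableEq ι] in
/-- e.g. `τ (inl p) = (2p+1) N`, `τ (inr z) = 2 (s z) N + rank z` with `0 ≤ rank z < N` -/
theorem exists_time {Z : Type} [Fintype Z] {h : ℕ} (e : Fin h ⊕ Z ≃ ι) {τZ : Z → ℤ}
    (hτ : Function.Injective τZ) (s : Z → ℕ) (hs : ∀ z z', τZ z ≤ τZ z' → s z ≤ s z') :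
    ∃ τ : ι → ℤ, Function.Injective τ ∧ StrictMono (fun p => τ (e (Sum.inl p))) ∧
      (∀ z z', τ (e (Sum.inr z)) ≤ τ (e (Sum.inr z')) ↔ τZ z ≤ τZ z') ∧
      ∀ (p : Fin h) z, τ (e (Sum.inl p)) ≤ τ (e (Sum.inr z)) ↔ (p : ℕ) < s z := by
  obtain ⟨N, hN0, hN⟩ : ∃ N : ℤ, 0 < N ∧ ∀ z, -N < τZ z ∧ τZ z < N := by
    refine ⟨∑ z, |τZ z| + 1, by positivity, fun z => ?_⟩
    have := Finset.single_le_sum (f := fun z => |τZ z|) (fun z _ => abs_nonneg _) (mem_univ z)
    constructor <;> linarith [le_abs_self (τZ z), neg_abs_le (τZ z)]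
  have hLR : ∀ (p : Fin h) z, ((2 * (p : ℤ) + 1) * N < 2 * (s z : ℤ) * N + τZ z ∧ (p : ℕ) < s z) ∨
      (2 * (s z : ℤ) * N + τZ z < (2 * (p : ℤ) + 1) * N ∧ s z ≤ (p : ℕ)) := fun p z => by
    obtain ⟨h1, h2⟩ := hN z
    rcases lt_or_ge (p : ℕ) (s z) with hp | hp
    · refine Or.inl ⟨?_, hp⟩
      have : ((p : ℕ) : ℤ) + 1 ≤ s z := by exact_mod_cast hp
      nlinarith [mul_le_mul_of_nonneg_right this hN0.le]
    · refine Or.inr ⟨?_, hp⟩
      have : (s z : ℤ) ≤ ((p : ℕ) : ℤ) := by exact_mod_cast hp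
      nlinarith [mul_le_mul_of_nonneg_right this hN0.le]
  have hLL : StrictMono fun p : Fin h => (2 * (p : ℤ) + 1) * N := fun p q hpq => by
    have : ((p : ℕ) : ℤ) < ((q : ℕ) : ℤ) := by exact_mod_cast hpq
    exact mul_lt_mul_of_pos_right (by linarith) hN0
  have hRR' : ∀ z z', τZ z < τZ z' → 2 * (s z : ℤ) * N + τZ z < 2 * (s z' : ℤ) * N + τZ z' :=
    fun z z' hz => by
      have : (s z : ℤ) ≤ s z' := by exact_mod_cast hs z z' hz.le
      nlinarith [mul_le_mul_of_nonneg_right this hN0.le]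
  have hRR : ∀ z z', 2 * (s z : ℤ) * N + τZ z ≤ 2 * (s z' : ℤ) * N + τZ z' ↔ τZ z ≤ τZ z' :=
    fun z z' => by
      constructor
      · intro h1
        by_contra h2
        exact absurd (hRR' z' z (not_le.1 h2)) (not_lt.2 h1)
      · intro h1
        rcases h1.eq_or_lt with h2 | h2
        · rw [hτ h2]
        · exact (hRR' z z' h2).le
  refine ⟨fun i => Sum.elim (fun p : Fin h => (2 * (p : ℤ) + 1) * N)
    (fun z => 2 * (s z : ℤ) * N + τZ z) (e.symm i), ?_, ?_, fun z z' => ?_, fun p z => ?_⟩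
  · intro i j hij
    obtain ⟨x, rfl⟩ := e.surjective i
    obtain ⟨y, rfl⟩ := e.surjective j
    simp only [Equiv.symm_apply_apply] at hij
    rcases x with p | z <;> rcases y with q | z' <;> simp only [Sum.elim_inl, Sum.elim_inr] at hij
    · rw [hLL.injective hij]
    · rcases hLR p z' with h1 | h1 <;> linarith [h1.1]
    · rcases hLR q z with h1 | h1 <;> linarith [h1.1]
    · rw [hτ (le_antisymm ((hRR z z').1 hij.le) ((hRR z' z).1 hij.ge))]
  · simpa only [Equiv.symm_apply_apply, Sum.elim_inl] using hLL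
  · simpa only [Equiv.symm_apply_apply, Sum.elim_inr] using hRR z z'
  · simp only [Equiv.symm_apply_apply, Sum.elim_inl, Sum.elim_inr]
    rcases hLR p z with h1 | h1
    · exact iff_of_true h1.1.le h1.2
    · exact iff_of_false (not_le.2 h1.1) (not_lt.2 h1.2)

end Crest.Agent.R195
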