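/- Row 195, task Split: the splitting (Littlewood-Richardson) criterion. -/
import Crest.Agent.R195.Emb

set_option autoImplicit false

namespace Crest.Agent.R195

open Equiv Finset

variable {ι : Type} [Fintype ι] [DecidableEq ι]

variable {Y Z : Type} [Fintype Y] [DecidableEq Y] [Fintype Z] [DecidableEq Z]

/-- the block Vandermonde matrix is invertible -/
theorem Split_det_ne_zero {T : ι → ℕ × ℕ} {l : YoungDiagram} (hT : IsTab univ T l)
    (b : ι → ℕ) (hb : ∀ i j, b i = b j → rowf T i = rowf T j → i = j) :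
    (Matrix.of fun i j : ι =>
      if rowf T i = rowf T j then (b i : ℂ) ^ colf T j else 0).det ≠ 0 := by
  intro hdet
  obtain ⟨v, hv0, hv⟩ := Matrix.exists_mulVec_eq_zero_iff.2 hdet
  obtain ⟨j₀, hj₀⟩ := Function.ne_iff.1 hv0
  set r := rowf T j₀ with hr
  set S := univ.filter (fun j => rowf T j = r) with hS
  set p : Polynomial ℂ := ∑ j ∈ S, Polynomial.monomial (colf T j) (v j) with hp
  have hcard : S.card = l.rowLen r := hT.wt_rowf r
  have hinj : Set.InjOn (fun i => (b i : ℂ)) S := by
    intro i hi j hj hij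
    simp only [hS, coe_filter, mem_univ, true_and, Set.mem_ofPred_eq] at hi hj
    exact hb i j (Nat.cast_injective (R := ℂ) hij) (hi.trans hj.symm)
  have hp0 : p = 0 := by
    refine Polynomial.eq_zero_of_degree_lt_of_eval_finset_eq_zero
      (S.image fun i => (b i : ℂ)) ?_ ?_
    · rw [card_image_of_injOn hinj, hcard, hp]
      refine lt_of_le_of_lt (Polynomial.degree_sum_le _ _) ?_
      rw [Finset.sup_lt_iff (WithBot.bot_lt_coe _)]
      intro j hj
      refine lt_of_le_of_lt (Polynomial.degree_monomial_le _ _) ?_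
      have h1 : T j ∈ l := hT.mem (mem_univ j)
      have h2 : rowf T j = r := (mem_filter.1 hj).2
      have h3 : colf T j < l.rowLen r := by
        rw [← h2]
        exact YoungDiagram.mem_iff_lt_rowLen.1 h1
      exact_mod_cast h3
    · intro x hx
      obtain ⟨i, hi, rfl⟩ := mem_image.1 hx
      have h2 : rowf T i = r := (mem_filter.1 hi).2
      have h1 := congrFun hv i
      simp only [Matrix.mulVec, dotProduct, Matrix.of_apply, Pi.zero_apply, ite_mul,
        zero_mul] at h1
      rw [hp, Polynomial.eval_finsetSum, ← h1, hS, sum_filter]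
      refine sum_congr rfl fun j _ => ?_
      rw [h2]
      by_cases h : rowf T j = r
      · rw [if_pos h, if_pos h.symm, Polynomial.eval_monomial, mul_comm]
      · rw [if_neg h, if_neg (Ne.symm h)]
  have h1 := congrArg (fun q => Polynomial.coeff q (colf T j₀)) hp0
  simp only [hp, Polynomial.finsetSum_coeff, Polynomial.coeff_monomial,
    Polynomial.coeff_zero] at h1
  rw [sum_eq_single j₀] at h1
  · exact hj₀ (by simpa using h1)
  · intro j hj hne
    rw [if_neg]
    intro hc
    exact hne (hT.inj (mem_univ _) (mem_univ _) (Prod.ext (mem_filter.1 hj).2 hc))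
  · intro h
    exact absurd (mem_filter.2 ⟨mem_univ j₀, hr.symm⟩) h

theorem Split_ring {R : Type} [Ring R] {a b c a' b' c' w : R} (h1 : b * a' = a' * b)
    (h2 : c * a' = a' * c) (h3 : c * b' = b' * c) :
    a * b * c * (a' * b' * c' * w) = a * a' * (b * b' * (c * c') * w) := by
  have c1 : Commute b a' := h1
  have c2 : Commute c a' := h2
  have c3 : Commute c b' := h3
  simp only [mul_assoc]
  rw [c2.left_comm, c1.left_comm, c3.left_comm]

/-- the evaluation functional -/
noncomputable def SplitPhi (b : ι → ℕ) : WM ι →ₗ[ℂ] ℂ :=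
  Finsupp.linearCombination ℂ fun x : ι → ℕ => ∏ i, (b i : ℂ) ^ x i

omit [DecidableEq ι] in
theorem SplitPhi_wrep_single (b : ι → ℕ) (σ : Perm ι) (x : ι → ℕ) (c : ℂ) :
    SplitPhi b (wrep ι σ (Finsupp.single x c)) = c * ∏ i, (b (σ i) : ℂ) ^ x i := by
  rw [wrep_single, SplitPhi, Finsupp.linearCombination_single, smul_eq_mul,
    ← Equiv.prod_comp σ]
  simp

theorem SplitPhi_wrep (b : ι → ℕ) {σ : Perm ι} (hσ : σ ∈ stab univ b) (w : WM ι) :
    SplitPhi b (wrep ι σ w) = SplitPhi b w := by
  induction w using Finsupp.induction_linear with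
  | zero => simp
  | add f g hf hg => simp only [map_add, hf, hg]
  | single x c =>
    rw [SplitPhi_wrep_single, SplitPhi, Finsupp.linearCombination_single, smul_eq_mul]
    simp only [(mem_stab.1 hσ).2]

/-- Vandermonde: if no block (level set of `b`) meets a row of `T` twice then
`psym univ b * palt univ (rowf T) * psym univ (colf T) ≠ 0`.  Apply to `single (colf T) 1` and then the
functional `single x 1 ↦ ∏ i, (b i : ℂ) ^ x i`; the result is a multiple of the determinant of
`M i j = if rowf T i = rowf T j then (b i : ℂ) ^ colf T j else 0`, which is invertible (a vector in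
the kernel gives, for each row, a polynomial of degree `< rowLen` with `rowLen` distinct roots). -/
theorem psym_palt_psym_ne_zero {T : ι → ℕ × ℕ} {l : YoungDiagram} (hT : IsTab univ T l)
    (b : ι → ℕ) (hb : ∀ i j, b i = b j → rowf T i = rowf T j → i = j) :
    psym univ b * palt univ (rowf T) * psym univ (colf T) ≠ 0 := by
  intro h0
  have h1 : SplitPhi b (act (psym univ b * palt univ (rowf T) * psym univ (colf T))
      (Finsupp.single (colf T) 1)) = 0 := by rw [h0]; simp
  have h2 : act (psym univ (colf T)) (Finsupp.single (colf T) (1 : ℂ)) =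
      ((stab univ (colf T)).card : ℂ) • Finsupp.single (colf T) 1 := by
    rw [act_psym_eq, sum_congr rfl (g := fun _ => Finsupp.single (colf T) (1 : ℂ)), sum_const,
      Nat.cast_smul_eq_nsmul]
    intro σ hσ
    rw [wrep_single]
    congr 1
    funext i
    exact (mem_stab.1 (inv_mem_stab hσ)).2 i
  have h3 : ∀ w, SplitPhi b (act (psym univ b) w) = ((stab univ b).card : ℂ) * SplitPhi b w := by
    intro w
    rw [act_psym_eq, map_sum, sum_congr rfl (fun σ hσ => SplitPhi_wrep b hσ w), sum_const,
      nsmul_eq_mul]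
  have h4 : SplitPhi b (act (palt univ (rowf T)) (Finsupp.single (colf T) (1 : ℂ))) =
      (Matrix.of fun i j : ι =>
        if rowf T i = rowf T j then (b i : ℂ) ^ colf T j else 0).det := by
    rw [act_palt_eq, map_sum, Matrix.det_apply', stab, sum_filter]
    refine sum_congr rfl fun σ _ => ?_
    simp only [mem_univ, not_true_eq_false, IsEmpty.forall_iff, implies_true, true_and,
      Matrix.of_apply]
    split_ifs with h
    · rw [map_smul, SplitPhi_wrep_single, one_mul, smul_eq_mul]
      simp only [h, if_true, sg]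
    · obtain ⟨i, hi⟩ := not_forall.1 h
      rw [prod_eq_zero (mem_univ i) (if_neg hi), mul_zero]
  rw [act_mul_apply, act_mul_apply, h3, h2, map_smul, map_smul, h4, smul_eq_mul] at h1
  exact mul_ne_zero (card_stab_ne_zero _ _) (mul_ne_zero (card_stab_ne_zero _ _)
    (Split_det_ne_zero hT b hb)) h1

/-- sorting the row differences -/
theorem exists_sorted_diff {l ν : YoungDiagram} (h : ν ≤ l) :
    ∃ (μ : YoungDiagram) (π : ℕ → ℕ), μ.card + ν.card = l.card ∧ (∀ c, μ.colLen c = dcol l ν c) ∧
      (∀ r r', 0 < μ.rowLen r → 0 < μ.rowLen r' → π r = π r' → r = r') ∧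
      ∀ r, 0 < μ.rowLen r → ν.rowLen (π r) + μ.rowLen r = l.rowLen (π r) := by
  set N := l.colLen 0 with hN
  have hle : ∀ r, ν.rowLen r ≤ l.rowLen r := fun r => by
    by_contra hc
    have h1 : (r, l.rowLen r) ∈ ν := YoungDiagram.mem_iff_lt_rowLen.2 (not_le.1 hc)
    exact lt_irrefl _ (YoungDiagram.mem_iff_lt_rowLen.1 (h h1))
  have hνN : ν.colLen 0 ≤ N := by
    by_contra hc
    have h1 : (N, 0) ∈ ν := YoungDiagram.mem_iff_lt_colLen.2 (not_le.1 hc)
    exact lt_irrefl _ (YoungDiagram.mem_iff_lt_colLen.1 (h h1))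
  have hanti : Antitone (dcol l ν) := fun c c' hcc =>
    card_le_card (fun r hr => by
      simp only [mem_filter] at hr ⊢
      exact ⟨hr.1, lt_of_le_of_lt hcc hr.2⟩)
  have hz : dcol l ν (l.rowLen 0) = 0 := by
    rw [dcol, card_eq_zero, filter_eq_empty_iff]
    intro r _
    have := l.rowLen_anti 0 r (Nat.zero_le r)
    omega
  obtain ⟨μ', hμ'⟩ := exists_yd_of_antitone (dcol l ν) hanti _ hz
  have hcol : ∀ c, μ'.transpose.colLen c = dcol l ν c := fun c => by
    rw [YoungDiagram.colLen_transpose, hμ']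
  set μ := μ'.transpose
  set d : Fin N → ℕ := fun r => l.rowLen r - ν.rowLen r with hd
  set σ := Tuple.sort (fun r => OrderDual.toDual (d r)) with hσ
  have hmono : Antitone (fun r => d (σ r)) := fun a b hab =>
    Tuple.monotone_sort (fun r => OrderDual.toDual (d r)) hab
  have hdc : ∀ c, dcol l ν c = (univ.filter fun r : Fin N => c < d (σ r)).card := fun c => by
    have h1 : (univ.filter fun r : Fin N => c < d (σ r)).card =
        (univ.filter fun r : Fin N => c < d r).card :=
      card_bij (fun r _ => σ r) (fun r hr => by simpa using hr)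
        (fun a _ b _ hab => σ.injective hab) (fun r hr => ⟨σ.symm r, by simpa using hr, by simp⟩)
    rw [h1, dcol, card_filter, card_filter, ← hN,
      ← Fin.sum_univ_eq_sum_range (fun r => if c < l.rowLen r - ν.rowLen r then 1 else 0)]
  have hrow : ∀ r : Fin N, μ.rowLen r = d (σ r) := fun r => by
    refine eq_of_forall_lt_iff fun c => ?_
    rw [← YoungDiagram.mem_iff_lt_rowLen, YoungDiagram.mem_iff_lt_colLen, hcol, hdc]
    exact Tuple.lt_card_gt_iff_apply_gt_of_antitone hmono
  have hμN : μ.colLen 0 ≤ N := by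
    rw [hcol, dcol]
    exact (card_filter_le _ _).trans (by simp [hN])
  have hlt : ∀ r, 0 < μ.rowLen r → r < N := fun r hr =>
    lt_of_lt_of_le (YoungDiagram.mem_iff_lt_colLen.1 (YoungDiagram.mem_iff_lt_rowLen.2 hr)) hμN
  refine ⟨μ, fun r => if hr : r < N then σ ⟨r, hr⟩ else 0, ?_, hcol, ?_, ?_⟩
  · rw [card_eq_sum_rowLen μ hμN, card_eq_sum_rowLen ν hνN, card_eq_sum_rowLen l (le_refl N),
      ← Fin.sum_univ_eq_sum_range (fun r => μ.rowLen r), sum_congr rfl (fun r _ => hrow r),
      Equiv.sum_comp σ d, hd,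
      Fin.sum_univ_eq_sum_range (fun r => l.rowLen r - ν.rowLen r), ← sum_add_distrib]
    refine sum_congr rfl fun r _ => ?_
    have := hle r
    omega
  · intro r r' hr hr' hrr
    simp only [dif_pos (hlt r hr), dif_pos (hlt r' hr')] at hrr
    simpa using σ.injective (Fin.ext hrr)
  · intro r hr
    simp only [dif_pos (hlt r hr)]
    have h1 := hrow ⟨r, hlt r hr⟩
    have h2 := hle (σ ⟨r, hlt r hr⟩)
    simp only [hd] at h1
    omega

/-- Given `TY`, `TZ`, let `T` agree with `TY` on `Y` and put the row `r` of `TZ` at the end of the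
row `π r` of `ν`.  Then the row groups of `TY`, `TZ` lie in the row group of `T`, and `omega` of
`psym_palt_psym_ne_zero` (blocks: columns of `TY` and columns of `TZ`, e.g. `b = 2 col` resp.
`2 col + 1`) gives `palt * palt * yc T ≠ 0`, hence `mapL yc' * mapR yc' * yc T ≠ 0`; conclude with
`yc'_eq_smul_yc`. -/
theorem split (e : Y ⊕ Z ≃ ι) {l ν : YoungDiagram} (h : ν ≤ l) (hl : Fintype.card ι = l.card)
    (hν : Fintype.card Y = ν.card) :
    ∃ μ : YoungDiagram, μ.card = Fintype.card Z ∧ (∀ c, μ.colLen c = dcol l ν c) ∧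
      SplitAlg e l ν μ := by
  obtain ⟨μ, π, hc, hcol, hπ, hrow⟩ := exists_sorted_diff h
  have hcard : Fintype.card ι = Fintype.card Y + Fintype.card Z := by
    rw [← Fintype.card_sum]; exact Fintype.card_congr e.symm
  refine ⟨μ, by omega, hcol, fun TY TZ hTY hTZ => ?_⟩
  set T : ι → ℕ × ℕ := fun i => Sum.elim TY
    (fun z => (π (TZ z).1, ν.rowLen (π (TZ z).1) + (TZ z).2)) (e.symm i) with hT
  set b : ι → ℕ := fun i => Sum.elim (fun y => 2 * (TY y).2) (fun z => 2 * (TZ z).2 + 1)
    (e.symm i) with hb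
  have hTl : ∀ y, T (e (Sum.inl y)) = TY y := fun y => by simp [hT]
  have hTr : ∀ z, T (e (Sum.inr z)) = (π (TZ z).1, ν.rowLen (π (TZ z).1) + (TZ z).2) :=
    fun z => by simp [hT]
  have hbl : ∀ y, b (e (Sum.inl y)) = 2 * (TY y).2 := fun y => by simp [hb]
  have hbr : ∀ z, b (e (Sum.inr z)) = 2 * (TZ z).2 + 1 := fun z => by simp [hb]
  have hZlt : ∀ z, (TZ z).2 < μ.rowLen (TZ z).1 := fun z =>
    YoungDiagram.mem_iff_lt_rowLen.1 (hTZ.mem (mem_univ z))
  have hYlt : ∀ y, (TY y).2 < ν.rowLen (TY y).1 := fun y =>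
    YoungDiagram.mem_iff_lt_rowLen.1 (hTY.mem (mem_univ y))
  have hπZ : ∀ z z', π (TZ z).1 = π (TZ z').1 → (TZ z).1 = (TZ z').1 := fun z z' h' =>
    hπ _ _ (lt_of_le_of_lt (Nat.zero_le _) (hZlt z)) (lt_of_le_of_lt (Nat.zero_le _) (hZlt z')) h'
  have hTab : IsTab univ T l := by
    refine isTab_of_card (fun i _ => ?_) (fun i _ j _ hij => ?_) (by simp [hl])
    · obtain ⟨x, rfl⟩ := e.surjective i
      rcases x with y | z
      · rw [hTl]; exact h (hTY.mem (mem_univ y))
      · rw [hTr, YoungDiagram.mem_iff_lt_rowLen,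
          ← hrow _ (lt_of_le_of_lt (Nat.zero_le _) (hZlt z))]
        have := hZlt z
        omega
    · obtain ⟨x, rfl⟩ := e.surjective i
      obtain ⟨x', rfl⟩ := e.surjective j
      rcases x with y | z <;> rcases x' with y' | z'
      · rw [hTl, hTl] at hij
        rw [hTY.inj (mem_univ _) (mem_univ _) hij]
      · rw [hTl, hTr] at hij
        have := hYlt y
        rw [hij] at this
        simp at this
      · rw [hTl, hTr] at hij
        have := hYlt y'
        rw [← hij] at this
        simp at this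
      · rw [hTr, hTr, Prod.mk.injEq] at hij
        have h1 := hπZ _ _ hij.1
        have h2 := hij.2
        rw [hij.1] at h2
        rw [hTZ.inj (mem_univ z) (mem_univ z') (Prod.ext h1 (by omega))]
  have hV := psym_palt_psym_ne_zero hTab b (fun i j hbij hr => by
    obtain ⟨x, rfl⟩ := e.surjective i
    obtain ⟨x', rfl⟩ := e.surjective j
    unfold rowf at hr
    rcases x with y | z <;> rcases x' with y' | z'
    · rw [hTl, hTl] at hr
      rw [hbl, hbl] at hbij
      rw [hTY.inj (mem_univ y) (mem_univ y') (Prod.ext hr (by omega))]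
    · rw [hbl, hbr] at hbij; omega
    · rw [hbl, hbr] at hbij; omega
    · rw [hTr, hTr] at hr
      rw [hbr, hbr] at hbij
      rw [hTZ.inj (mem_univ z) (mem_univ z') (Prod.ext (hπZ _ _ hr) (by omega))])
  have hW : palt univ b * yc univ T ≠ 0 := by
    intro h0
    apply hV
    have := congrArg omega h0
    rw [yc, map_mul, map_mul, omega_palt, omega_psym, omega_palt, map_zero, ← mul_assoc] at this
    exact this
  have hsub : ∀ (P : Finset ι) (f : ι → ℕ), stab P f ⊆ stab univ f := fun P f σ hσ =>
    mem_stab.2 ⟨fun i hi => absurd (mem_univ i) hi, (mem_stab.1 hσ).2⟩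
  have hA : mapL e (palt univ (colf TY)) = palt (univ.map (inlE e)) b := by
    rw [← mapL_palt, palt, palt, stab_congr (f' := fun y => b (e (Sum.inl y)))]
    intro i _ j _
    simp only [hbl, colf]
    omega
  have hB : mapR e (palt univ (colf TZ)) = palt (univ.map (inrE e)) b := by
    rw [← mapR_palt, palt, palt, stab_congr (f' := fun y => b (e (Sum.inr y)))]
    intro i _ j _
    simp only [hbr, colf]
    omega
  have hRY : mapL e (psym univ (rowf TY)) = psym (univ.map (inlE e)) (rowf T) := by
    rw [← mapL_psym, psym, psym, stab_congr (f' := fun y => rowf T (e (Sum.inl y)))]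
    intro i _ j _
    simp only [hTl, rowf]
  have hRZ : mapR e (psym univ (rowf TZ)) = psym (univ.map (inrE e)) (rowf T) := by
    rw [← mapR_psym, psym, psym, stab_congr (f' := fun y => rowf T (e (Sum.inr y)))]
    intro i _ j _
    simp only [hTr, rowf]
    exact ⟨fun h' => by rw [h'], hπZ i j⟩
  have hAB : mapL e (palt univ (colf TY)) * (mapR e (palt univ (colf TZ)) * yc univ T) ≠ 0 := by
    intro h0
    have h1 := congrArg (fun a => palt univ b * a) h0
    simp only [mul_zero] at h1
    rw [hA, hB, ← mul_assoc, palt_mul_palt (hsub _ _), smul_mul_assoc, ← mul_assoc,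
      palt_mul_palt (hsub _ _), smul_mul_assoc, smul_smul] at h1
    exact smul_ne_zero (mul_ne_zero (card_stab_ne_zero _ _) (card_stab_ne_zero _ _)) hW h1
  have hR : ∀ P : Finset ι, psym P (rowf T) * yc univ T =
      ((stab P (rowf T)).card : ℂ) • yc univ T := fun P => by
    rw [yc, ← mul_assoc, psym_mul_psym' (hsub _ _), smul_mul_assoc]
  have hC : mapL e (yc' univ TY) * (mapR e (yc' univ TZ) * yc univ T) ≠ 0 := by
    rw [yc', yc', map_mul, map_mul, mul_assoc (mapR e _), hRZ, hR, mul_smul_comm, mul_smul_comm,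
      mul_assoc, ← mul_assoc (mapL e (psym _ _)), mapL_mul_mapR_comm, mul_assoc, hRY, hR,
      mul_smul_comm, mul_smul_comm]
    exact smul_ne_zero (card_stab_ne_zero _ _) (smul_ne_zero (card_stab_ne_zero _ _) hAB)
  obtain ⟨β, hβ⟩ := yc'_eq_smul_yc hTY
  obtain ⟨γ, hγ⟩ := yc'_eq_smul_yc hTZ
  refine ⟨T, mapL e (psym univ (rowf TY)) * mapR e (psym univ (rowf TZ)), hTab, fun h0 => hC ?_⟩
  have key : mapL e (palt univ (colf TY) * yc univ TY * psym univ (rowf TY)) *
      (mapR e (palt univ (colf TZ) * yc univ TZ * psym univ (rowf TZ)) * yc univ T) =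
      mapL e (palt univ (colf TY)) * mapR e (palt univ (colf TZ)) *
        (mapL e (yc univ TY) * mapR e (yc univ TZ) *
          (mapL e (psym univ (rowf TY)) * mapR e (psym univ (rowf TZ))) * yc univ T) := by
    rw [map_mul, map_mul, map_mul, map_mul]
    exact Split_ring (mapL_mul_mapR_comm e _ _) (mapL_mul_mapR_comm e _ _)
      (mapL_mul_mapR_comm e _ _)
  rw [hβ, hγ, map_smul, map_smul, smul_mul_assoc, smul_mul_assoc, mul_smul_comm, key, h0]
  simp

end Crest.Agent.R195
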