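/- Row 195, task Step: the step lemma. -/
import Crest.Agent.R195.Emb

set_option autoImplicit false

namespace Crest.Agent.R195

open Equiv Finset

variable {ι : Type} [Fintype ι] [DecidableEq ι]

variable {Y Z : Type} [Fintype Y] [DecidableEq Y] [Fintype Z] [DecidableEq Z]

omit [Fintype Y] [DecidableEq Y] [Fintype Z] [DecidableEq Z] in
/-- forward and backward bounds force `g⁻¹ Y = Y` (`isPre_neg_iff_compl`; compare the prefixes
`{j | τ j ≤ τ i}` and `{j | τ j < τ i}`) -/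
theorem bound_force (e : Y ⊕ Z ≃ ι) {τ : ι → ℤ} (hτ : Function.Injective τ) {g : Perm ι}
    (h1 : Bound τ e g) (h2 : Bound (-τ) e g) (i : ι) :
    (e.symm (g i)).isLeft = (e.symm i).isLeft := by
  have htot : (univ.filter fun i => (e.symm (g i)).isLeft).card =
      (univ.filter fun i => (e.symm i).isLeft).card :=
    Finset.card_equiv g fun p => by simp
  have hsplit : ∀ (q : ι → Bool) (P : Finset ι), (P.filter fun i => q i).card +
      (Pᶜ.filter fun i => q i).card = (univ.filter fun i => q i).card := fun q P => by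
    rw [← Finset.card_union_of_disjoint (Finset.disjoint_filter_filter disjoint_compl_right),
      ← Finset.filter_union, Finset.union_compl]
  have heq : ∀ P, IsPre τ P → (P.filter fun i => (e.symm (g i)).isLeft).card =
      (P.filter fun i => (e.symm i).isLeft).card := fun P hP => by
    have a1 := h1 P hP
    have a2 := h2 Pᶜ ((isPre_neg_iff_compl hτ _).2 (by rwa [compl_compl]))
    have a3 := hsplit (fun i => (e.symm (g i)).isLeft) P
    have a4 := hsplit (fun i => (e.symm i).isLeft) P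
    omega
  have hP0 : IsPre τ (univ.filter fun j => τ j < τ i) := fun a ha b hb => by
    simp only [Finset.mem_filter, Finset.mem_univ, true_and] at ha ⊢
    exact hb.trans_lt ha
  have hP1 : IsPre τ (insert i (univ.filter fun j => τ j < τ i)) := fun a ha b hb => by
    simp only [Finset.mem_insert, Finset.mem_filter, Finset.mem_univ, true_and] at ha ⊢
    have : τ b ≤ τ i := by
      rcases ha with rfl | ha
      · exact hb
      · exact hb.trans ha.le
    rcases this.eq_or_lt with h | h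
    · exact Or.inl (hτ h)
    · exact Or.inr h
  have e0 := heq _ hP0
  have e1 := heq _ hP1
  have hn : ∀ q : ι → Bool, i ∉ (univ.filter fun j => τ j < τ i).filter fun j => q j := by
    intro q
    simp
  rw [Finset.filter_insert, Finset.filter_insert] at e1
  by_cases ha : (e.symm (g i)).isLeft = true <;> by_cases hb : (e.symm i).isLeft = true
  · rw [ha, hb]
  · rw [if_pos ha, if_neg hb,
      Finset.card_insert_of_notMem (hn fun j => (e.symm (g j)).isLeft)] at e1
    omega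
  · rw [if_neg ha, if_pos hb, Finset.card_insert_of_notMem (hn fun j => (e.symm j).isLeft)] at e1
    omega
  · rw [Bool.not_eq_true] at ha hb
    rw [ha, hb]

theorem step_Aelt (e : Y ⊕ Z ≃ ι) {α β : Perm ι → ℂ} {αY βY : Perm Y → ℂ} {αZ βZ : Perm Z → ℂ}
    (hα : ∀ gY gZ, α (jj e gY gZ) = αY gY * αZ gZ) (hβ : ∀ gY gZ, β (jj e gY gZ) = βY gY * βZ gZ)
    (h : ∀ g, α g ≠ 0 → β g ≠ 0 → ∃ gY gZ, g = jj e gY gZ) :
    Aelt α β = mapL e (Aelt αY βY) * mapR e (Aelt αZ βZ) := by
  unfold Aelt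
  rw [map_sum, map_sum, Finset.sum_mul_sum, ← Finset.sum_product']
  symm
  refine Finset.sum_of_injOn (fun q : Perm Y × Perm Z => jj e q.1 q.2)
    (fun q _ q' _ hq => Prod.ext (jj_injective e hq).1 (jj_injective e hq).2)
    (fun q _ => Finset.mem_coe.2 (Finset.mem_univ _)) (fun g _ hg => ?_) fun q _ => ?_
  · by_cases ha : α g = 0
    · rw [ha, zero_mul, zero_smul]
    by_cases hb : β g = 0
    · rw [hb, mul_zero, zero_smul]
    obtain ⟨gY, gZ, rfl⟩ := h g ha hb
    exact absurd ⟨(gY, gZ), by simp, rfl⟩ hg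
  · have hinv : (jj e q.1 q.2)⁻¹ = jj e q.1⁻¹ 1 * jj e 1 q.2⁻¹ := by
      rw [inv_eq_iff_mul_eq_one]
      ext i
      obtain ⟨x, rfl⟩ := e.surjective i
      cases x <;> simp
    rw [map_smul, map_smul, mapL_el, mapR_el, smul_mul_smul_comm, ← el_mul, hα, hβ, hinv]
    congr 1
    ring

/-- `Aelt α β = mapL (Aelt αY βY) * mapR (Aelt αZ βZ)`; then `exists_left_inv` twice and
`exists_tab_of_mul_Idl`. -/
theorem step (e : Y ⊕ Z ≃ ι) {τ : ι → ℤ} (hτ : Function.Injective τ) {T1 T2 : ι → ℕ × ℕ}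
    {T1Y T2Y : Y → ℕ × ℕ} {T1Z T2Z : Z → ℕ × ℕ} {κ1 κ2 κ1Y κ2Y κ1Z κ2Z l ν μ : YoungDiagram}
    (h1 : Ext (-τ) T1 κ1 e T1Y κ1Y T1Z κ1Z) (h2 : Ext τ T2 κ2 e T2Y κ2Y T2Z κ2Z)
    (gY : Good (fun y => τ (e (Sum.inl y))) T1Y T2Y κ1Y κ2Y ν)
    (gZ : Good (fun z => τ (e (Sum.inr z))) T1Z T2Z κ1Z κ2Z μ)
    (hs : SplitAlg e l ν μ) : Good τ T1 T2 κ1 κ2 l := by
  obtain ⟨αY, hαY, βY, hβY, TY, hTY, hY⟩ := gY
  obtain ⟨αZ, hαZ, βZ, hβZ, TZ, hTZ, hZ⟩ := gZ
  obtain ⟨α, hα, hα1, hα2⟩ := h1 αY hαY αZ hαZ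
  obtain ⟨β, hβ, hβ1, hβ2⟩ := h2 βY hβY βZ hβZ
  have hA := step_Aelt e hα1 hβ1 fun g ha hb =>
    exists_jj e (bound_force e hτ (hβ2 g hb) (hα2 g ha))
  obtain ⟨bY, hbY⟩ := exists_left_inv hTY hY
  obtain ⟨bZ, hbZ⟩ := exists_left_inv hTZ hZ
  obtain ⟨T, x, hT, hx⟩ := hs TY TZ hTY hTZ
  have hmem : mapL e (yc univ TY) * mapR e (yc univ TZ) * x * yc univ T ∈ Idl univ l :=
    Idl_mul_left (mem_GP_univ _) (yc_mem_Idl hT)
  have key : mapL e (yc univ TY) * mapR e (yc univ TZ) =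
      mapL e bY * mapR e bZ * (Aelt α β * (mapL e (yc univ TY) * mapR e (yc univ TZ))) := by
    have c1 : mapR e (bZ * Aelt αZ βZ) * mapL e (yc univ TY) =
        mapL e (yc univ TY) * mapR e (bZ * Aelt αZ βZ) := (mapL_mul_mapR_comm e _ _).symm
    have c2 : mapR e bZ * mapL e (Aelt αY βY) = mapL e (Aelt αY βY) * mapR e bZ :=
      (mapL_mul_mapR_comm e _ _).symm
    calc mapL e (yc univ TY) * mapR e (yc univ TZ)
        = mapL e (bY * Aelt αY βY * yc univ TY) * mapR e (bZ * Aelt αZ βZ * yc univ TZ) := by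
          rw [hbY, hbZ]
      _ = mapL e bY * mapL e (Aelt αY βY) * (mapL e (yc univ TY) * mapR e (bZ * Aelt αZ βZ)) *
            mapR e (yc univ TZ) := by
          rw [map_mul, map_mul, map_mul (mapR e) (bZ * _)]; simp only [mul_assoc]
      _ = mapL e bY * (mapL e (Aelt αY βY) * mapR e bZ) * mapR e (Aelt αZ βZ) *
            mapL e (yc univ TY) * mapR e (yc univ TZ) := by
          rw [← c1, map_mul]; simp only [mul_assoc]
      _ = _ := by rw [← c2, hA]; simp only [mul_assoc]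
  have hne : Aelt α β * (mapL e (yc univ TY) * mapR e (yc univ TZ) * x * yc univ T) ≠ 0 := by
    intro h0
    apply hx
    rw [key]
    calc _ = mapL e bY * mapR e bZ *
          (Aelt α β * (mapL e (yc univ TY) * mapR e (yc univ TZ) * x * yc univ T)) := by
          simp only [mul_assoc]
      _ = 0 := by rw [h0, mul_zero]
  obtain ⟨T', hT', h'⟩ := exists_tab_of_mul_Idl hmem hne
  exact ⟨α, hα, β, hβ, T', hT', h'⟩

end Crest.Agent.R195
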