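/- Row 195, task InterH: induction step for nested hooks. -/
import Crest.Agent.R195.Inter0
import Crest.Agent.R195.Step
import Crest.Agent.R195.Split
import Crest.Agent.R195.ExtHook
import Crest.Agent.R195.HookF
import Crest.Agent.R195.Cover

set_option autoImplicit false

namespace Crest.Agent.R195

open Equiv Finset

variable {ι : Type} [Fintype ι] [DecidableEq ι]

theorem InterH_eq_bot {l : YoungDiagram} (h : l.card = 0) : l = ⊥ := by
  have h' : l.cells = ∅ := Finset.card_eq_zero.1 h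
  refine YoungDiagram.ext ?_
  rw [h', YoungDiagram.cells_bot]

/-- put `TZ` inside the hook filled by `TY` -/
def InterH_tab {ι Y Z : Type} (e : Y ⊕ Z ≃ ι) (TY : Y → ℕ × ℕ) (TZ : Z → ℕ × ℕ) : ι → ℕ × ℕ :=
  fun i => Sum.elim TY (fun z => ((TZ z).1 + 1, (TZ z).2 + 1)) (e.symm i)

theorem InterH_tab_inl {ι Y Z : Type} (e : Y ⊕ Z ≃ ι) (TY : Y → ℕ × ℕ) (TZ : Z → ℕ × ℕ) (y : Y) :
    InterH_tab e TY TZ (e (Sum.inl y)) = TY y := by
  simp [InterH_tab]

theorem InterH_tab_inr {ι Y Z : Type} (e : Y ⊕ Z ≃ ι) (TY : Y → ℕ × ℕ) (TZ : Z → ℕ × ℕ) (z : Z) :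
    InterH_tab e TY TZ (e (Sum.inr z)) = ((TZ z).1 + 1, (TZ z).2 + 1) := by
  simp [InterH_tab]

omit [DecidableEq ι] in
theorem InterH_std {Y Z : Type} [Fintype Y] [Fintype Z] (e : Y ⊕ Z ≃ ι) {a : ℕ} {τ : ι → ℤ}
    (hτ : Function.Injective τ) {TY : Y → ℕ × ℕ} {TZ : Z → ℕ × ℕ} {τZ : Z → ℤ}
    {κ : YoungDiagram} (hκ : ∀ c ∈ κ, c.1 < a ∧ c.2 < a)
    (hY : Std (fun y => τ (e (Sum.inl y))) TY (hook a)) (hZ : Std τZ TZ κ)
    (hτZ : ∀ z z', τZ z ≤ τZ z' → τ (e (Sum.inr z)) ≤ τ (e (Sum.inr z')))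
    (hmix : ∀ y z, (TY y).1 ≤ (TZ z).1 + 1 → (TY y).2 ≤ (TZ z).2 + 1 →
      τ (e (Sum.inl y)) ≤ τ (e (Sum.inr z))) :
    Std τ (InterH_tab e TY TZ) (wrap a κ) := by
  have hYm : ∀ y, (TY y).1 ≤ a ∧ (TY y).2 ≤ a ∧ ((TY y).1 = 0 ∨ (TY y).2 = 0) := fun y =>
    mem_hook.1 (hY.2.1.mem (mem_univ y))
  have hZm : ∀ z, TZ z ∈ κ := fun z => hZ.2.1.mem (mem_univ z)
  refine ⟨hτ, isTab_of (fun i _ => ?_) (fun i _ j _ hij => ?_) fun c hc => ?_, fun i j hij => ?_⟩
  · obtain ⟨x, rfl⟩ := e.surjective i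
    rcases x with y | z
    · obtain ⟨h1, h2, h3⟩ := hYm y
      rw [InterH_tab_inl, mem_wrap]
      refine ⟨h1, h2, ?_⟩
      rcases h3 with h3 | h3
      · exact Or.inl h3
      · exact Or.inr (Or.inl h3)
    · obtain ⟨h1, h2⟩ := hκ _ (hZm z)
      rw [InterH_tab_inr, mem_wrap]
      exact ⟨h1, h2, Or.inr (Or.inr (hZm z))⟩
  · obtain ⟨x, rfl⟩ := e.surjective i
    obtain ⟨x', rfl⟩ := e.surjective j
    rcases x with y | z <;> rcases x' with y' | z'
    · rw [InterH_tab_inl, InterH_tab_inl] at hij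
      rw [hY.2.1.inj (mem_univ _) (mem_univ _) hij]
    · rw [InterH_tab_inl, InterH_tab_inr] at hij
      have := (hYm y).2.2
      rw [hij] at this
      simp only at this
      omega
    · rw [InterH_tab_inl, InterH_tab_inr] at hij
      have := (hYm y').2.2
      rw [← hij] at this
      simp only at this
      omega
    · rw [InterH_tab_inr, InterH_tab_inr, Prod.mk.injEq] at hij
      rw [hZ.2.1.inj (mem_univ z) (mem_univ z') (Prod.ext (by omega) (by omega))]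
  · rw [mem_wrap] at hc
    by_cases h2 : c.1 = 0 ∨ c.2 = 0
    · obtain ⟨y, -, hy⟩ := hY.2.1.surj (c := c) (mem_hook.2 ⟨hc.1, hc.2.1, h2⟩)
      exact ⟨e (Sum.inl y), mem_univ _, by rw [InterH_tab_inl, hy]⟩
    · have h3 : (c.1 - 1, c.2 - 1) ∈ κ := by
        rcases hc.2.2 with h | h | h
        · exact absurd (Or.inl h) h2
        · exact absurd (Or.inr h) h2
        · exact h
      obtain ⟨z, -, hz⟩ := hZ.2.1.surj h3
      refine ⟨e (Sum.inr z), mem_univ _, ?_⟩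
      rw [InterH_tab_inr, hz]
      exact Prod.ext (by simp only; omega) (by simp only; omega)
  · obtain ⟨x, rfl⟩ := e.surjective i
    obtain ⟨x', rfl⟩ := e.surjective j
    rcases x with y | z <;> rcases x' with y' | z'
    · rw [InterH_tab_inl, InterH_tab_inl] at hij
      exact hY.2.2 y y' hij
    · rw [InterH_tab_inl, InterH_tab_inr] at hij
      exact hmix y z' hij.1 hij.2
    · rw [InterH_tab_inl, InterH_tab_inr] at hij
      have h1 := (hYm y').2.2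
      have h2 : (TZ z).1 + 1 ≤ (TY y').1 := hij.1
      have h3 : (TZ z).2 + 1 ≤ (TY y').2 := hij.2
      omega
    · rw [InterH_tab_inr, InterH_tab_inr] at hij
      have h2 : (TZ z).1 + 1 ≤ (TZ z').1 + 1 := hij.1
      have h3 : (TZ z).2 + 1 ≤ (TZ z').2 + 1 := hij.2
      exact hτZ z z' (hZ.2.2 z z' ⟨by omega, by omega⟩)

omit [DecidableEq ι] in
theorem InterH_time {Z : Type} [Fintype Z] {a : ℕ} (e : Fin (2 * a + 1) ⊕ Z ≃ ι) {τZ : Z → ℤ}
    (hτ : Function.Injective τZ) {T1Z T2Z : Z → ℕ × ℕ} (env : EnvH τZ T1Z T2Z a) :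
    ∃ τ : ι → ℤ, Function.Injective τ ∧ StrictMono (fun p => τ (e (Sum.inl p))) ∧
      (∀ z z', τ (e (Sum.inr z)) ≤ τ (e (Sum.inr z')) ↔ τZ z ≤ τZ z') ∧
      (∀ (p : Fin (2 * a + 1)) z, τ (e (Sum.inl p)) ≤ τ (e (Sum.inr z)) →
        (p : ℕ) + 2 * max (T1Z z).1 ((T1Z z).2 + 1) + 2 ≤ 2 * a) ∧
      ∀ (p : Fin (2 * a + 1)) z, ¬ τ (e (Sum.inl p)) ≤ τ (e (Sum.inr z)) →
        2 * max (T2Z z).1 (T2Z z).2 + 3 ≤ p := by
  classical
  set D : Z → ℕ := fun z =>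
    (univ.filter fun j => τZ j ≤ τZ z).sup fun j => max (T2Z j).1 (T2Z j).2 + 1 with hD
  have hD1 : ∀ z j, τZ j ≤ τZ z → max (T2Z j).1 (T2Z j).2 + 1 ≤ D z := fun z j h =>
    Finset.le_sup (f := fun j => max (T2Z j).1 (T2Z j).2 + 1) (mem_filter.2 ⟨mem_univ _, h⟩)
  have hD2 : ∀ z, ∃ j, τZ j ≤ τZ z ∧ D z = max (T2Z j).1 (T2Z j).2 + 1 := by
    intro z
    obtain ⟨j, hj, h⟩ := Finset.exists_mem_eq_sup (univ.filter fun j => τZ j ≤ τZ z)
      ⟨z, mem_filter.2 ⟨mem_univ _, le_rfl⟩⟩ fun j => max (T2Z j).1 (T2Z j).2 + 1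
    exact ⟨j, (mem_filter.1 hj).2, h⟩
  obtain ⟨τ, h1, h2, h3, h4⟩ := exists_time e hτ (fun z => 2 * D z + 1) (by
    intro z z' h
    obtain ⟨j, hj, hj'⟩ := hD2 z
    have := hD1 z' j (hj.trans h)
    omega)
  refine ⟨τ, h1, h2, h3, fun p z h => ?_, fun p z h => ?_⟩
  · have h5 := (h4 p z).1 h
    obtain ⟨j, hj, hj'⟩ := hD2 z
    have := env j z hj
    omega
  · rw [h4] at h
    have h6 := hD1 z z le_rfl
    omega

theorem stateH_zero (a : ℕ) (S : YoungDiagram → Prop) : StateH 0 a S := by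
  refine ⟨⊥, ?_, fun c hc => absurd hc (YoungDiagram.notMem_bot c), fun l hl _ => ?_⟩
  · rw [YoungDiagram.card, YoungDiagram.cells_bot, card_empty]
  · have key : ∀ (τ : Fin 0 → ℤ) (T : Fin 0 → ℕ × ℕ), Std τ T ⊥ := fun τ T =>
      ⟨fun i => isEmptyElim i, isTab_of (fun i => isEmptyElim i) (fun i => isEmptyElim i)
        (fun c hc => absurd hc (YoungDiagram.notMem_bot c)), fun i => isEmptyElim i⟩
    rw [InterH_eq_bot hl]
    exact ⟨0, 0, 0, key _ _, key _ _, good_empty _ _ _, fun i => isEmptyElim i⟩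

theorem StateH.mono {n a a' : ℕ} {S S' : YoungDiagram → Prop} (h : StateH n a S) (ha : a ≤ a')
    (hS : ∀ l, S' l → S l) : StateH n a' S' := by
  obtain ⟨κ, hκ, hb, h⟩ := h
  refine ⟨κ, hκ, fun c hc => ⟨(hb c hc).1.trans_le ha, (hb c hc).2.trans_le ha⟩,
    fun l hl hl' => ?_⟩
  obtain ⟨τ, T1, T2, h1, h2, hg, env⟩ := h l hl (hS l hl')
  exact ⟨τ, T1, T2, h1, h2, hg, fun j k hjk => (env j k hjk).trans ha⟩

/-- New shape `wrap a κ`.  Slot `s z = 2 D z + 1` with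
`D z = max {max (T2Z j).1 (T2Z j).2 + 1 | τZ j ≤ τZ z}`; `T1 = hk1 a` on `Y`, `T2` from `good_hook`, both
`+ (1,1)` on `Z`; `ext_hook` twice and `step`. -/
theorem stateH_step {n a : ℕ} {S S' : YoungDiagram → Prop} (h : StateH n a S)
    (hS : ∀ l : YoungDiagram, l.card = n + (2 * a + 1) → S' l →
      ∃ ν ≤ l, ν.card = 2 * a + 1 ∧ (2, 2) ∉ ν ∧
        ∀ μ : YoungDiagram, μ.card = n → (∀ c, μ.colLen c = dcol l ν c) → S μ) :
    StateH (n + (2 * a + 1)) (a + 3) S' := by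
  obtain ⟨κ, hκ, hb, h⟩ := h
  refine ⟨wrap a κ, by rw [card_wrap hb, hκ], fun c hc => ?_, fun l hl hl' => ?_⟩
  · have := mem_wrap.1 hc
    omega
  obtain ⟨ν, hνl, hν, h22, hSμ⟩ := hS l hl hl'
  obtain ⟨e⟩ : Nonempty (Fin (2 * a + 1) ⊕ Fin n ≃ Fin (n + (2 * a + 1))) :=
    ⟨finSumFinEquiv.trans (finCongr (add_comm _ _))⟩
  obtain ⟨μ, hμ, hcol, hs⟩ :=
    split e hνl (by rw [Fintype.card_fin, hl]) (by rw [Fintype.card_fin, hν])
  rw [Fintype.card_fin] at hμ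
  obtain ⟨τZ, T1Z, T2Z, h1Z, h2Z, gZ, env⟩ := h μ hμ (hSμ μ hμ hcol)
  obtain ⟨τ, hτ, hmono, hZ, hA, hB⟩ := InterH_time e h2Z.1 env
  obtain ⟨T2Y, h2Y, hmax, gY⟩ := good_hook a hmono hν h22
  have hτ' : Function.Injective (-τ) := fun i j hij => hτ (neg_injective hij)
  have gZ' : Good (fun z => τ (e (Sum.inr z))) T1Z T2Z κ κ μ :=
    good_congr (fun i j => (hZ i j).symm) gZ
  have hB' : ∀ (p : Fin (2 * a + 1)) z, τ (e (Sum.inr z)) ≤ τ (e (Sum.inl p)) →
      2 * max (T2Z z).1 (T2Z z).2 + 3 ≤ p := by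
    intro p z hle
    refine hB p z fun hle' => ?_
    exact Sum.inl_ne_inr (e.injective (hτ (le_antisymm hle' hle)))
  have hT1 : Std (-τ) (InterH_tab e (hk1 a) T1Z) (wrap a κ) := by
    refine InterH_std e hτ' hb (std_hk1 a hmono) h1Z (fun z z' hz => ?_) fun p z hp1 hp2 => ?_
    · exact neg_le_neg ((hZ z' z).2 (neg_le_neg_iff.1 hz))
    · refine neg_le_neg (le_of_not_ge fun hle => ?_)
      have := hA p z hle
      unfold hk1 at hp1 hp2
      split_ifs at hp1 hp2 with hp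
      · simp only at hp1 hp2
        omega
      · simp only at hp1 hp2
        omega
  have hE1 : Ext (-τ) (InterH_tab e (hk1 a) T1Z) (wrap a κ) e (hk1 a) (hook a) T1Z κ := by
    have := ext_hook e (TZ := T1Z) (κY := hook a) hT1
      (fun y => by rw [InterH_tab_inl]; exact (mem_hook.1 ((isTab_hk1 a).mem (mem_univ y))).2.2)
      (fun z => InterH_tab_inr e _ _ z)
      (by simp only [InterH_tab_inl]; exact isTab_hk1 a) h1Z.2.1
    simpa only [InterH_tab_inl] using this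
  have hT2 : Std τ (InterH_tab e T2Y T2Z) (wrap a κ) := by
    refine InterH_std e hτ hb h2Y h2Z (fun z z' hz => (hZ z z').2 hz) fun p z hp1 hp2 => ?_
    by_contra hle
    have h1 := hB p z hle
    have h2 := hmax p
    omega
  have hE2 : Ext τ (InterH_tab e T2Y T2Z) (wrap a κ) e T2Y (hook a) T2Z κ := by
    have := ext_hook e (TZ := T2Z) (κY := hook a) hT2
      (fun y => by rw [InterH_tab_inl]; exact (mem_hook.1 (h2Y.2.1.mem (mem_univ y))).2.2)
      (fun z => InterH_tab_inr e _ _ z)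
      (by simp only [InterH_tab_inl]; exact h2Y.2.1) h2Z.2.1
    simpa only [InterH_tab_inl] using this
  refine ⟨τ, _, _, hT1, hT2, step e hτ hE1 hE2 gY gZ' hs, fun j k hjk => ?_⟩
  obtain ⟨x, rfl⟩ := e.surjective j
  obtain ⟨y, rfl⟩ := e.surjective k
  rcases x with p | z <;> rcases y with q | z'
  · have hpq : (p : ℕ) ≤ q := hmono.le_iff_le.1 hjk
    have := q.2
    rw [InterH_tab_inl, InterH_tab_inl, hmax]
    unfold hk1
    split_ifs with hq
    · simp only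
      omega
    · simp only
      omega
  · have := hA p z' hjk
    rw [InterH_tab_inl, InterH_tab_inr, hmax]
    simp only
    omega
  · have h1 := hB' q z hjk
    have := q.2
    rw [InterH_tab_inl, InterH_tab_inr]
    unfold hk1
    split_ifs with hq
    · simp only
      omega
    · simp only
      omega
  · have h1 := env z z' ((hZ z z').1 hjk)
    rw [InterH_tab_inr, InterH_tab_inr]
    simp only
    omega

end Crest.Agent.R195
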