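/- Row 195, task Zigzag0: zigzag tableaux, their GT vectors and the quaternion product formula. -/
import Crest.Agent.R195.GoodVec

set_option autoImplicit false

namespace Crest.Agent.R195

open Equiv Finset

variable {ι : Type} [Fintype ι] [DecidableEq ι]

theorem mem_zz {m : ℕ} {c : ℕ × ℕ} : c ∈ zz m ↔ c.1 < 2 ∧ c.1 + c.2 ≤ m := by
  rw [← YoungDiagram.mem_cells]
  simp only [zz, mem_filter, mem_product, mem_range]
  omega

theorem isTab_zig2 (m : ℕ) : IsTab univ (zig2 m) (zz m) := by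
  refine isTab_of (fun i _ => ?_) (fun i _ j _ h => ?_) (fun c hc => ?_)
  · have := i.2
    rw [mem_zz]
    simp only [zig2]
    omega
  · simp only [zig2, Prod.mk.injEq] at h
    apply Fin.ext
    omega
  · rw [mem_zz] at hc
    refine ⟨⟨2 * c.2 + c.1, by omega⟩, mem_univ _, ?_⟩
    simp only [zig2]
    ext <;> simp only <;> omega
theorem isTab_zig1 (m : ℕ) : IsTab univ (zig1 m) (zz m) := by
  refine isTab_of (fun i _ => ?_) (fun i _ j _ h => ?_) (fun c hc => ?_)
  · have := i.2
    rw [mem_zz]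
    simp only [zig1]
    omega
  · simp only [zig1, Prod.mk.injEq] at h
    have := i.2
    have := j.2
    apply Fin.ext
    omega
  · rw [mem_zz] at hc
    refine ⟨⟨2 * m - (2 * c.2 + c.1), by omega⟩, mem_univ _, ?_⟩
    simp only [zig1]
    ext <;> simp only <;> omega
theorem std_zig2 (m : ℕ) {τ : Fin (2 * m + 1) → ℤ} (hτ : StrictMono τ) : Std τ (zig2 m) (zz m) := by
  refine ⟨hτ.injective, isTab_zig2 m, fun i j h => hτ.monotone ?_⟩
  simp only [zig2, Prod.mk_le_mk] at h
  rw [Fin.le_def]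
  omega
theorem std_zig1 (m : ℕ) {τ : Fin (2 * m + 1) → ℤ} (hτ : StrictMono τ) :
    Std (-τ) (zig1 m) (zz m) := by
  refine ⟨fun i j h => hτ.injective (neg_injective h), isTab_zig1 m, fun i j h => ?_⟩
  simp only [zig1, Prod.mk_le_mk] at h
  simp only [Pi.neg_apply, neg_le_neg_iff]
  refine hτ.monotone ?_
  have := i.2
  have := j.2
  rw [Fin.le_def]
  omega

theorem Zigzag0_card {μ : YoungDiagram} (h : ∀ c ∈ μ, c.1 < 2) :
    μ.card = μ.rowLen 0 + μ.rowLen 1 ∧ ∀ r, 2 ≤ r → μ.rowLen r = 0 := by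
  constructor
  · have h1 : μ.colLen 0 ≤ 2 := by
      by_contra hc
      have : (2, 0) ∈ μ := YoungDiagram.mem_iff_lt_colLen.mpr (by omega)
      exact lt_irrefl _ (h _ this)
    rw [card_eq_sum_rowLen μ h1]
    simp [sum_range_succ]
  · intro r hr
    by_contra hc
    have : (r, 0) ∈ μ := YoungDiagram.mem_iff_lt_rowLen.mpr (by omega)
    have := h _ this
    simp only at this
    omega

theorem Zigzag0_isGT {τ : ι → ℤ} {T : ι → ℕ × ℕ} {κ : YoungDiagram} (hT : IsTab univ T κ)
    (hκ : ∀ c ∈ κ, c.1 < 2) (hZ : ∀ i c, T i = (0, c + 1) → ∃ j, τ j ≤ τ i ∧ T j = (1, c)) :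
    IsGT τ T κ (ptab univ T) := by
  refine isGT_of_le (ptab_mem_Spec hT) (fun P μ ρ T' hP hμ hT' hρ hne => ?_)
  have hμκ : ∀ c ∈ μ, c.1 < 2 := by
    intro c hc
    obtain ⟨i, _, rfl⟩ := hμ.surj hc
    exact hκ _ (hT.mem (mem_univ i))
  obtain ⟨h1, h2⟩ := Zigzag0_card hμκ
  obtain ⟨h3, h4⟩ := Zigzag0_card (μ := ρ) (fun c hc => hκ c (hρ hc))
  have h5 : μ.rowLen 0 ≤ μ.rowLen 1 + 1 := by
    by_contra hc
    have hm : (0, μ.rowLen 1 + 1) ∈ μ := YoungDiagram.mem_iff_lt_rowLen.mpr (by omega)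
    obtain ⟨i, hi, hiT⟩ := hμ.surj hm
    obtain ⟨j, hj, hjT⟩ := hZ i _ hiT
    have := hμ.mem (hP i hi j hj)
    rw [hjT, YoungDiagram.mem_iff_lt_rowLen] at this
    exact lt_irrefl _ this
  have h6 : ρ.rowLen 1 ≤ ρ.rowLen 0 := ρ.rowLen_anti 0 1 (by omega)
  have h7 := hμ.card_eq
  have h8 := hT'.card_eq
  have h9 : μ.rowLen 0 < ρ.rowLen 0 := by
    by_contra hc
    apply hne
    apply yd_ext_rowLen
    intro r
    rcases Nat.lt_or_ge r 2 with hr | hr
    · interval_cases r <;> omega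
    · rw [h2 r hr, h4 r hr]
  refine yc_kill_of_sym (J := μ.rowLen 0) (fun S hS hcard => ?_) hT' h9
  have hmap : ∀ i ∈ S, colf T i ∈ range (μ.rowLen 0) := by
    intro i hi
    have h10 : ((T i).1, (T i).2) ∈ μ := hμ.mem (hS hi)
    rw [YoungDiagram.mem_iff_lt_rowLen] at h10
    exact mem_range.mpr (lt_of_lt_of_le h10 (μ.rowLen_anti 0 _ (Nat.zero_le _)))
  obtain ⟨i, hi, j, hj, hij, hc⟩ := exists_ne_map_eq_of_card_lt_of_maps_to
    (by rw [card_range, hcard]; omega) hmap
  rw [ptab, ← act_mul_apply, sym,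
    psym_mul_palt_eq_zero hij hi hj (mem_univ i) (mem_univ j) rfl hc, map_zero,
    LinearMap.zero_apply]

/-- `isGT_of_le` + `yc_kill_of_sym`: a two-row shape `ρ ≠ μ` of the size of the prefix has a longer
first row, and a larger subset of the prefix contains a whole column. -/
theorem isGT_zig2 (m : ℕ) {τ : Fin (2 * m + 1) → ℤ} (hτ : StrictMono τ) :
    IsGT τ (zig2 m) (zz m) (ptab univ (zig2 m)) := by
  refine Zigzag0_isGT (isTab_zig2 m) (fun c hc => (mem_zz.mp hc).1) (fun i c hi => ?_)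
  simp only [zig2, Prod.mk.injEq] at hi
  have := i.2
  refine ⟨⟨2 * c + 1, by omega⟩, hτ.monotone ?_, ?_⟩
  · rw [Fin.le_def]
    simp only
    omega
  · simp only [zig2, Prod.mk.injEq]
    omega
theorem isGT_zig1 (m : ℕ) {τ : Fin (2 * m + 1) → ℤ} (hτ : StrictMono τ) :
    IsGT (-τ) (zig1 m) (zz m) (ptab univ (zig1 m)) := by
  refine Zigzag0_isGT (isTab_zig1 m) (fun c hc => (mem_zz.mp hc).1) (fun i c hi => ?_)
  simp only [zig1, Prod.mk.injEq] at hi
  have := i.2
  refine ⟨⟨2 * m - (2 * c + 1), by omega⟩, ?_, ?_⟩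
  · simp only [Pi.neg_apply, neg_le_neg_iff]
    refine hτ.monotone ?_
    rw [Fin.le_def]
    simp only
    omega
  · simp only [zig1, Prod.mk.injEq]
    omega

/-- four `2 × 2` matrices with `Q a * adj (Q b) + Q b * adj (Q a) = 2 δ_{ab}` (unit quaternions),
listed so that index `s` is the identity matrix -/
noncomputable def quat (s : Fin 4) (r : ℕ) : Matrix (Fin 2) (Fin 2) ℂ :=
  if h : r < 4 then
    ![!![1, 0; 0, 1], !![Complex.I, 0; 0, -Complex.I], !![0, 1; -1, 0],
      !![0, Complex.I; Complex.I, 0]] (Equiv.swap 0 s ⟨r, h⟩)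
  else 0

/-- the alternating product `Q₀ Q̄₁ Q₂ Q̄₃ ⋯ Q_{2m}` -/
noncomputable def altProd (Q : ℕ → Matrix (Fin 2) (Fin 2) ℂ) : ℕ → Matrix (Fin 2) (Fin 2) ℂ
  | 0 => Q 0
  | m + 1 => altProd Q m * (Q (2 * m + 1)).adjugate * Q (2 * m + 2)

/-- the alternating symbol -/
noncomputable def Zigzag0_eps (a b : ℕ) : ℂ :=
  if a = 0 ∧ b = 1 then 1 else if a = 1 ∧ b = 0 then -1 else 0

theorem Zigzag0_eps_swap (a b : ℕ) : Zigzag0_eps b a = -Zigzag0_eps a b := by
  unfold Zigzag0_eps
  split_ifs <;> first | omega | simp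

/-- coefficients of a polytabloid whose columns are `m` pairs and one single cell -/
theorem Zigzag0_ptab {m : ℕ} {T : ι → ℕ × ℕ} {κ : YoungDiagram} (hT : IsTab univ T κ)
    (hκ : ∀ c ∈ κ, c.1 < 2) (a b : Fin m → ι) (s : ι)
    (hcov : ∀ i, i = s ∨ ∃ k, i = a k ∨ i = b k)
    (ha : ∀ k, rowf T (a k) = 0) (hb : ∀ k, rowf T (b k) = 1) (hs : rowf T s = 0)
    (hab : ∀ k, colf T (a k) = colf T (b k))
    (hinj : ∀ k k', colf T (a k) = colf T (a k') → k = k')
    (hs' : (1, colf T s) ∉ κ) (y : ι → ℕ) :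
    ptab univ T y = (if y s = 0 then 1 else 0) * ∏ k, Zigzag0_eps (y (a k)) (y (b k)) := by
  have hne : ∀ k, a k ≠ b k := fun k h => by
    have h1 := ha k
    rw [h, hb k] at h1
    exact one_ne_zero h1
  have hsc : ∀ k, colf T s ≠ colf T (a k) := fun k h => by
    apply hs'
    have h1 : ((T (b k)).1, (T (b k)).2) ∈ κ := hT.mem (mem_univ (b k))
    have h2 : (T (b k)).1 = 1 := hb k
    have h3 : (T (b k)).2 = colf T s := by rw [h, hab k]; rfl
    rwa [h2, h3] at h1
  have hswap : ∀ (k : Fin m) (y : ι → ℕ), ptab univ T (y ∘ swap (a k) (b k)) = -ptab univ T y := by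
    intro k y
    rw [← wrep_apply, ← act_el, ptab, ← act_mul_apply,
      el_mul_palt (swap_mem_stab (mem_univ _) (mem_univ _) (hab k)), sg_swap (hne k)]
    simp
  have hswap' : ∀ (k : Fin m) (y : ι → ℕ), (y ∘ swap (a k) (b k)) s = y s ∧
      (y ∘ swap (a k) (b k)) (a k) = y (b k) ∧ (y ∘ swap (a k) (b k)) (b k) = y (a k) ∧
      ∀ k', k' ≠ k → (y ∘ swap (a k) (b k)) (a k') = y (a k') ∧
        (y ∘ swap (a k) (b k)) (b k') = y (b k') := by
    intro k y
    refine ⟨?_, by simp, by simp, fun k' hk' => ⟨?_, ?_⟩⟩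
    · rw [Function.comp_apply, swap_apply_of_ne_of_ne]
      · intro h; exact hsc k (by rw [h])
      · intro h; exact hsc k (by rw [h, hab k])
    · rw [Function.comp_apply, swap_apply_of_ne_of_ne]
      · intro h; exact hk' (hinj _ _ (by rw [h]))
      · intro h; exact hk' (hinj _ _ (by rw [h, hab k]))
    · rw [Function.comp_apply, swap_apply_of_ne_of_ne]
      · intro h; exact hk' (hinj _ _ (by rw [hab k', h]))
      · intro h; exact hk' (hinj _ _ (by rw [hab k', h, hab k]))
  by_cases hy : y s = 0 ∧ ∀ k, (y (a k) = 0 ∧ y (b k) = 1) ∨ (y (a k) = 1 ∧ y (b k) = 0)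
  · have key : ∀ (n : ℕ) (y : ι → ℕ), (univ.filter fun k => y (a k) = 1).card = n →
        (y s = 0 ∧ ∀ k, (y (a k) = 0 ∧ y (b k) = 1) ∨ (y (a k) = 1 ∧ y (b k) = 0)) →
        ptab univ T y = ∏ k, Zigzag0_eps (y (a k)) (y (b k)) := by
      intro n
      induction n with
      | zero =>
        intro y hn hy
        have h0 : ∀ k, y (a k) = 0 ∧ y (b k) = 1 := by
          intro k
          refine (hy.2 k).resolve_right (fun h => ?_)
          have : k ∈ univ.filter fun k => y (a k) = 1 := mem_filter.mpr ⟨mem_univ k, h.1⟩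
          rw [card_eq_zero.mp hn] at this
          exact notMem_empty _ this
        have hyT : y = rowf T := by
          funext i
          rcases hcov i with rfl | ⟨k, rfl | rfl⟩
          · rw [hy.1, hs]
          · rw [(h0 k).1, ha k]
          · rw [(h0 k).2, hb k]
        rw [prod_eq_one (fun k _ => by simp [Zigzag0_eps, h0 k]), hyT, ptab_apply_row hT]
      | succ n ih =>
        intro y hn hy
        obtain ⟨k, hk⟩ : (univ.filter fun k => y (a k) = 1).Nonempty := card_pos.mp (by omega)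
        have hk1 : y (a k) = 1 := (mem_filter.mp hk).2
        have hk0 : y (b k) = 0 := by
          rcases hy.2 k with h | h
          · omega
          · exact h.2
        obtain ⟨e1, e2, e3, e4⟩ := hswap' k y
        have hcard : (univ.filter fun k' => (y ∘ swap (a k) (b k)) (a k') = 1).card = n := by
          have : (univ.filter fun k' => (y ∘ swap (a k) (b k)) (a k') = 1) =
              (univ.filter fun k => y (a k) = 1).erase k := by
            ext k'
            simp only [mem_filter, mem_univ, true_and, mem_erase]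
            by_cases hk' : k' = k
            · subst hk'
              rw [e2, hk0]
              simp
            · rw [(e4 k' hk').1]
              simp [hk']
          rw [this, card_erase_of_mem hk, hn]
          rfl
        have h1 := ih (y ∘ swap (a k) (b k)) hcard ⟨by rw [e1]; exact hy.1, fun k' => by
          by_cases hk' : k' = k
          · subst hk'
            rw [e2, e3]
            exact Or.inl ⟨hk0, hk1⟩
          · rw [(e4 k' hk').1, (e4 k' hk').2]
            exact hy.2 k'⟩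
        rw [hswap k y, ← mul_prod_erase univ _ (mem_univ k), e2, e3, Zigzag0_eps_swap,
          prod_congr rfl (fun k' hk' => by
            rw [(e4 k' (ne_of_mem_erase hk')).1, (e4 k' (ne_of_mem_erase hk')).2])] at h1
        rw [← mul_prod_erase univ _ (mem_univ k)]
        linear_combination -h1
    rw [key _ y rfl hy, if_pos hy.1, one_mul]
  · have hL : ptab univ T y = 0 := by
      by_contra h0
      apply hy
      have hlt : ∀ i, y i < 2 := by
        intro i
        have h1 := ptab_apply_lt hT h0 (mem_univ i)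
        have h2 : (y i, colf T i) ∈ κ := YoungDiagram.mem_iff_lt_colLen.mpr h1
        exact hκ _ h2
      refine ⟨?_, fun k => ?_⟩
      · have h1 := ptab_apply_lt hT h0 (mem_univ s)
        rw [YoungDiagram.mem_iff_lt_colLen] at hs'
        omega
      · have h1 : y (a k) ≠ y (b k) := fun h =>
          h0 (act_palt_apply_eq_zero (hne k) (mem_univ _) (mem_univ _) (hab k) h _)
        have := hlt (a k)
        have := hlt (b k)
        omega
    rw [hL]
    by_cases hys : y s = 0
    · have : ∃ k, ¬ ((y (a k) = 0 ∧ y (b k) = 1) ∨ (y (a k) = 1 ∧ y (b k) = 0)) := by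
        by_contra hc
        exact hy ⟨hys, fun k => by
          by_contra hk
          exact hc ⟨k, hk⟩⟩
      obtain ⟨k, hk⟩ := this
      rw [prod_eq_zero (mem_univ k), mul_zero]
      rw [not_or] at hk
      rw [Zigzag0_eps, if_neg hk.1, if_neg hk.2]
    · rw [if_neg hys, zero_mul]

theorem Zigzag0_expand {u : WM ι} (hu : ∀ x, u x ≠ 0 → ∀ i, x i < 2) :
    u = ∑ x : ι → Fin 2, u (fun i => (x i : ℕ)) • Finsupp.single (fun i => (x i : ℕ)) (1 : ℂ) := by
  classical
  ext z
  rw [Finsupp.finsetSum_apply]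
  simp only [Finsupp.smul_apply, Finsupp.single_apply, smul_eq_mul, mul_ite, mul_one, mul_zero]
  by_cases hz : ∀ i, z i < 2
  · rw [sum_eq_single (fun i => (⟨z i, hz i⟩ : Fin 2))]
    · simp
    · intro x _ hx
      rw [if_neg]
      intro h
      apply hx
      funext i
      apply Fin.ext
      exact congrFun h i
    · simp
  · rw [sum_eq_zero]
    · by_contra h
      exact hz (hu z h)
    · intro x _
      rw [if_neg]
      intro h
      apply hz
      intro i
      rw [← h]
      exact (x i).2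

/-- extension of a finite word by zero -/
def Zigzag0_ext {n : ℕ} (x : Fin n → Fin 2) : ℕ → Fin 2 := fun p => if h : p < n then x ⟨p, h⟩ else 0

theorem Zigzag0_sum_succ (n : ℕ) (f : (ℕ → Fin 2) → ℂ) :
    ∑ x : Fin (n + 1) → Fin 2, f (Zigzag0_ext x) =
      ∑ a : Fin 2, ∑ x : Fin n → Fin 2, f (Function.update (Zigzag0_ext x) n a) := by
  rw [← (Fin.snocEquiv fun _ : Fin (n + 1) => Fin 2).sum_comp, Fintype.sum_prod_type]
  refine sum_congr rfl (fun a _ => sum_congr rfl (fun x _ => ?_))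
  congr 1
  funext p
  rcases lt_trichotomy p n with h | h | h
  · rw [Function.update_of_ne h.ne]
    have e : (⟨p, by omega⟩ : Fin (n + 1)) = Fin.castSucc ⟨p, h⟩ := rfl
    simp only [Zigzag0_ext, dif_pos h, dif_pos (show p < n + 1 by omega), e, Fin.snocEquiv,
      Equiv.coe_fn_mk, Fin.snoc_castSucc]
  · subst h
    rw [Function.update_self]
    have e : (⟨p, by omega⟩ : Fin (p + 1)) = Fin.last p := rfl
    simp only [Zigzag0_ext, dif_pos (show p < p + 1 by omega), e, Fin.snocEquiv,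
      Equiv.coe_fn_mk, Fin.snoc_last]
  · rw [Function.update_of_ne h.ne']
    simp only [Zigzag0_ext, dif_neg (show ¬ p < n + 1 by omega), dif_neg (show ¬ p < n by omega)]

/-- double sum over words -/
noncomputable def Zigzag0_S (n : ℕ) (f : (ℕ → Fin 2) → (ℕ → Fin 2) → ℂ) : ℂ :=
  ∑ x : Fin n → Fin 2, ∑ y : Fin n → Fin 2, f (Zigzag0_ext x) (Zigzag0_ext y)

theorem Zigzag0_S_succ (n : ℕ) (f : (ℕ → Fin 2) → (ℕ → Fin 2) → ℂ) :
    Zigzag0_S (n + 1) f = ∑ a : Fin 2, ∑ b : Fin 2,
      Zigzag0_S n (fun X Y => f (Function.update X n a) (Function.update Y n b)) := by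
  unfold Zigzag0_S
  rw [Zigzag0_sum_succ n (fun X => ∑ y : Fin (n + 1) → Fin 2, f X (Zigzag0_ext y))]
  refine sum_congr rfl (fun a _ => ?_)
  rw [sum_comm (s := (univ : Finset (Fin 2)))]
  exact sum_congr rfl (fun x _ => Zigzag0_sum_succ n _)

/-- the weight of a pair of words -/
noncomputable def Zigzag0_g (Q : ℕ → Matrix (Fin 2) (Fin 2) ℂ) (m : ℕ) (X Y : ℕ → Fin 2) : ℂ :=
  (if (X 0 : ℕ) = 0 then 1 else 0) * (∏ k ∈ range m, Zigzag0_eps (X (2 * k + 2)) (X (2 * k + 1))) *
    (∏ k ∈ range m, Zigzag0_eps (Y (2 * k)) (Y (2 * k + 1))) *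
    ∏ p ∈ range (2 * m + 1), Q p (X p) (Y p)

theorem Zigzag0_g_congr (Q : ℕ → Matrix (Fin 2) (Fin 2) ℂ) (m : ℕ) {X Y X' Y' : ℕ → Fin 2}
    (hX : ∀ p, p < 2 * m + 1 → X p = X' p) (hY : ∀ p, p < 2 * m + 1 → Y p = Y' p) :
    Zigzag0_g Q m X Y = Zigzag0_g Q m X' Y' := by
  unfold Zigzag0_g
  rw [hX 0 (by omega)]
  congr 1
  · congr 1
    · congr 1
      refine prod_congr rfl (fun k hk => ?_)
      have := mem_range.mp hk
      rw [hX _ (by omega), hX _ (by omega)]
    · refine prod_congr rfl (fun k hk => ?_)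
      have := mem_range.mp hk
      rw [hY _ (by omega), hY _ (by omega)]
  · refine prod_congr rfl (fun k hk => ?_)
    have := mem_range.mp hk
    rw [hX _ this, hY _ this]

theorem Zigzag0_g_succ (Q : ℕ → Matrix (Fin 2) (Fin 2) ℂ) (m : ℕ) (X Y : ℕ → Fin 2) :
    Zigzag0_g Q (m + 1) X Y = Zigzag0_g Q m X Y *
      (Zigzag0_eps (X (2 * m + 2)) (X (2 * m + 1)) * Zigzag0_eps (Y (2 * m)) (Y (2 * m + 1)) *
        Q (2 * m + 1) (X (2 * m + 1)) (Y (2 * m + 1)) *
        Q (2 * m + 2) (X (2 * m + 2)) (Y (2 * m + 2))) := by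
  unfold Zigzag0_g
  rw [show 2 * (m + 1) + 1 = 2 * m + 1 + 1 + 1 from rfl, prod_range_succ, prod_range_succ,
    prod_range_succ _ (2 * m + 1 + 1), prod_range_succ _ (2 * m + 1)]
  ring

theorem Zigzag0_main (Q : ℕ → Matrix (Fin 2) (Fin 2) ℂ) (m : ℕ) : ∀ φ : Fin 2 → ℂ,
    Zigzag0_S (2 * m + 1) (fun X Y => Zigzag0_g Q m X Y * φ (Y (2 * m))) =
      ∑ j, altProd Q m 0 j * φ j := by
  induction m with
  | zero =>
    intro φ
    rw [show 2 * 0 + 1 = 0 + 1 from rfl, Zigzag0_S_succ]
    simp [Zigzag0_S, Zigzag0_g, altProd]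
  | succ m ih =>
    intro φ
    rw [show 2 * (m + 1) + 1 = 2 * m + 1 + 1 + 1 from rfl, Zigzag0_S_succ]
    simp only [Zigzag0_S_succ _ (n := 2 * m + 1)]
    have key : ∀ a b c d : Fin 2, Zigzag0_S (2 * m + 1) (fun X Y =>
        Zigzag0_g Q (m + 1)
          (Function.update (Function.update X (2 * m + 1) c) (2 * m + 1 + 1) a)
          (Function.update (Function.update Y (2 * m + 1) d) (2 * m + 1 + 1) b) *
        φ (Function.update (Function.update Y (2 * m + 1) d) (2 * m + 1 + 1) b (2 * (m + 1)))) =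
        ∑ j, altProd Q m 0 j * (Zigzag0_eps a c * Zigzag0_eps j d * Q (2 * m + 1) c d *
          Q (2 * m + 2) a b * φ b) := by
      intro a b c d
      rw [← ih (fun j => Zigzag0_eps a c * Zigzag0_eps j d * Q (2 * m + 1) c d *
          Q (2 * m + 2) a b * φ b)]
      congr 1
      funext X Y
      rw [Zigzag0_g_succ, Zigzag0_g_congr Q m (X' := X) (Y' := Y)
        (fun p hp => by rw [Function.update_of_ne (by omega), Function.update_of_ne (by omega)])
        (fun p hp => by rw [Function.update_of_ne (by omega), Function.update_of_ne (by omega)])]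
      have e1 : ∀ (Z : ℕ → Fin 2) (u v : Fin 2),
          Function.update (Function.update Z (2 * m + 1) u) (2 * m + 1 + 1) v (2 * m + 2) = v :=
        fun Z u v => Function.update_self _ _ _
      have e2 : ∀ (Z : ℕ → Fin 2) (u v : Fin 2),
          Function.update (Function.update Z (2 * m + 1) u) (2 * m + 1 + 1) v (2 * m + 1) = u :=
        fun Z u v => by rw [Function.update_of_ne (by omega), Function.update_self]
      have e3 : ∀ (Z : ℕ → Fin 2) (u v : Fin 2),
          Function.update (Function.update Z (2 * m + 1) u) (2 * m + 1 + 1) v (2 * m) = Z (2 * m) :=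
        fun Z u v => by rw [Function.update_of_ne (by omega), Function.update_of_ne (by omega)]
      rw [show 2 * (m + 1) = 2 * m + 2 from rfl]
      simp only [e1, e2, e3]
      ring
    simp only [key]
    simp only [Fin.sum_univ_two, altProd, Matrix.mul_apply, Matrix.adjugate_fin_two]
    simp [Zigzag0_eps]
    ring

/-- the contraction of the two zigzag polytabloids is an entry of a matrix product -/
theorem tens_zig (m : ℕ) (Q : ℕ → Matrix (Fin 2) (Fin 2) ℂ) (r : Fin (2 * m + 1) → ℕ) :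
    tens (fun a x y => if h : x < 2 ∧ y < 2 then Q a ⟨x, h.1⟩ ⟨y, h.2⟩ else 0) r
        (ptab univ (zig1 m)) (ptab univ (zig2 m)) =
      altProd (fun p => if h : p < 2 * m + 1 then Q (r ⟨p, h⟩) else 0) m 0 0 := by
  have hκ : ∀ c ∈ zz m, c.1 < 2 := fun c hc => (mem_zz.mp hc).1
  have hlt : ∀ T : Fin (2 * m + 1) → ℕ × ℕ, IsTab univ T (zz m) →
      ∀ x, ptab univ T x ≠ 0 → ∀ i, x i < 2 := by
    intro T hT x hx i
    exact hκ (x i, colf T i) (YoungDiagram.mem_iff_lt_colLen.mpr (ptab_apply_lt hT hx (mem_univ i)))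
  have h2 : ∀ y, ptab univ (zig2 m) y = (if y ⟨2 * m, by omega⟩ = 0 then 1 else 0) *
      ∏ k : Fin m, Zigzag0_eps (y ⟨2 * k, by omega⟩) (y ⟨2 * k + 1, by omega⟩) := by
    refine Zigzag0_ptab (isTab_zig2 m) hκ (fun k => ⟨2 * k, by omega⟩)
      (fun k => ⟨2 * k + 1, by omega⟩) ⟨2 * m, by omega⟩ (fun i => ?_) (fun k => ?_) (fun k => ?_)
      ?_ (fun k => ?_) (fun k k' h => ?_) ?_
    · have := i.2
      by_cases h : (i : ℕ) = 2 * m
      · exact Or.inl (Fin.ext h)
      · refine Or.inr ⟨⟨i / 2, by omega⟩, ?_⟩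
        simp only [Fin.ext_iff]
        omega
    · simp only [rowf, zig2]; omega
    · simp only [rowf, zig2]; omega
    · simp only [rowf, zig2]; omega
    · simp only [colf, zig2]; omega
    · simp only [colf, zig2] at h
      apply Fin.ext
      omega
    · rw [mem_zz]
      simp only [colf, zig2]
      omega
  have h1 : ∀ y, ptab univ (zig1 m) y = (if y ⟨0, by omega⟩ = 0 then 1 else 0) *
      ∏ k : Fin m, Zigzag0_eps (y ⟨2 * k + 2, by omega⟩) (y ⟨2 * k + 1, by omega⟩) := by
    refine Zigzag0_ptab (isTab_zig1 m) hκ (fun k => ⟨2 * k + 2, by omega⟩)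
      (fun k => ⟨2 * k + 1, by omega⟩) ⟨0, by omega⟩ (fun i => ?_) (fun k => ?_) (fun k => ?_)
      ?_ (fun k => ?_) (fun k k' h => ?_) ?_
    · have := i.2
      by_cases h : (i : ℕ) = 0
      · exact Or.inl (Fin.ext h)
      · refine Or.inr ⟨⟨(i - 1) / 2, by omega⟩, ?_⟩
        simp only [Fin.ext_iff]
        omega
    · have := k.2
      simp only [rowf, zig1]; omega
    · have := k.2
      simp only [rowf, zig1]; omega
    · simp only [rowf, zig1]; omega
    · have := k.2
      simp only [colf, zig1]; omega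
    · have := k.2
      have := k'.2
      simp only [colf, zig1] at h
      apply Fin.ext
      omega
    · rw [mem_zz]
      simp only [colf, zig1]
      omega
  have hmain := Zigzag0_main (fun p => if h : p < 2 * m + 1 then Q (r ⟨p, h⟩) else 0) m
    (fun j => if (j : ℕ) = 0 then 1 else 0)
  rw [Fin.sum_univ_two] at hmain
  simp only [Fin.val_zero, Fin.val_one, if_true, one_ne_zero, if_false, mul_one, mul_zero,
    add_zero] at hmain
  rw [← hmain, Zigzag0_expand (hlt _ (isTab_zig1 m)), Zigzag0_expand (hlt _ (isTab_zig2 m))]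
  simp only [map_sum, map_smul, LinearMap.sum_apply, LinearMap.smul_apply, tens_single, smul_eq_mul]
  rw [Zigzag0_S]
  simp only [mul_sum]
  rw [sum_comm]
  refine sum_congr rfl (fun x _ => sum_congr rfl (fun y _ => ?_))
  rw [h1, h2, Zigzag0_g, ← Fin.prod_univ_eq_prod_range
      (fun k => Zigzag0_eps (Zigzag0_ext x (2 * k + 2)) (Zigzag0_ext x (2 * k + 1))) m,
    ← Fin.prod_univ_eq_prod_range
      (fun k => Zigzag0_eps (Zigzag0_ext y (2 * k)) (Zigzag0_ext y (2 * k + 1))) m,
    ← Fin.prod_univ_eq_prod_range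
      (fun p => (if h : p < 2 * m + 1 then Q (r ⟨p, h⟩) else 0) (Zigzag0_ext x p)
        (Zigzag0_ext y p)) (2 * m + 1)]
  have ex : ∀ (z : Fin (2 * m + 1) → Fin 2) (p : ℕ) (h : p < 2 * m + 1),
      Zigzag0_ext z p = z ⟨p, h⟩ := fun z p h => dif_pos h
  have f1 : ∀ k : Fin m, Zigzag0_eps (Zigzag0_ext x (2 * k + 2)) (Zigzag0_ext x (2 * k + 1)) =
      Zigzag0_eps (x ⟨2 * k + 2, by omega⟩) (x ⟨2 * k + 1, by omega⟩) := fun k => by
    rw [ex x _ (by omega), ex x _ (by omega)]
  have f2 : ∀ k : Fin m, Zigzag0_eps (Zigzag0_ext y (2 * k)) (Zigzag0_ext y (2 * k + 1)) =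
      Zigzag0_eps (y ⟨2 * k, by omega⟩) (y ⟨2 * k + 1, by omega⟩) := fun k => by
    rw [ex y _ (by omega), ex y _ (by omega)]
  have f3 : ∀ p : Fin (2 * m + 1), (if h : (p : ℕ) < 2 * m + 1 then Q (r ⟨p, h⟩) else 0)
      (Zigzag0_ext x p) (Zigzag0_ext y p) =
      if h : (x p : ℕ) < 2 ∧ (y p : ℕ) < 2 then Q (r p) ⟨x p, h.1⟩ ⟨y p, h.2⟩ else 0 := fun p => by
    rw [dif_pos p.2, dif_pos ⟨(x p).2, (y p).2⟩, ex x _ p.2, ex y _ p.2]
  simp only [f1, f2, f3]
  rw [ex x 0 (by omega), ex y (2 * m) (by omega)]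
  ring

end Crest.Agent.R195
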