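/- Row 195, task Zigzag: the two-row step: all shapes with at most four rows occur. -/
import Crest.Agent.R195.Zigzag0

set_option autoImplicit false

namespace Crest.Agent.R195

open Equiv Finset

variable {ι : Type} [Fintype ι] [DecidableEq ι]

/-- the four unit quaternions -/
noncomputable def ZigzagB : ℕ → Matrix (Fin 2) (Fin 2) ℂ
  | 0 => !![1, 0; 0, 1]
  | 1 => !![Complex.I, 0; 0, -Complex.I]
  | 2 => !![0, 1; -1, 0]
  | _ => !![0, Complex.I; Complex.I, 0]

/-- Clifford relations on the indices `< 4` -/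
structure ZigzagCl (Q : ℕ → Matrix (Fin 2) (Fin 2) ℂ) : Prop where
  h1 : ∀ a < 4, ∀ b < 4, a ≠ b → (Q a).adjugate * Q b = -((Q b).adjugate * Q a)
  h2 : ∀ a < 4, ∀ b < 4, a ≠ b → Q a * (Q b).adjugate = -(Q b * (Q a).adjugate)
  h3 : ∀ a < 4, (Q a).adjugate * Q a = 1

theorem Zigzag_cl_B : ZigzagCl ZigzagB := by
  refine ⟨fun a ha b hb hab => ?_, fun a ha b hb hab => ?_, fun a ha => ?_⟩
  · interval_cases a <;> interval_cases b <;>
      first
      | exact absurd rfl hab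
      | (ext i j; fin_cases i <;> fin_cases j <;> simp [ZigzagB, Matrix.adjugate_fin_two_of])
  · interval_cases a <;> interval_cases b <;>
      first
      | exact absurd rfl hab
      | (ext i j; fin_cases i <;> fin_cases j <;> simp [ZigzagB, Matrix.adjugate_fin_two_of])
  · interval_cases a <;>
      (ext i j; fin_cases i <;> fin_cases j <;> simp [ZigzagB, Matrix.adjugate_fin_two_of])

theorem Zigzag_cl_comp {Q : ℕ → Matrix (Fin 2) (Fin 2) ℂ} (h : ZigzagCl Q) (ρ : ℕ → ℕ)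
    (h1 : ∀ a < 4, ρ a < 4) (h2 : ∀ a < 4, ∀ b < 4, ρ a = ρ b → a = b) :
    ZigzagCl (fun a => Q (ρ a)) :=
  ⟨fun a ha b hb hab => h.h1 _ (h1 a ha) _ (h1 b hb) fun e => hab (h2 a ha b hb e),
    fun a ha b hb hab => h.h2 _ (h1 a ha) _ (h1 b hb) fun e => hab (h2 a ha b hb e),
    fun a ha => h.h3 _ (h1 a ha)⟩

theorem Zigzag_B123 : (ZigzagB 1 * (ZigzagB 2).adjugate * ZigzagB 3) 0 0 ≠ 0 := by
  simp [ZigzagB, Matrix.adjugate_fin_two_of]

theorem Zigzag_altProd_congr {Q Q' : ℕ → Matrix (Fin 2) (Fin 2) ℂ} (j : ℕ)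
    (h : ∀ p ≤ 2 * j, Q p = Q' p) : altProd Q j = altProd Q' j := by
  induction j with
  | zero => exact h 0 le_rfl
  | succ j ih =>
    simp only [altProd]
    rw [ih fun p hp => h p (by omega), h _ (by omega), h (2 * j + 2) (by omega)]

/-- the matrices attached to the letters of a word -/
noncomputable def ZigzagQ {n : ℕ} (Q : ℕ → Matrix (Fin 2) (Fin 2) ℂ) (x : Fin n → ℕ) :
    ℕ → Matrix (Fin 2) (Fin 2) ℂ := fun p => if h : p < n then Q (x ⟨p, h⟩) else 0

theorem ZigzagQ_of_lt {n : ℕ} (Q : ℕ → Matrix (Fin 2) (Fin 2) ℂ) (x : Fin n → ℕ) {p : ℕ}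
    (h : p < n) : ZigzagQ Q x p = Q (x ⟨p, h⟩) := dif_pos h

open Classical in
/-- the partially contracted test function -/
noncomputable def ZigzagPhi {m : ℕ} (Q : ℕ → Matrix (Fin 2) (Fin 2) ℂ) (j : ℕ)
    (x : Fin (2 * m + 1) → ℕ) : ℂ :=
  if ∀ p q : Fin (2 * m + 1), 2 * j + 1 ≤ (p : ℕ) → (p : ℕ) % 2 = 1 → (q : ℕ) = p + 1 → x p = x q
  then altProd (ZigzagQ Q x) j 0 0 else 0

theorem ZigzagPhi_top {m : ℕ} (Q : ℕ → Matrix (Fin 2) (Fin 2) ℂ) (x : Fin (2 * m + 1) → ℕ) :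
    ZigzagPhi Q m x = altProd (ZigzagQ Q x) m 0 0 := by
  unfold ZigzagPhi
  rw [if_pos]
  intro p q h1
  have := p.2
  omega

theorem ZigzagPhi_step {m : ℕ} {Q : ℕ → Matrix (Fin 2) (Fin 2) ℂ} (hQ : ZigzagCl Q) {j : ℕ}
    (hj : j < m) (x : Fin (2 * m + 1) → ℕ) (hx : ∀ p, x p < 4) :
    ZigzagPhi Q (j + 1) x + ZigzagPhi Q (j + 1)
      (x ∘ swap (⟨2 * j + 1, by omega⟩ : Fin (2 * m + 1)) ⟨2 * j + 2, by omega⟩) =
      2 * ZigzagPhi Q j x := by
  set a : Fin (2 * m + 1) := ⟨2 * j + 1, by omega⟩ with ha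
  set b : Fin (2 * m + 1) := ⟨2 * j + 2, by omega⟩ with hb
  have hfix : ∀ p : Fin (2 * m + 1), (p : ℕ) ≠ 2 * j + 1 → (p : ℕ) ≠ 2 * j + 2 →
      swap a b p = p := by
    intro p h1 h2
    exact swap_apply_of_ne_of_ne (fun h => h1 (by rw [h])) (fun h => h2 (by rw [h]))
  have e1 : altProd (ZigzagQ Q (x ∘ swap a b)) j = altProd (ZigzagQ Q x) j := by
    refine Zigzag_altProd_congr j fun p hp => ?_
    have hp' : p < 2 * m + 1 := by omega
    rw [ZigzagQ_of_lt _ _ hp', ZigzagQ_of_lt _ _ hp', Function.comp_apply,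
      hfix _ (by simp only; omega) (by simp only; omega)]
  have e2 : altProd (ZigzagQ Q x) (j + 1) =
      altProd (ZigzagQ Q x) j * ((Q (x a)).adjugate * Q (x b)) := by
    simp only [altProd]
    rw [ZigzagQ_of_lt _ _ a.2, ZigzagQ_of_lt _ _ b.2, mul_assoc]
  have e3 : altProd (ZigzagQ Q (x ∘ swap a b)) (j + 1) =
      altProd (ZigzagQ Q x) j * ((Q (x b)).adjugate * Q (x a)) := by
    simp only [altProd]
    rw [ZigzagQ_of_lt _ _ a.2, ZigzagQ_of_lt _ _ b.2, mul_assoc, e1]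
    simp only [Function.comp_apply]
    rw [show (⟨2 * j + 1, a.2⟩ : Fin (2 * m + 1)) = a from rfl,
      show (⟨2 * j + 2, b.2⟩ : Fin (2 * m + 1)) = b from rfl, swap_apply_left, swap_apply_right]
  have hiff : (∀ p q : Fin (2 * m + 1), 2 * (j + 1) + 1 ≤ (p : ℕ) → (p : ℕ) % 2 = 1 →
      (q : ℕ) = p + 1 → (x ∘ swap a b) p = (x ∘ swap a b) q) ↔
      (∀ p q : Fin (2 * m + 1), 2 * (j + 1) + 1 ≤ (p : ℕ) → (p : ℕ) % 2 = 1 →
      (q : ℕ) = p + 1 → x p = x q) := by
    refine forall_congr' fun p => forall_congr' fun q => forall_congr' fun h1 =>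
      forall_congr' fun h2 => forall_congr' fun h3 => ?_
    rw [Function.comp_apply, Function.comp_apply, hfix p (by omega) (by omega),
      hfix q (by omega) (by omega)]
  unfold ZigzagPhi
  by_cases h : ∀ p q : Fin (2 * m + 1), 2 * (j + 1) + 1 ≤ (p : ℕ) → (p : ℕ) % 2 = 1 →
      (q : ℕ) = p + 1 → x p = x q
  · rw [if_pos h, if_pos (hiff.2 h), e2, e3]
    by_cases hab : x a = x b
    · rw [if_pos, hab, hQ.h3 _ (hx b), mul_one]
      · ring
      intro p q h1 h2 h3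
      by_cases hp : (p : ℕ) = 2 * j + 1
      · have hpa : p = a := Fin.ext hp
        have hqb : q = b := Fin.ext (by rw [h3, hp])
        rw [hpa, hqb, hab]
      · exact h p q (by omega) h2 h3
    · rw [if_neg, hQ.h1 _ (hx a) _ (hx b) hab, mul_neg, Matrix.neg_apply, neg_add_cancel, mul_zero]
      intro h'
      exact hab (h' a b le_rfl (by simp only [ha]; omega) rfl)
  · rw [if_neg h, if_neg (fun h' => h (hiff.1 h')), if_neg, mul_zero, add_zero]
    intro h'
    exact h fun p q h1 h2 h3 => h' p q (by omega) h2 h3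

/-- vanishing of the top test function propagates down -/
theorem Zigzag_descend {m : ℕ} {Q : ℕ → Matrix (Fin 2) (Fin 2) ℂ} (hQ : ZigzagCl Q)
    (C : Finset (Perm (Fin (2 * m + 1)))) (r : Fin (2 * m + 1) → ℕ) (hr : ∀ p, r p < 4)
    (h : ∀ g : Perm (Fin (2 * m + 1)), ∑ c ∈ C, sg c * ZigzagPhi Q m (r ∘ c ∘ g) = 0) :
    ∀ k j, j + k = m → ∀ g : Perm (Fin (2 * m + 1)),
      ∑ c ∈ C, sg c * ZigzagPhi Q j (r ∘ c ∘ g) = 0 := by
  intro k
  induction k with
  | zero =>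
    intro j hj
    rw [add_zero] at hj
    subst hj
    exact h
  | succ k ih =>
    intro j hj g
    have hj' : j < m := by omega
    have h1 := ih (j + 1) (by omega) g
    have h2 := ih (j + 1) (by omega)
      (g * swap (⟨2 * j + 1, by omega⟩ : Fin (2 * m + 1)) ⟨2 * j + 2, by omega⟩)
    have h3 : 2 * ∑ c ∈ C, sg c * ZigzagPhi Q j (r ∘ c ∘ g) = 0 := by
      rw [← add_zero (0 : ℂ)]
      nth_rewrite 2 [← h2]
      rw [← h1, ← Finset.sum_add_distrib, Finset.mul_sum]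
      refine Finset.sum_congr rfl fun c _ => ?_
      rw [← mul_add, mul_left_comm, ← ZigzagPhi_step hQ hj' (r ∘ c ∘ g) fun p => hr _]
      rfl
    exact (mul_eq_zero.1 h3).resolve_left two_ne_zero

/-- the alternating product of at most three distinct units is alternating -/
theorem Zigzag_alt {m t : ℕ} (ht : t ≤ 1) (htm : t ≤ m) {Q : ℕ → Matrix (Fin 2) (Fin 2) ℂ}
    (hQ : ZigzagCl Q) :
    ∀ d ∈ SP (univ.filter fun p : Fin (2 * m + 1) => (p : ℕ) < 2 * t + 1),
      ∀ x : Fin (2 * m + 1) → ℕ, (∀ p, x p < 4) →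
        (∀ p q : Fin (2 * m + 1), (p : ℕ) < 2 * t + 1 → (q : ℕ) < 2 * t + 1 → x p = x q → p = q) →
        altProd (ZigzagQ Q (x ∘ d)) t = sg d • altProd (ZigzagQ Q x) t := by
  refine SP_swap_induction ?_ ?_
  · intro x _ _
    rw [sg_one, one_smul]
    rfl
  · intro g _ i hi j hj hij ih x hx hinj
    simp only [Finset.mem_filter, Finset.mem_univ, true_and] at hi hj
    have hsw : ∀ p : Fin (2 * m + 1), (p : ℕ) < 2 * t + 1 → ((swap i j p : Fin _) : ℕ) < 2 * t + 1 := by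
      intro p hp
      rw [swap_apply_def]
      split_ifs <;> assumption
    have e0 : x ∘ (swap i j * g : Perm _) = (x ∘ swap i j) ∘ g := rfl
    rw [e0, ih (x ∘ swap i j) (fun p => hx _) (fun p q hp hq h =>
      (swap i j).injective (hinj _ _ (hsw p hp) (hsw q hq) h)), sg_mul, sg_swap hij]
    have key : altProd (ZigzagQ Q (x ∘ swap i j)) t = -altProd (ZigzagQ Q x) t := by
      have ht1 : t = 1 := by
        by_contra h
        apply hij
        apply Fin.ext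
        omega
      subst ht1
      have l0 : 0 < 2 * m + 1 := by omega
      have l1 : 2 * 0 + 1 < 2 * m + 1 := by omega
      have l2 : 2 * 0 + 2 < 2 * m + 1 := by omega
      simp only [altProd]
      rw [ZigzagQ_of_lt _ _ l0, ZigzagQ_of_lt _ _ l1, ZigzagQ_of_lt _ _ l2, ZigzagQ_of_lt _ _ l0,
        ZigzagQ_of_lt _ _ l1, ZigzagQ_of_lt _ _ l2]
      set p0 : Fin (2 * m + 1) := ⟨0, l0⟩ with hp0
      set p1 : Fin (2 * m + 1) := ⟨2 * 0 + 1, l1⟩ with hp1
      set p2 : Fin (2 * m + 1) := ⟨2 * 0 + 2, l2⟩ with hp2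
      have n01 : p0 ≠ p1 := fun h => by have := congrArg Fin.val h; simp [hp0, hp1] at this
      have n02 : p0 ≠ p2 := fun h => by have := congrArg Fin.val h; simp [hp0, hp2] at this
      have n12 : p1 ≠ p2 := fun h => by have := congrArg Fin.val h; simp [hp1, hp2] at this
      have x01 : x p0 ≠ x p1 := fun h => n01 (hinj _ _ (by simp [hp0]) (by simp [hp1]) h)
      have x02 : x p0 ≠ x p2 := fun h => n02 (hinj _ _ (by simp [hp0]) (by simp [hp2]) h)
      have x12 : x p1 ≠ x p2 := fun h => n12 (hinj _ _ (by simp [hp1]) (by simp [hp2]) h)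
      have k01 : Q (x p1) * (Q (x p0)).adjugate * Q (x p2) =
          -(Q (x p0) * (Q (x p1)).adjugate * Q (x p2)) := by
        rw [hQ.h2 _ (hx p1) _ (hx p0) x01.symm, neg_mul]
      have k12 : Q (x p0) * (Q (x p2)).adjugate * Q (x p1) =
          -(Q (x p0) * (Q (x p1)).adjugate * Q (x p2)) := by
        rw [mul_assoc, hQ.h1 _ (hx p2) _ (hx p1) x12.symm, mul_neg, mul_assoc]
      have k02 : Q (x p2) * (Q (x p1)).adjugate * Q (x p0) =
          -(Q (x p0) * (Q (x p1)).adjugate * Q (x p2)) := by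
        rw [hQ.h2 _ (hx p2) _ (hx p1) x12.symm, neg_mul, mul_assoc,
          hQ.h1 _ (hx p2) _ (hx p0) x02.symm, mul_neg, neg_neg, ← mul_assoc, k01]
      have hi' : i = p0 ∨ i = p1 ∨ i = p2 := by
        simp only [Fin.ext_iff, hp0, hp1, hp2]; omega
      have hj' : j = p0 ∨ j = p1 ∨ j = p2 := by
        simp only [Fin.ext_iff, hp0, hp1, hp2]; omega
      simp only [Function.comp_apply]
      rcases hi' with rfl | rfl | rfl <;> rcases hj' with rfl | rfl | rfl
      · exact absurd rfl hij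
      · rw [swap_apply_left, swap_apply_right, swap_apply_of_ne_of_ne n02.symm n12.symm, k01]
      · rw [swap_apply_left, swap_apply_right, swap_apply_of_ne_of_ne n01.symm n12, k02]
      · rw [swap_apply_left, swap_apply_right, swap_apply_of_ne_of_ne n12.symm n02.symm, k01]
      · exact absurd rfl hij
      · rw [swap_apply_left, swap_apply_right, swap_apply_of_ne_of_ne n01 n02, k12]
      · rw [swap_apply_left, swap_apply_right, swap_apply_of_ne_of_ne n12 n01.symm, k02]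
      · rw [swap_apply_left, swap_apply_right, swap_apply_of_ne_of_ne n02 n01, k12]
      · exact absurd rfl hij
    rw [key, smul_neg, neg_one_mul, neg_smul]

/-- an injective enumeration of a finite set -/
theorem Zigzag_enum (S : Finset (ℕ × ℕ)) :
    ∃ f : ℕ → ℕ × ℕ, (∀ i < S.card, f i ∈ S) ∧ ∀ i < S.card, ∀ j < S.card, f i = f j → i = j := by
  refine ⟨fun i => if h : i < S.card then (S.equivFin.symm ⟨i, h⟩ : ℕ × ℕ) else (0, 0),
    fun i hi => ?_, fun i hi j hj h => ?_⟩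
  · simp only [dif_pos hi]
    exact (S.equivFin.symm ⟨i, hi⟩).2
  · simp only [dif_pos hi, dif_pos hj] at h
    have := S.equivFin.symm.injective (Subtype.ext h)
    exact congrArg Fin.val this

/-- the domino tableau -/
theorem Zigzag_tab (m : ℕ) {ν : YoungDiagram} (hc : ν.card = 2 * m + 1) (h4 : ν.colLen 0 ≤ 4) :
    ∃ (t : ℕ) (T : Fin (2 * m + 1) → ℕ × ℕ), t ≤ 1 ∧ t ≤ m ∧ IsTab univ T ν ∧
      (∀ p q : Fin (2 * m + 1), 2 * t + 1 ≤ (p : ℕ) → (p : ℕ) % 2 = 1 → (q : ℕ) = p + 1 →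
        T q = ((T p).1, (T p).2 + 1) ∧ (T p).2 % 2 = 0) ∧
      ∀ p : Fin (2 * m + 1), (p : ℕ) < 2 * t + 1 →
        (T p).2 % 2 = 0 ∧ ((T p).1, (T p).2 + 1) ∉ ν := by
  classical
  set E := ν.cells.filter fun c => c.2 % 2 = 0 ∧ (c.1, c.2 + 1) ∉ ν with hE
  set L := ν.cells.filter fun c => c.2 % 2 = 0 ∧ (c.1, c.2 + 1) ∈ ν with hL
  set R := ν.cells.filter fun c => ¬ c.2 % 2 = 0 with hR
  have hLR : L.card = R.card := by
    refine Finset.card_bij' (fun c _ => (c.1, c.2 + 1)) (fun c _ => (c.1, c.2 - 1)) ?_ ?_ ?_ ?_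
    · intro c hc
      simp only [hL, hR, Finset.mem_filter, YoungDiagram.mem_cells] at hc ⊢
      exact ⟨hc.2.2, by omega⟩
    · intro c hc
      simp only [hL, hR, Finset.mem_filter, YoungDiagram.mem_cells] at hc ⊢
      refine ⟨ν.up_left_mem le_rfl (Nat.sub_le _ _) hc.1, by omega, ?_⟩
      rw [show c.2 - 1 + 1 = c.2 by omega]
      exact hc.1
    · intro c _
      simp
    · intro c hc
      simp only [hR, Finset.mem_filter] at hc
      ext
      · rfl
      · simp only; omega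
  have hsum : E.card + L.card + R.card = 2 * m + 1 := by
    have h1 := Finset.card_filter_add_card_filter_not (s := ν.cells) (fun c => c.2 % 2 = 0)
    have h2 := Finset.card_filter_add_card_filter_not
      (s := ν.cells.filter fun c => c.2 % 2 = 0) (fun c => (c.1, c.2 + 1) ∈ ν)
    rw [Finset.filter_filter, Finset.filter_filter] at h2
    have h3 : ν.cells.card = 2 * m + 1 := hc
    rw [hE, hL, hR]
    omega
  have hE4 : E.card ≤ 4 := by
    have : E.card ≤ (range 4).card := by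
      refine Finset.card_le_card_of_injOn Prod.fst (fun c hc => ?_) (fun c hc c' hc' h => ?_)
      · simp only [hE, Finset.coe_filter, YoungDiagram.mem_cells, Set.mem_ofPred_eq] at hc
        have h1 : (c.1, 0) ∈ ν := ν.up_left_mem le_rfl (Nat.zero_le _) hc.1
        rw [YoungDiagram.mem_iff_lt_colLen] at h1
        simp only [Finset.coe_range, Set.mem_Iio]
        omega
      · simp only [hE, Finset.coe_filter, YoungDiagram.mem_cells, Set.mem_ofPred_eq] at hc hc'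
        obtain ⟨a, b⟩ := c
        obtain ⟨a', b'⟩ := c'
        simp only at h hc hc'
        subst h
        simp only [YoungDiagram.mem_iff_lt_rowLen] at hc hc'
        congr 1
        omega
    simpa using this
  obtain ⟨t, ht⟩ : ∃ t, E.card = 2 * t + 1 := ⟨E.card / 2, by omega⟩
  obtain ⟨fE, hfE, hfE'⟩ := Zigzag_enum E
  obtain ⟨fL, hfL, hfL'⟩ := Zigzag_enum L
  have hLc : L.card = m - t := by omega
  have hfE1 : ∀ i < 2 * t + 1, fE i ∈ ν ∧ (fE i).2 % 2 = 0 ∧ ((fE i).1, (fE i).2 + 1) ∉ ν := by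
    intro i hi
    have := hfE i (by omega)
    simpa only [hE, Finset.mem_filter, YoungDiagram.mem_cells] using this
  have hfL1 : ∀ i < m - t, fL i ∈ ν ∧ (fL i).2 % 2 = 0 ∧ ((fL i).1, (fL i).2 + 1) ∈ ν := by
    intro i hi
    have := hfL i (by omega)
    simpa only [hL, Finset.mem_filter, YoungDiagram.mem_cells] using this
  set T : Fin (2 * m + 1) → ℕ × ℕ := fun p => if (p : ℕ) < 2 * t + 1 then fE p else
    ((fL ((p - (2 * t + 1)) / 2)).1, (fL ((p - (2 * t + 1)) / 2)).2 + (p - (2 * t + 1)) % 2)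
    with hT
  have hT1 : ∀ p : Fin (2 * m + 1), (p : ℕ) < 2 * t + 1 → T p = fE p := fun p hp => if_pos hp
  have hT2 : ∀ p : Fin (2 * m + 1), ¬ (p : ℕ) < 2 * t + 1 → T p =
      ((fL ((p - (2 * t + 1)) / 2)).1, (fL ((p - (2 * t + 1)) / 2)).2 + (p - (2 * t + 1)) % 2) :=
    fun p hp => if_neg hp
  have hlt : ∀ p : Fin (2 * m + 1), ¬ (p : ℕ) < 2 * t + 1 → (p - (2 * t + 1)) / 2 < m - t := by
    intro p hp
    have := p.2
    omega
  have hcross : ∀ p q : Fin (2 * m + 1), (p : ℕ) < 2 * t + 1 → ¬ (q : ℕ) < 2 * t + 1 →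
      T p ≠ T q := by
    intro p q hp hq h
    rw [hT1 p hp, hT2 q hq] at h
    obtain ⟨-, h2, h3⟩ := hfE1 p hp
    obtain ⟨-, h5, h6⟩ := hfL1 _ (hlt q hq)
    rw [h] at h2 h3
    simp only at h2 h3
    have : ((q : ℕ) - (2 * t + 1)) % 2 = 0 := by omega
    rw [this, add_zero] at h3
    exact h3 h6
  refine ⟨t, T, by omega, by omega, isTab_of_card (fun p _ => ?_) (fun p _ q _ h => ?_) ?_,
    fun p q h1 h2 h3 => ?_, fun p hp => ?_⟩
  · by_cases hp : (p : ℕ) < 2 * t + 1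
    · rw [hT1 p hp]; exact (hfE1 p hp).1
    · rw [hT2 p hp]
      obtain ⟨-, -, h6⟩ := hfL1 _ (hlt p hp)
      exact ν.up_left_mem le_rfl (by omega) h6
  · by_cases hp : (p : ℕ) < 2 * t + 1 <;> by_cases hq : (q : ℕ) < 2 * t + 1
    · rw [hT1 p hp, hT1 q hq] at h
      exact Fin.ext (hfE' p (by omega) q (by omega) h)
    · exact absurd h (hcross p q hp hq)
    · exact absurd h.symm (hcross q p hq hp)
    · rw [hT2 p hp, hT2 q hq, Prod.mk.injEq] at h
      obtain ⟨-, h2, -⟩ := hfL1 _ (hlt p hp)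
      obtain ⟨-, h5, -⟩ := hfL1 _ (hlt q hq)
      have h7 := hfL' _ (hLc ▸ hlt p hp) _ (hLc ▸ hlt q hq) (Prod.ext h.1 (by omega))
      apply Fin.ext
      omega
  · rw [hc]; simp
  · have hp : ¬ (p : ℕ) < 2 * t + 1 := by omega
    have hq : ¬ (q : ℕ) < 2 * t + 1 := by omega
    rw [hT2 p hp, hT2 q hq]
    have e1 : ((q : ℕ) - (2 * t + 1)) / 2 = ((p : ℕ) - (2 * t + 1)) / 2 := by omega
    have e2 : ((q : ℕ) - (2 * t + 1)) % 2 = 1 := by omega
    have e3 : ((p : ℕ) - (2 * t + 1)) % 2 = 0 := by omega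
    rw [e1, e2, e3]
    exact ⟨rfl, (hfL1 _ (hlt p hp)).2.1⟩
  · rw [hT1 p hp]
    exact (hfE1 p hp).2

/-- the involution exchanging the two halves of every domino -/
def ZigzagTheta (m t : ℕ) : Perm (Fin (2 * m + 1)) :=
  Function.Involutive.toPerm
    (fun p => ⟨if (p : ℕ) < 2 * t + 1 then p else if (p : ℕ) % 2 = 1 then p + 1 else p - 1, by
      have := p.2
      split_ifs <;> omega⟩)
    (fun p => by
      apply Fin.ext
      simp only
      split_ifs <;> omega)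

theorem ZigzagTheta_val (m t : ℕ) (p : Fin (2 * m + 1)) : (ZigzagTheta m t p : ℕ) =
    if (p : ℕ) < 2 * t + 1 then (p : ℕ) else if (p : ℕ) % 2 = 1 then p + 1 else p - 1 := rfl

theorem ZigzagTheta_sq (m t : ℕ) (p : Fin (2 * m + 1)) :
    ZigzagTheta m t (ZigzagTheta m t p) = p := by
  apply Fin.ext
  rw [ZigzagTheta_val, ZigzagTheta_val]
  split_ifs <;> omega

/-- a surviving column permutation has the sign of its restriction to the ends of the odd rows -/
theorem Zigzag_sign {m t : ℕ} {T : Fin (2 * m + 1) → ℕ × ℕ} {ν : YoungDiagram}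
    (hT : IsTab univ T ν)
    (hD : ∀ p q : Fin (2 * m + 1), 2 * t + 1 ≤ (p : ℕ) → (p : ℕ) % 2 = 1 → (q : ℕ) = p + 1 →
        T q = ((T p).1, (T p).2 + 1) ∧ (T p).2 % 2 = 0)
    (hE : ∀ p : Fin (2 * m + 1), (p : ℕ) < 2 * t + 1 →
        (T p).2 % 2 = 0 ∧ ((T p).1, (T p).2 + 1) ∉ ν)
    {c : Perm (Fin (2 * m + 1))} (hc : c ∈ stab univ (colf T))
    (hgood : ∀ p q : Fin (2 * m + 1), 2 * t + 1 ≤ (p : ℕ) → (p : ℕ) % 2 = 1 → (q : ℕ) = p + 1 →
      rowf T (c p) = rowf T (c q)) :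
    ∃ d ∈ SP (univ.filter fun p : Fin (2 * m + 1) => (p : ℕ) < 2 * t + 1), sg c = sg d ∧
      ∀ p : Fin (2 * m + 1), (p : ℕ) < 2 * t + 1 → c p = d p := by
  set θ := ZigzagTheta m t with hθ
  have hcol : ∀ p, (T (c p)).2 = (T p).2 := (mem_stab.1 hc).2
  have hθL : ∀ p : Fin (2 * m + 1), 2 * t + 1 ≤ (p : ℕ) ∧ (p : ℕ) % 2 = 1 →
      (θ p : ℕ) = p + 1 := by
    intro p hp
    rw [hθ, ZigzagTheta_val, if_neg (by omega), if_pos hp.2]
  have hθR : ∀ p : Fin (2 * m + 1), 2 * t + 1 ≤ (p : ℕ) → (p : ℕ) % 2 = 0 →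
      (θ p : ℕ) + 1 = p := by
    intro p hp hp'
    rw [hθ, ZigzagTheta_val, if_neg (by omega), if_neg (by omega)]
    omega
  have hθE : ∀ p : Fin (2 * m + 1), (p : ℕ) < 2 * t + 1 → θ p = p := by
    intro p hp
    apply Fin.ext
    rw [hθ, ZigzagTheta_val, if_pos hp]
  have hθθ : ∀ p, θ (θ p) = p := ZigzagTheta_sq m t
  have key : ∀ p : Fin (2 * m + 1), 2 * t + 1 ≤ (p : ℕ) ∧ (p : ℕ) % 2 = 1 →
      (2 * t + 1 ≤ (c p : ℕ) ∧ (c p : ℕ) % 2 = 1) ∧ c (θ p) = θ (c p) := by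
    intro p hp
    obtain ⟨h1, h2⟩ := hD p (θ p) hp.1 hp.2 (hθL p hp)
    have h3 : T (c (θ p)) = ((T (c p)).1, (T (c p)).2 + 1) := by
      refine Prod.ext (hgood p (θ p) hp.1 hp.2 (hθL p hp)).symm ?_
      rw [hcol, hcol, h1]
    have h4 : 2 * t + 1 ≤ (c p : ℕ) := by
      by_contra h
      exact (hE (c p) (not_le.1 h)).2 (h3 ▸ hT.mem (Finset.mem_univ _))
    have h5 : (c p : ℕ) % 2 = 1 := by
      by_contra h
      have h6 := hθR (c p) h4 (by omega)
      obtain ⟨h7, h8⟩ := hD (θ (c p)) (c p) (by omega) (by omega) h6.symm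
      have h9 := hcol p
      rw [h7] at h9
      simp only at h9
      omega
    refine ⟨⟨h4, h5⟩, hT.inj (Finset.mem_univ _) (Finset.mem_univ _) ?_⟩
    rw [h3, (hD (c p) (θ (c p)) h4 h5 (hθL _ ⟨h4, h5⟩)).1]
  set a : Perm (Fin (2 * m + 1)) := Perm.ofSubtype (c.subtypePermOfFintype
    (p := fun p : Fin (2 * m + 1) => 2 * t + 1 ≤ (p : ℕ) ∧ (p : ℕ) % 2 = 1)
    fun p hp => (key p hp).1) with ha
  have ha1 : ∀ p : Fin (2 * m + 1), 2 * t + 1 ≤ (p : ℕ) ∧ (p : ℕ) % 2 = 1 → a p = c p := by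
    intro p hp
    exact Perm.ofSubtype_apply_of_mem
      (p := fun p : Fin (2 * m + 1) => 2 * t + 1 ≤ (p : ℕ) ∧ (p : ℕ) % 2 = 1) _ hp
  have ha2 : ∀ p : Fin (2 * m + 1), ¬ (2 * t + 1 ≤ (p : ℕ) ∧ (p : ℕ) % 2 = 1) → a p = p := by
    intro p hp
    exact Perm.ofSubtype_apply_of_not_mem
      (p := fun p : Fin (2 * m + 1) => 2 * t + 1 ≤ (p : ℕ) ∧ (p : ℕ) % 2 = 1) _ hp
  have hab : ∀ p : Fin (2 * m + 1), ¬ (p : ℕ) < 2 * t + 1 → (a * (θ * a * θ)) p = c p := by
    intro p hp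
    simp only [Perm.mul_apply]
    by_cases h : (p : ℕ) % 2 = 1
    · have h1 := hθL p ⟨by omega, h⟩
      rw [ha2 (θ p) (by omega), hθθ, ha1 p ⟨by omega, h⟩]
    · have h1 := hθR p (by omega) (by omega)
      have h2 : 2 * t + 1 ≤ (θ p : ℕ) ∧ (θ p : ℕ) % 2 = 1 := by omega
      obtain ⟨h3, h4⟩ := key (θ p) h2
      rw [hθθ] at h4
      have h5 := hθL _ h3
      rw [ha1 _ h2, ha2 _ (by omega), ← h4]
  have hab' : ∀ p : Fin (2 * m + 1), (p : ℕ) < 2 * t + 1 → (a * (θ * a * θ)) p = p := by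
    intro p hp
    simp only [Perm.mul_apply]
    rw [hθE p hp, ha2 p (by omega), hθE p hp, ha2 p (by omega)]
  have hd : (a * (θ * a * θ))⁻¹ * c ∈
      SP (univ.filter fun p : Fin (2 * m + 1) => (p : ℕ) < 2 * t + 1) := by
    intro p hp
    simp only [Finset.mem_filter, Finset.mem_univ, true_and] at hp
    rw [Perm.mul_apply, Perm.inv_eq_iff_eq, hab p hp]
  refine ⟨_, hd, ?_, fun p hp => ?_⟩
  · rw [sg_mul, sg_inv, sg_mul, sg_mul, sg_mul]
    have h1 := sg_mul_self a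
    have h2 := sg_mul_self θ
    linear_combination (-(sg c) * sg θ * sg θ) * h1 - sg c * h2
  · have h1 := (SP_apply_mem_iff hd p).2 (by simpa using hp)
    simp only [Finset.mem_filter, Finset.mem_univ, true_and] at h1
    have h2 := hab' _ h1
    rw [← h2, ← Perm.mul_apply, mul_inv_cancel_left]

/-- a choice of units with nonzero final entry -/
theorem Zigzag_choose {m t : ℕ} (ht : t ≤ 1) (htm : t ≤ m) (x : Fin (2 * m + 1) → ℕ)
    (hx : ∀ p, x p < 4)
    (hinj : ∀ p q : Fin (2 * m + 1), (p : ℕ) < 2 * t + 1 → (q : ℕ) < 2 * t + 1 → x p = x q →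
      p = q) :
    ∃ Q, ZigzagCl Q ∧ altProd (ZigzagQ Q x) t 0 0 ≠ 0 := by
  have l0 : 0 < 2 * m + 1 := by omega
  interval_cases t
  · have h0 := hx ⟨0, l0⟩
    refine ⟨fun a => ZigzagB (if a = x ⟨0, l0⟩ then 0 else if a = 0 then x ⟨0, l0⟩ else a),
      Zigzag_cl_comp Zigzag_cl_B _ (fun a ha => by split_ifs <;> omega)
        (fun a ha b hb h => by split_ifs at h <;> omega), ?_⟩
    simp only [altProd]
    rw [ZigzagQ_of_lt _ _ l0, if_pos rfl]
    simp [ZigzagB]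
  · have l1 : 2 * 0 + 1 < 2 * m + 1 := by omega
    have l2 : 2 * 0 + 2 < 2 * m + 1 := by omega
    have h0 := hx ⟨0, l0⟩
    have h1 := hx ⟨_, l1⟩
    have h2 := hx ⟨_, l2⟩
    have x01 : x ⟨0, l0⟩ ≠ x ⟨_, l1⟩ := fun h => by
      have := congrArg Fin.val (hinj _ _ (by simp) (by simp) h); simp at this
    have x02 : x ⟨0, l0⟩ ≠ x ⟨_, l2⟩ := fun h => by
      have := congrArg Fin.val (hinj _ _ (by simp) (by simp) h); simp at this
    have x12 : x ⟨_, l1⟩ ≠ x ⟨_, l2⟩ := fun h => by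
      have := congrArg Fin.val (hinj _ _ (by simp) (by simp) h); simp at this
    refine ⟨fun a => ZigzagB (if a = x ⟨0, l0⟩ then 1 else if a = x ⟨_, l1⟩ then 2 else
        if a = x ⟨_, l2⟩ then 3 else 0),
      Zigzag_cl_comp Zigzag_cl_B _ (fun a ha => by split_ifs <;> omega)
        (fun a ha b hb h => by split_ifs at h <;> omega), ?_⟩
    simp only [altProd]
    rw [ZigzagQ_of_lt _ _ l0, ZigzagQ_of_lt _ _ l1, ZigzagQ_of_lt _ _ l2, if_pos rfl,
      if_neg x01.symm, if_pos rfl, if_neg x02.symm, if_neg x12.symm, if_pos rfl]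
    exact Zigzag_B123

/-- A shape of odd size with at most 4 rows has 1 or 3 odd rows.  Choose `T` such that positions
`(2j, 2j+1)` form horizontal dominoes in columns `(2c, 2c+1)`, and the last one (or the last three)
positions are the ends of the odd rows.  Sum the test value of `goodVec_of_tens` over
`g = ∏_{j ∈ S} swap (2j) (2j+1)` (dominoes only): `Q Q̄' + Q' Q̄ = 2⟨Q,Q'⟩`, so only column permutations
acting in the same way on both columns of each pair survive, each with sign `+`; for three odd rows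
`Q_a Q̄_b Q_c` is alternating in distinct `a b c`.  Choose `s` = the odd row (1 odd row) or the unique
even row index `< 4` (3 odd rows), so that the final `(0,0)` entry is `± 1`. -/
theorem goodVec_zig (m : ℕ) {ν : YoungDiagram} (hc : ν.card = 2 * m + 1) (h4 : ν.colLen 0 ≤ 4) :
    GoodVec (ptab univ (zig1 m)) (ptab univ (zig2 m)) ν := by
  classical
  obtain ⟨t, T, ht, htm, hT, hD, hE⟩ := Zigzag_tab m hc h4
  have hr : ∀ p, rowf T p < 4 := by
    intro p
    have h1 : ((T p).1, 0) ∈ ν :=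
      ν.up_left_mem le_rfl (Nat.zero_le _) (hT.mem (Finset.mem_univ p))
    rw [YoungDiagram.mem_iff_lt_colLen] at h1
    exact lt_of_lt_of_le h1 h4
  have hinj : ∀ p q : Fin (2 * m + 1), (p : ℕ) < 2 * t + 1 → (q : ℕ) < 2 * t + 1 →
      rowf T p = rowf T q → p = q := by
    intro p q hp hq h
    refine hT.inj (Finset.mem_univ _) (Finset.mem_univ _) (Prod.ext h ?_)
    have h1 : ((T p).1, (T p).2) ∈ ν := hT.mem (Finset.mem_univ p)
    have h2 : ((T q).1, (T q).2) ∈ ν := hT.mem (Finset.mem_univ q)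
    have h3 := (hE p hp).2
    have h4 := (hE q hq).2
    change (T p).1 = (T q).1 at h
    rw [YoungDiagram.mem_iff_lt_rowLen] at h1 h2 h3 h4
    rw [h] at h1 h3
    omega
  obtain ⟨Q, hQ, hκ⟩ := Zigzag_choose ht htm (rowf T) hr hinj
  by_contra hcon
  have h0 : ∀ g : Perm (Fin (2 * m + 1)),
      ∑ c ∈ stab univ (colf T), sg c * ZigzagPhi Q m (rowf T ∘ c ∘ g) = 0 := by
    intro g
    by_contra h
    refine hcon (goodVec_of_tens hT
      (fun a x y => if h : x < 2 ∧ y < 2 then Q a ⟨x, h.1⟩ ⟨y, h.2⟩ else 0) g ?_)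
    simp only [tens_zig]
    simp only [ZigzagPhi_top] at h
    exact h
  have h1 := Zigzag_descend hQ _ (rowf T) hr h0 (m - t) t (by omega) 1
  have h2 : ∀ c ∈ stab univ (colf T), sg c * ZigzagPhi Q t (rowf T ∘ c ∘ (1 : Perm (Fin (2 * m + 1)))) =
      (if ∀ p q : Fin (2 * m + 1), 2 * t + 1 ≤ (p : ℕ) → (p : ℕ) % 2 = 1 → (q : ℕ) = p + 1 →
        rowf T (c p) = rowf T (c q) then 1 else 0) * altProd (ZigzagQ Q (rowf T)) t 0 0 := by
    intro c hc
    unfold ZigzagPhi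
    by_cases hgood : ∀ p q : Fin (2 * m + 1), 2 * t + 1 ≤ (p : ℕ) → (p : ℕ) % 2 = 1 →
        (q : ℕ) = p + 1 → rowf T (c p) = rowf T (c q)
    · rw [if_pos hgood, if_pos (by exact hgood), one_mul]
      obtain ⟨d, hd, hs, hcd⟩ := Zigzag_sign hT hD hE hc hgood
      have e1 : altProd (ZigzagQ Q (rowf T ∘ c ∘ (1 : Perm (Fin (2 * m + 1))))) t =
          altProd (ZigzagQ Q (rowf T ∘ d)) t := by
        refine Zigzag_altProd_congr t fun p hp => ?_
        have hp' : p < 2 * m + 1 := by omega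
        rw [ZigzagQ_of_lt _ _ hp', ZigzagQ_of_lt _ _ hp', Function.comp_apply, Function.comp_apply,
          Function.comp_apply, ← hcd _ (by simp only; omega)]
        rfl
      rw [e1, Zigzag_alt ht htm hQ d hd (rowf T) hr hinj, hs, Matrix.smul_apply, smul_eq_mul,
        ← mul_assoc, sg_mul_self, one_mul]
    · rw [if_neg hgood, if_neg (by exact hgood), mul_zero, zero_mul]
  rw [Finset.sum_congr rfl h2, ← Finset.sum_mul, Finset.sum_boole] at h1
  refine hκ ((mul_eq_zero.1 h1).resolve_left ?_)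
  rw [Nat.cast_eq_zero, Finset.card_eq_zero, ← ne_eq, ← Finset.nonempty_iff_ne_empty]
  refine ⟨1, Finset.mem_filter.2 ⟨one_mem_stab _ _, fun p q h1 h2 h3 => ?_⟩⟩
  simp only [Perm.one_apply, rowf]
  rw [(hD p q h1 h2 h3).1]

theorem good_zig (m : ℕ) {τ : Fin (2 * m + 1) → ℤ} (hτ : StrictMono τ) {ν : YoungDiagram}
    (hc : ν.card = 2 * m + 1) (h4 : ν.colLen 0 ≤ 4) :
    Good τ (zig1 m) (zig2 m) (zz m) (zz m) ν :=
  good_of_GT (isGT_zig1 m hτ) (isGT_zig2 m hτ) (goodVec_zig m hc h4)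

end Crest.Agent.R195
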