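/- Row 195, task InterS: induction step for the staircase. -/
import Crest.Agent.R195.Inter0
import Crest.Agent.R195.Step
import Crest.Agent.R195.Split
import Crest.Agent.R195.ExtRow
import Crest.Agent.R195.Zigzag
import Crest.Agent.R195.Cover

set_option autoImplicit false

namespace Crest.Agent.R195

open Equiv Finset

variable {ι : Type} [Fintype ι] [DecidableEq ι]

theorem interS_eq_bot {l : YoungDiagram} (h : l.card = 0) : l = ⊥ := by
  have h' : l.cells = ∅ := Finset.card_eq_zero.1 h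
  refine YoungDiagram.ext ?_
  rw [h', YoungDiagram.cells_bot]

theorem interS_stair_transpose (m : ℕ) : (stair m).transpose = stair m := by
  refine YoungDiagram.ext (Finset.ext fun c => ?_)
  rw [YoungDiagram.mem_cells, YoungDiagram.mem_cells, YoungDiagram.mem_transpose, mem_stair,
    mem_stair, Prod.fst_swap, Prod.snd_swap, add_comm]

/-- put `TZ` below the two rows of `TY` -/
def interS_row {ι Y Z : Type} (e : Y ⊕ Z ≃ ι) (TY : Y → ℕ × ℕ) (TZ : Z → ℕ × ℕ) : ι → ℕ × ℕ :=
  fun i => Sum.elim TY (fun z => ((TZ z).1 + 2, (TZ z).2)) (e.symm i)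

theorem interS_row_inl {ι Y Z : Type} (e : Y ⊕ Z ≃ ι) (TY : Y → ℕ × ℕ) (TZ : Z → ℕ × ℕ) (y : Y) :
    interS_row e TY TZ (e (Sum.inl y)) = TY y := by
  simp [interS_row]

theorem interS_row_inr {ι Y Z : Type} (e : Y ⊕ Z ≃ ι) (TY : Y → ℕ × ℕ) (TZ : Z → ℕ × ℕ) (z : Z) :
    interS_row e TY TZ (e (Sum.inr z)) = ((TZ z).1 + 2, (TZ z).2) := by
  simp [interS_row]

omit [DecidableEq ι] in
theorem interS_std {Y Z : Type} [Fintype Y] [Fintype Z] (e : Y ⊕ Z ≃ ι) {m : ℕ} {τ : ι → ℤ}
    (hτ : Function.Injective τ) {TY : Y → ℕ × ℕ} {TZ : Z → ℕ × ℕ} {τZ : Z → ℤ}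
    (hY : Std (fun y => τ (e (Sum.inl y))) TY (zz m)) (hZ : Std τZ TZ (stair (m - 1)))
    (hτZ : ∀ z z', τZ z ≤ τZ z' → τ (e (Sum.inr z)) ≤ τ (e (Sum.inr z')))
    (hmix : ∀ y z, (TY y).2 ≤ (TZ z).2 → τ (e (Sum.inl y)) ≤ τ (e (Sum.inr z))) :
    Std τ (interS_row e TY TZ) (stair (m + 1)) := by
  have hYm : ∀ y, (TY y).1 < 2 ∧ (TY y).1 + (TY y).2 ≤ m := fun y =>
    mem_zz.1 (hY.2.1.mem (mem_univ y))
  have hZm : ∀ z, (TZ z).1 + (TZ z).2 < m - 1 := fun z => mem_stair.1 (hZ.2.1.mem (mem_univ z))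
  refine ⟨hτ, isTab_of (fun i _ => ?_) (fun i _ j _ hij => ?_) fun c hc => ?_, fun i j hij => ?_⟩
  · obtain ⟨x, rfl⟩ := e.surjective i
    rcases x with y | z
    · have := hYm y
      rw [interS_row_inl, mem_stair]
      omega
    · have := hZm z
      rw [interS_row_inr, mem_stair]
      simp only
      omega
  · obtain ⟨x, rfl⟩ := e.surjective i
    obtain ⟨x', rfl⟩ := e.surjective j
    rcases x with y | z <;> rcases x' with y' | z'
    · rw [interS_row_inl, interS_row_inl] at hij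
      rw [hY.2.1.inj (mem_univ _) (mem_univ _) hij]
    · rw [interS_row_inl, interS_row_inr] at hij
      have := (hYm y).1
      rw [hij] at this
      simp only at this
      omega
    · rw [interS_row_inl, interS_row_inr] at hij
      have := (hYm y').1
      rw [← hij] at this
      simp only at this
      omega
    · rw [interS_row_inr, interS_row_inr, Prod.mk.injEq] at hij
      rw [hZ.2.1.inj (mem_univ z) (mem_univ z') (Prod.ext (by omega) hij.2)]
  · rw [mem_stair] at hc
    by_cases h2 : c.1 < 2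
    · obtain ⟨y, -, hy⟩ := hY.2.1.surj (c := c) (mem_zz.2 ⟨h2, by omega⟩)
      exact ⟨e (Sum.inl y), mem_univ _, by rw [interS_row_inl, hy]⟩
    · obtain ⟨z, -, hz⟩ := hZ.2.1.surj (c := (c.1 - 2, c.2)) (mem_stair.2 (by simp only; omega))
      refine ⟨e (Sum.inr z), mem_univ _, ?_⟩
      rw [interS_row_inr, hz]
      exact Prod.ext (by simp only; omega) rfl
  · obtain ⟨x, rfl⟩ := e.surjective i
    obtain ⟨x', rfl⟩ := e.surjective j
    rcases x with y | z <;> rcases x' with y' | z'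
    · rw [interS_row_inl, interS_row_inl] at hij
      exact hY.2.2 y y' hij
    · rw [interS_row_inl, interS_row_inr] at hij
      exact hmix y z' hij.2
    · rw [interS_row_inl, interS_row_inr] at hij
      have h1 := (hYm y').1
      have h2 : (TZ z).1 + 2 ≤ (TY y').1 := hij.1
      omega
    · rw [interS_row_inr, interS_row_inr] at hij
      have h2 : (TZ z).1 + 2 ≤ (TZ z').1 + 2 := hij.1
      exact hτZ z z' (hZ.2.2 z z' ⟨by omega, hij.2⟩)

omit [DecidableEq ι] in
theorem interS_time {Z : Type} [Fintype Z] {m : ℕ} (e : Fin (2 * m + 1) ⊕ Z ≃ ι) {τZ : Z → ℤ}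
    (hτ : Function.Injective τZ) {T1Z T2Z : Z → ℕ × ℕ} (env : EnvS τZ T1Z T2Z (m - 1)) :
    ∃ τ : ι → ℤ, Function.Injective τ ∧ StrictMono (fun p => τ (e (Sum.inl p))) ∧
      (∀ z z', τ (e (Sum.inr z)) ≤ τ (e (Sum.inr z')) ↔ τZ z ≤ τZ z') ∧
      (∀ (p : Fin (2 * m + 1)) z, τ (e (Sum.inl p)) ≤ τ (e (Sum.inr z)) →
        (p : ℕ) + 2 * (T1Z z).2 + 2 ≤ 2 * m) ∧
      ∀ (p : Fin (2 * m + 1)) z, ¬ τ (e (Sum.inl p)) ≤ τ (e (Sum.inr z)) →
        2 * max (T2Z z).1 (T2Z z).2 + 3 ≤ p := by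
  classical
  set J : Z → ℕ := fun z => (univ.filter fun k => τZ z ≤ τZ k).sup fun k => (T1Z k).2 with hJ
  have hJ1 : ∀ z k, τZ z ≤ τZ k → (T1Z k).2 ≤ J z := fun z k h =>
    Finset.le_sup (f := fun k => (T1Z k).2) (mem_filter.2 ⟨mem_univ _, h⟩)
  have hJ2 : ∀ z, ∃ k, τZ z ≤ τZ k ∧ J z = (T1Z k).2 := by
    intro z
    obtain ⟨k, hk, h⟩ := Finset.exists_mem_eq_sup (univ.filter fun k => τZ z ≤ τZ k)
      ⟨z, mem_filter.2 ⟨mem_univ _, le_rfl⟩⟩ fun k => (T1Z k).2
    exact ⟨k, (mem_filter.1 hk).2, h⟩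
  obtain ⟨τ, h1, h2, h3, h4⟩ := exists_time e hτ (fun z => 2 * m - 1 - 2 * J z) (by
    intro z z' h
    obtain ⟨k, hk, hk'⟩ := hJ2 z'
    have := hJ1 z k (h.trans hk)
    omega)
  refine ⟨τ, h1, h2, h3, fun p z h => ?_, fun p z h => ?_⟩
  · have h5 := (h4 p z).1 h
    have h6 := hJ1 z z le_rfl
    omega
  · rw [h4] at h
    obtain ⟨k, hk, hk'⟩ := hJ2 z
    have := env z k hk
    omega

theorem stateS_zero : StateS 0 := by
  intro l hl
  have h0 : (stair 0).card = 0 := by
    have := two_mul_card_stair 0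
    omega
  have : IsEmpty (Fin (stair 0).card) := ⟨fun i => absurd i.2 (by omega)⟩
  have key : ∀ κ : YoungDiagram, κ = ⊥ → ∀ (τ : Fin (stair 0).card → ℤ)
      (T : Fin (stair 0).card → ℕ × ℕ), Std τ T κ := by
    rintro κ rfl τ T
    exact ⟨fun i => isEmptyElim i, isTab_of (fun i => isEmptyElim i) (fun i => isEmptyElim i)
      (fun c hc => absurd hc (YoungDiagram.notMem_bot c)), fun i => isEmptyElim i⟩
  have key2 : ∀ κ l : YoungDiagram, κ = ⊥ → l = ⊥ → ∀ (τ : Fin (stair 0).card → ℤ)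
      (T : Fin (stair 0).card → ℕ × ℕ), Good τ T T κ κ l := by
    rintro κ l rfl rfl τ T
    exact good_empty τ T T
  exact ⟨0, 0, 0, key _ (interS_eq_bot h0) _ _, key _ (interS_eq_bot h0) _ _,
    key2 _ _ (interS_eq_bot h0) (interS_eq_bot (hl.trans h0)) _ _, fun i => isEmptyElim i⟩

/-- `cover_stair` gives `ν`, `split` gives `μ`, the hypothesis gives `(τZ, T1Z, T2Z)`.
Slot `s z = 2m - 1 - 2 J z` with `J z = max {(T1Z k).2 | τZ z ≤ τZ k}`.
`T1 = zig1` on `Y`, `T1Z + (2,0)` on `Z`; `T2 = zig2`, `T2Z + (2,0)` (rows; `ext_row`, `good_zig`) or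
`T2 = swap ∘ zig2`, `T2Z + (0,2)` (columns; `ext_col`, `good_twist` of `good_zig` for `ν.transpose`). -/
theorem stateS_step (m : ℕ) (h : StateS (m - 1)) : StateS (m + 1) := by
  intro l hl
  obtain ⟨ν, hνl, hν, h4⟩ := cover_stair hl
  obtain ⟨e⟩ : Nonempty (Fin (2 * m + 1) ⊕ Fin (stair (m - 1)).card ≃ Fin (stair (m + 1)).card) :=
    ⟨finSumFinEquiv.trans (finCongr (card_stair_succ m).symm)⟩
  obtain ⟨μ, hμ, -, hs⟩ := split e hνl (by rw [Fintype.card_fin, hl]) (by rw [Fintype.card_fin, hν])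
  obtain ⟨τZ, T1Z, T2Z, h1Z, h2Z, gZ, env⟩ := h μ (by rw [hμ, Fintype.card_fin])
  obtain ⟨τ, hτ, hmono, hZ, hA, hB⟩ := interS_time e h2Z.1 env
  have hτ' : Function.Injective (-τ) := fun i j hij => hτ (neg_injective hij)
  have gZ' : Good (fun z => τ (e (Sum.inr z))) T1Z T2Z (stair (m - 1)) (stair (m - 1)) μ :=
    good_congr (fun i j => (hZ i j).symm) gZ
  have hB' : ∀ (p : Fin (2 * m + 1)) z, τ (e (Sum.inr z)) ≤ τ (e (Sum.inl p)) →
      2 * max (T2Z z).1 (T2Z z).2 + 3 ≤ p := by
    intro p z hle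
    refine hB p z fun hle' => ?_
    exact Sum.inl_ne_inr (e.injective (hτ (le_antisymm hle' hle)))
  -- the backward tableau
  have hT1 : Std (-τ) (interS_row e (zig1 m) T1Z) (stair (m + 1)) := by
    refine interS_std e hτ' (std_zig1 m hmono) h1Z (fun z z' hz => ?_) fun p z hpz => ?_
    · exact neg_le_neg ((hZ z' z).2 (neg_le_neg_iff.1 hz))
    · refine neg_le_neg (le_of_not_ge fun hle => ?_)
      have := hA p z hle
      simp only [zig1] at hpz
      omega
  have hE1 : Ext (-τ) (interS_row e (zig1 m) T1Z) (stair (m + 1)) e (zig1 m) (zz m) T1Z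
      (stair (m - 1)) := by
    have := ext_row e (a := 2) (TZ := T1Z) (κY := zz m) hT1
      (fun y => by rw [interS_row_inl]; exact (mem_zz.1 ((isTab_zig1 m).mem (mem_univ y))).1)
      (fun z => interS_row_inr e _ _ z)
      (by simp only [interS_row_inl]; exact isTab_zig1 m) h1Z.2.1
    simpa only [interS_row_inl] using this
  -- the envelope condition
  have henv : ∀ T2 : Fin (stair (m + 1)).card → ℕ × ℕ,
      (∀ p : Fin (2 * m + 1), max (T2 (e (Sum.inl p))).1 (T2 (e (Sum.inl p))).2 =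
        max ((p : ℕ) % 2) ((p : ℕ) / 2)) →
      (∀ z, max (T2 (e (Sum.inr z))).1 (T2 (e (Sum.inr z))).2 ≤ max (T2Z z).1 (T2Z z).2 + 2) →
      EnvS τ (interS_row e (zig1 m) T1Z) T2 (m + 1) := by
    intro T2 hl2 hr2 j k hjk
    obtain ⟨x, rfl⟩ := e.surjective j
    obtain ⟨y, rfl⟩ := e.surjective k
    rcases x with p | z <;> rcases y with q | z'
    · have hpq : (p : ℕ) ≤ q := hmono.le_iff_le.1 hjk
      have := q.2
      rw [hl2, interS_row_inl]
      simp only [zig1]
      omega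
    · have := hA p z' hjk
      rw [hl2, interS_row_inr]
      simp only
      omega
    · have h1 := hB' q z hjk
      have h2 := hr2 z
      have := q.2
      rw [interS_row_inl]
      simp only [zig1]
      omega
    · have h1 := env z z' ((hZ z z').1 hjk)
      have h2 := hr2 z
      rw [interS_row_inr]
      simp only
      omega
  rcases h4 with h4 | h4
  · have hT2 : Std τ (interS_row e (zig2 m) T2Z) (stair (m + 1)) := by
      refine interS_std e hτ (std_zig2 m hmono) h2Z (fun z z' hz => (hZ z z').2 hz)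
        fun p z hpz => ?_
      by_contra hle
      have := hB p z hle
      simp only [zig2] at hpz
      omega
    have hE2 : Ext τ (interS_row e (zig2 m) T2Z) (stair (m + 1)) e (zig2 m) (zz m) T2Z
        (stair (m - 1)) := by
      have := ext_row e (a := 2) (TZ := T2Z) (κY := zz m) hT2
        (fun y => by rw [interS_row_inl]; exact (mem_zz.1 ((isTab_zig2 m).mem (mem_univ y))).1)
        (fun z => interS_row_inr e _ _ z)
        (by simp only [interS_row_inl]; exact isTab_zig2 m) h2Z.2.1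
      simpa only [interS_row_inl] using this
    refine ⟨τ, _, _, hT1, hT2, step e hτ hE1 hE2 (good_zig m hmono hν h4) gZ' hs,
      henv _ (fun p => ?_) fun z => ?_⟩
    · rw [interS_row_inl]; rfl
    · rw [interS_row_inr]
      simp only
      omega
  · have h2Z' : Std τZ (Prod.swap ∘ T2Z) (stair (m - 1)) := by
      have := h2Z.swap
      rwa [interS_stair_transpose] at this
    have hT2' : Std τ (interS_row e (zig2 m) (Prod.swap ∘ T2Z)) (stair (m + 1)) := by
      refine interS_std e hτ (std_zig2 m hmono) h2Z' (fun z z' hz => (hZ z z').2 hz)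
        fun p z hpz => ?_
      by_contra hle
      have := hB p z hle
      simp only [zig2, Function.comp_apply, Prod.snd_swap] at hpz
      omega
    have hT2 : Std τ (Prod.swap ∘ interS_row e (zig2 m) (Prod.swap ∘ T2Z)) (stair (m + 1)) := by
      have := hT2'.swap
      rwa [interS_stair_transpose] at this
    have hfun : (fun y => (Prod.swap ∘ interS_row e (zig2 m) (Prod.swap ∘ T2Z)) (e (Sum.inl y))) =
        Prod.swap ∘ zig2 m := by
      funext y
      rw [Function.comp_apply, interS_row_inl, Function.comp_apply]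
    have hE2 : Ext τ (Prod.swap ∘ interS_row e (zig2 m) (Prod.swap ∘ T2Z)) (stair (m + 1)) e
        (Prod.swap ∘ zig2 m) (zz m).transpose T2Z (stair (m - 1)) := by
      have := ext_col e (a := 2) (TZ := T2Z) (κY := (zz m).transpose) hT2
        (fun y => by
          rw [Function.comp_apply, interS_row_inl]
          exact (mem_zz.1 ((isTab_zig2 m).mem (mem_univ y))).1)
        (fun z => by rw [Function.comp_apply, interS_row_inr]; rfl)
        (by rw [hfun]; exact (isTab_zig2 m).swap) h2Z.2.1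
      rwa [hfun] at this
    have gY := good_twist (isTab_zig2 m) (good_zig m hmono (ν := ν.transpose)
      (by rw [card_transpose, hν]) (by rwa [YoungDiagram.colLen_transpose]))
    rw [YoungDiagram.transpose_transpose] at gY
    refine ⟨τ, _, _, hT1, hT2, step e hτ hE1 hE2 gY gZ' hs, henv _ (fun p => ?_) fun z => ?_⟩
    · rw [Function.comp_apply, interS_row_inl, max_comm]; rfl
    · rw [Function.comp_apply, interS_row_inr]
      simp only [Function.comp_apply, Prod.fst_swap, Prod.snd_swap]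
      omega

end Crest.Agent.R195
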