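/-
Row 195 overview (owner helper58).  S0297 = Saxl conjecture, S0298 = tensor square conjecture.

Word model `WM ι`; `Spec P μ` = span of polytabloids = highest weight vectors `HW P μ`; `Iso P μ` =
vectors killed by all Young symmetrisers `yc P T` of shape `≠ μ` (isotypic part for `S_P`);
`IsGT τ T κ v` = Gelfand-Tsetlin vector of the standard tableau `T` (time function `τ`).
`Good τ T1 T2 κ1 κ2 l`: the cyclic module of `u ⊗ w` (u = GT vector of the BACKWARD standard `T1`,
w = GT vector of the FORWARD standard `T2`) contains the irreducible of shape `l`.
Step lemma (`step`): if `Y` = the positions of the first rows / columns / outer hook in both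
tableaux, then extraction forces `Y` (prefix bound from `w`, suffix bound from `u`), so the cyclic
module contains `Ind (cyc_Y ⊠ cyc_Z)`; `split` is the Littlewood-Richardson input.
Saxl: remove two rows from factor 1 and two rows or two columns from factor 2 (`good_zig`: zigzag
tableaux give every shape with ≤ 4 rows, quaternion product), induct m - 2 → m (`stateS_step`).
General n: nested symmetric hooks with arm lengths a, a - 3 - …; `good_hook` gives every double
hook; `stateH_step`; base cases n = 0, 6, 11, 13 (`Cores`, explicit certificates), n = 24 special,
n = 15 is the staircase.

Dependency order: Defs, Alg0, Alg1, (Alg2, Words), HWSpec, Complete, (GT0, GT, Extremal), Twist, Emb,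
ExtRow, ExtHook*, Step, Split, GoodVec, Zigzag*, Wedge, Domino, HookPos, HookTest, DominoEx, HookF,
Cover*, Inter*, Cores, Reach, Final.
-/
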