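/- Row 195: all n except 2, 4, 9, 15 are reached by the hook induction. -/
import Crest.Agent.R195.InterS
import Crest.Agent.R195.InterH
import Crest.Agent.R195.Cover24
import Crest.Agent.R195.Cores

set_option autoImplicit false

namespace Crest.Agent.R195

open Equiv Finset

variable {ι : Type} [Fintype ι] [DecidableEq ι]

omit [Fintype ι] [DecidableEq ι]

theorem stateS_all (m : ℕ) : StateS m := by
  induction m using Nat.strong_induction_on with
  | _ m ih =>
    rcases m with _ | m
    · exact stateS_zero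
    · exact stateS_step m (ih _ (by omega))

/-- all shapes occur -/
abbrev Full (n a : ℕ) : Prop := StateH n a (fun _ => True)

theorem Full.step {m e : ℕ} (h : Full m e) (a n : ℕ) (he : e ≤ a) (hn : n = m + (2 * a + 1))
    (hc : a ≤ 3 ∨ (a + 2) ^ 2 < 4 * n) : Full n (a + 3) := by
  subst hn
  refine stateH_step (h.mono he fun _ h => h) fun l hl _ => ?_
  obtain ⟨ν, h1, h2, h3⟩ := cover_hook (a := a) (l := l) (by omega) (by rw [hl]; exact hc)
  exact ⟨ν, h1, h2, h3, fun _ _ _ => trivial⟩

theorem full24 : Full 24 10 := by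
  have h9 : StateH (0 + (2 * 4 + 1)) (4 + 3) (fun μ => (2, 2) ∉ μ) :=
    stateH_step (stateH_zero 4 (fun _ => True)) fun l hl h =>
      ⟨l, le_rfl, by simpa using hl, h, fun _ _ _ => trivial⟩
  have h24 : StateH (9 + (2 * 7 + 1)) (7 + 3) (fun _ => True) :=
    stateH_step (n := 9) h9 fun l hl _ => by
      obtain ⟨ν, h1, h2, h3, h4⟩ := cover_24 (l := l) hl
      refine ⟨ν, h1, h2, h3, fun μ _ hμ hm => ?_⟩
      rw [YoungDiagram.mem_iff_lt_colLen, hμ] at hm
      omega
  exact h24

theorem full_small : ∀ n, n < 38 → n ≠ 2 → n ≠ 4 → n ≠ 9 → n ≠ 15 →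
    ∃ e, Full n e ∧ (e ≤ 3 ∨ (e - 1) ^ 2 < 4 * n) := by
  have f0 : Full 0 0 := stateH_zero 0 _
  have f1 : Full 1 3 := f0.step 0 1 (by omega) rfl (by omega)
  have f3 : Full 3 4 := f0.step 1 3 (by omega) rfl (by omega)
  have f5 : Full 5 5 := f0.step 2 5 (by omega) rfl (by omega)
  have f6 : Full 6 5 := core6
  have f7 : Full 7 6 := f0.step 3 7 (by omega) rfl (by omega)
  have f8 : Full 8 6 := f1.step 3 8 (by omega) rfl (by omega)
  have f10 : Full 10 7 := f1.step 4 10 (by omega) rfl (by omega)
  have f11 : Full 11 7 := core11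
  have f12 : Full 12 7 := f3.step 4 12 (by omega) rfl (by omega)
  have f13 : Full 13 8 := core13
  have f14 : Full 14 8 := f3.step 5 14 (by omega) rfl (by omega)
  have f16 : Full 16 8 := f5.step 5 16 (by omega) rfl (by omega)
  have f17 : Full 17 8 := f6.step 5 17 (by omega) rfl (by omega)
  have f18 : Full 18 9 := f5.step 6 18 (by omega) rfl (by omega)
  have f19 : Full 19 9 := f6.step 6 19 (by omega) rfl (by omega)
  have f20 : Full 20 9 := f7.step 6 20 (by omega) rfl (by omega)
  have f21 : Full 21 9 := f8.step 6 21 (by omega) rfl (by omega)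
  have f22 : Full 22 10 := f7.step 7 22 (by omega) rfl (by omega)
  have f23 : Full 23 10 := f8.step 7 23 (by omega) rfl (by omega)
  have f24 : Full 24 10 := full24
  have f25 : Full 25 10 := f10.step 7 25 (by omega) rfl (by omega)
  have f26 : Full 26 10 := f11.step 7 26 (by omega) rfl (by omega)
  have f27 : Full 27 10 := f12.step 7 27 (by omega) rfl (by omega)
  have f28 : Full 28 11 := f11.step 8 28 (by omega) rfl (by omega)
  have f29 : Full 29 11 := f12.step 8 29 (by omega) rfl (by omega)
  have f30 : Full 30 11 := f13.step 8 30 (by omega) rfl (by omega)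
  have f31 : Full 31 11 := f14.step 8 31 (by omega) rfl (by omega)
  have f32 : Full 32 12 := f13.step 9 32 (by omega) rfl (by omega)
  have f33 : Full 33 11 := f16.step 8 33 (by omega) rfl (by omega)
  have f34 : Full 34 11 := f17.step 8 34 (by omega) rfl (by omega)
  have f35 : Full 35 12 := f16.step 9 35 (by omega) rfl (by omega)
  have f36 : Full 36 12 := f17.step 9 36 (by omega) rfl (by omega)
  have f37 : Full 37 12 := f18.step 9 37 (by omega) rfl (by omega)
  intro n hn h2 h4 h9 h15
  interval_cases n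
  all_goals first
    | exact absurd rfl h2 | exact absurd rfl h4 | exact absurd rfl h9 | exact absurd rfl h15
    | exact ⟨_, by assumption, by norm_num⟩

theorem full_all (n : ℕ) (h2 : n ≠ 2) (h4 : n ≠ 4) (h9 : n ≠ 9) (h15 : n ≠ 15) :
    ∃ e, Full n e ∧ (e ≤ 3 ∨ (e - 1) ^ 2 < 4 * n) := by
  induction n using Nat.strong_induction_on with
  | _ n ih =>
    by_cases hn : n < 38
    · exact full_small n hn h2 h4 h9 h15
    -- the largest `a` with `(a + 2) ^ 2 < 4 n`
    have hex : ∃ a, 4 * n ≤ (a + 3) ^ 2 := ⟨4 * n, by nlinarith⟩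
    obtain ⟨a, ha1, ha2⟩ : ∃ a, 4 * n ≤ (a + 3) ^ 2 ∧ (a + 2) ^ 2 < 4 * n := by
      refine ⟨Nat.find hex, Nat.find_spec hex, ?_⟩
      rcases h0 : Nat.find hex with _ | b
      · omega
      · have := Nat.find_min hex (m := b) (by omega)
        have e : b + 1 + 2 = b + 3 := by omega
        rw [e]; omega
    have ha10 : 10 ≤ a := by
      by_contra hh
      have : (a + 3) ^ 2 ≤ 12 ^ 2 := Nat.pow_le_pow_left (by omega) 2
      omega
    have hm : 2 * a + 17 ≤ n := by
      by_contra hh
      have h3 : 4 * n ≤ 4 * (2 * a + 16) := by omega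
      rcases Nat.lt_or_ge a 11 with h5 | h5
      · have : a = 10 := by omega
        subst this; omega
      · nlinarith
    obtain ⟨m, rfl⟩ : ∃ m, n = m + (2 * a + 1) := ⟨n - (2 * a + 1), by omega⟩
    obtain ⟨e, he1, he2⟩ := ih m (by omega) (by omega) (by omega) (by omega) (by omega)
    have hea : e ≤ a := by
      rcases he2 with he2 | he2
      · omega
      · by_contra hh
        have h5 : a ≤ e - 1 := by omega
        have h6 : a ^ 2 ≤ (e - 1) ^ 2 := Nat.pow_le_pow_left h5 2
        nlinarith
    refine ⟨a + 3, he1.step a _ hea rfl (Or.inr ha2), Or.inr ?_⟩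
    have e : a + 3 - 1 = a + 2 := by omega
    rw [e]; exact ha2

end Crest.Agent.R195
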